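import Vale.Agent.P123.Defs

/-!
# P123, piece C9: conjugates of functions analytic near infinity are uniform limits of
polynomials on circles
-/

open Complex Metric Set Filter Polynomial Real
open scoped Topology ComplexConjugate InnerProductSpace

universe u

namespace Vale.Agent.P123

/-- [C9] -/
theorem exists_approx_conj {e : ℂ → ℂ} (he : DifferentiableOn ℂ e (Ext 1))
    (he0 : Tendsto e (Bornology.cobounded ℂ) (𝓝 0)) {r : ℝ} (hr : 1 < r) {δ : ℝ} (hδ : 0 < δ) :
    ∃ w : ℂ[X], w.coeff 0 = 0 ∧ ∀ ζ : ℂ, ‖ζ‖ = r → ‖w.eval ζ - conj (e ζ)‖ ≤ δ := by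
  have hr0 : 0 < r := by linarith
  set f : ℂ → ℂ := Function.update (fun u => e u⁻¹) 0 0 with hf
  have hf0 : f 0 = 0 := by simp [hf]
  have hfu : ∀ u : ℂ, u ≠ 0 → f u = e u⁻¹ := fun u hu => by simp [hf, hu]
  -- differentiability on the unit ball
  have hdiff : DifferentiableOn ℂ f (ball 0 1) := by
    rw [← differentiableOn_compl_singleton_and_continuousAt_iff (ball_mem_nhds (0 : ℂ) one_pos)]
    constructor
    · have h1 : DifferentiableOn ℂ (fun u : ℂ => e u⁻¹) (ball 0 1 \ {0}) := by
        intro u hu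
        have hu0 : u ≠ 0 := hu.2
        have hmem : u⁻¹ ∈ Ext 1 := by
          show 1 < ‖u⁻¹‖
          rw [norm_inv]
          have h2 : ‖u‖ < 1 := by simpa using hu.1
          exact (one_lt_inv₀ (norm_pos_iff.mpr hu0)).mpr h2
        have h3 : DifferentiableAt ℂ e u⁻¹ :=
          he.differentiableAt ((isOpen_lt continuous_const continuous_norm).mem_nhds hmem)
        exact (h3.comp u (differentiableAt_inv hu0)).differentiableWithinAt
      exact h1.congr fun u hu => hfu u hu.2
    · rw [continuousAt_iff_punctured_nhds, hf0]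
      have h1 : Tendsto (fun u : ℂ => e u⁻¹) (𝓝[≠] 0) (𝓝 0) :=
        he0.comp tendsto_inv₀_nhdsNE_zero
      refine h1.congr' ?_
      filter_upwards [self_mem_nhdsWithin] with u hu using (hfu u hu).symm
  -- radii
  obtain ⟨R, hR1, hR2⟩ := exists_between (inv_lt_one_of_one_lt₀ hr)
  obtain ⟨R', hR'1, hR'2⟩ := exists_between hR1
  have hrinv : 0 < r⁻¹ := inv_pos.mpr hr0
  lift R to NNReal using (hrinv.trans hR1).le
  lift R' to NNReal using (hrinv.trans hR'1).le
  have hRpos : (0 : NNReal) < R := by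
    rw [← NNReal.coe_pos]; exact hrinv.trans hR1
  have hsub : closedBall (0 : ℂ) R ⊆ ball 0 1 := closedBall_subset_ball hR2
  have hps := (hdiff.mono hsub).hasFPowerSeriesOnBall hRpos
  have hunif := hps.tendstoUniformlyOn (r' := R') (by exact_mod_cast hR'2)
  rw [Metric.tendstoUniformlyOn_iff] at hunif
  obtain ⟨N, hN⟩ := (hunif δ hδ).exists
  set p := cauchyPowerSeries f 0 (R : ℝ) with hp
  -- coefficient zero
  have hc0 : p.coeff 0 = 0 := (hps.coeff_zero 1).trans hf0
  refine ⟨∑ n ∈ Finset.range N, Polynomial.monomial n (conj (p.coeff n) / (r ^ 2 : ℂ) ^ n), ?_, ?_⟩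
  · rw [Polynomial.finsetSum_coeff]
    refine Finset.sum_eq_zero fun n _ => ?_
    rw [Polynomial.coeff_monomial]
    split_ifs with h
    · rw [h, hc0]; simp
    · rfl
  · intro ζ hζ
    have hζ0 : ζ ≠ 0 := by
      intro h; rw [h, norm_zero] at hζ; linarith
    have hmem : ζ⁻¹ ∈ ball (0 : ℂ) R' := by
      rw [mem_ball_zero_iff, norm_inv, hζ]; exact hR'1
    have h1 := hN ζ⁻¹ hmem
    rw [zero_add, hfu _ (inv_ne_zero hζ0), inv_inv] at h1
    rw [dist_eq_norm] at h1
    have h2 : (∑ n ∈ Finset.range N,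
        Polynomial.monomial n (conj (p.coeff n) / (r ^ 2 : ℂ) ^ n)).eval ζ
        = conj (p.partialSum N ζ⁻¹) := by
      rw [Polynomial.eval_finsetSum, FormalMultilinearSeries.partialSum, map_sum]
      refine Finset.sum_congr rfl fun n _ => ?_
      rw [Polynomial.eval_monomial, FormalMultilinearSeries.apply_eq_pow_smul_coeff, smul_eq_mul,
        map_mul, map_pow]
      have h3 : conj ζ⁻¹ = ζ / (r ^ 2 : ℂ) := by
        rw [map_inv₀, ← hζ, ← Complex.mul_conj']
        have : conj ζ ≠ 0 := by simpa using hζ0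
        field_simp
      rw [h3, div_pow]
      ring
    rw [h2, ← map_sub, RCLike.norm_conj, norm_sub_rev]
    exact h1.le

end Vale.Agent.P123
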