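import Vale.Agent.P123.Defs

/-!
# P123, piece C0: circle averages of functions analytic near infinity
-/

open Complex Metric Set Filter Polynomial Real
open scoped Topology ComplexConjugate InnerProductSpace

universe u

namespace Vale.Agent.P123

theorem isOpen_Ext (r : ℝ) : IsOpen (Ext r) := isOpen_lt continuous_const continuous_norm

theorem circleAverage_eq_of_radii {E : Type*} [NormedAddCommGroup E] [NormedSpace ℂ E]
    [CompleteSpace E] {s r R : ℝ} (hs : 0 ≤ s) (hr : s < r) (hR : r ≤ R) {F : ℂ → E}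
    (hF : DifferentiableOn ℂ F (Ext s)) : circleAverage F 0 R = circleAverage F 0 r := by
  have hr0 : 0 < r := lt_of_le_of_lt hs hr
  have hR0 : 0 < R := lt_of_lt_of_le hr0 hR
  rw [circleAverage_eq_circleIntegral hR0.ne', circleAverage_eq_circleIntegral hr0.ne']
  congr 1
  refine circleIntegral_sub_center_inv_smul_eq_of_differentiable_on_annulus_off_countable
    hr0 hR (s := ∅) Set.countable_empty ?_ ?_
  · refine hF.continuousOn.mono fun w hw => ?_
    have : r ≤ ‖w‖ := by
      have := hw.2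
      simp only [mem_ball, dist_zero_right, not_lt] at this
      exact this
    exact lt_of_lt_of_le hr this
  · intro w hw
    refine hF.differentiableAt ((isOpen_Ext s).mem_nhds ?_)
    have := hw.1.2
    simp only [mem_closedBall, dist_zero_right, not_le] at this
    exact hr.trans this

/-- [C0] -/
theorem circleAverage_eq_of_tendsto {E : Type*} [NormedAddCommGroup E] [NormedSpace ℂ E]
    [CompleteSpace E] {s r : ℝ} (hs : 0 ≤ s) (hr : s < r) {F : ℂ → E}
    (hF : DifferentiableOn ℂ F (Ext s)) {L : E}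
    (hL : Tendsto F (Bornology.cobounded ℂ) (𝓝 L)) : circleAverage F 0 r = L := by
  have hr0 : 0 < r := lt_of_le_of_lt hs hr
  refine eq_of_forall_dist_le fun ε hε => ?_
  have h1 : ∀ᶠ ζ in Bornology.cobounded ℂ, dist (F ζ) L < ε := hL (Metric.ball_mem_nhds L hε)
  rw [← comap_norm_atTop, eventually_comap] at h1
  obtain ⟨R0, hR0⟩ := eventually_atTop.mp h1
  set R := max r R0 with hRdef
  have hRr : r ≤ R := le_max_left _ _
  have hRpos : 0 < R := lt_of_lt_of_le hr0 hRr
  rw [← circleAverage_eq_of_radii hs hr hRr hF]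
  have hint : CircleIntegrable F 0 R := by
    refine ContinuousOn.circleIntegrable hRpos.le (hF.continuousOn.mono fun w hw => ?_)
    have : ‖w‖ = R := by simpa using hw
    show s < ‖w‖
    rw [this]; exact lt_of_lt_of_le hr hRr
  have h2 : circleAverage F 0 R - L = circleAverage (fun ζ => F ζ - L) 0 R := by
    rw [circleAverage_fun_sub hint (circleIntegrable_const L 0 R), circleAverage_const]
  rw [dist_eq_norm, h2, circleAverage_def, norm_smul, norm_inv, norm_of_nonneg (by positivity)]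
  have h3 : ‖∫ θ in (0 : ℝ)..2 * π, F (circleMap 0 R θ) - L‖ ≤ ε * |2 * π - 0| := by
    refine intervalIntegral.norm_integral_le_of_norm_le_const fun θ _ => ?_
    have hn : ‖circleMap 0 R θ‖ = R := by
      rw [norm_circleMap_zero, abs_of_pos hRpos]
    have := hR0 R (le_max_right _ _) (circleMap 0 R θ) hn
    rw [dist_eq_norm] at this
    exact this.le
  rw [sub_zero, abs_of_pos (by positivity)] at h3
  calc (2 * π)⁻¹ * ‖∫ θ in (0 : ℝ)..2 * π, F (circleMap 0 R θ) - L‖
      ≤ (2 * π)⁻¹ * (ε * (2 * π)) := by gcongr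
    _ = ε := by field_simp

/-- [C0'] -/
theorem circleAverage_deriv_mul_eval {z : ℂ → ℂ} (hz : DifferentiableOn ℂ z (Ext 1)) {r : ℝ}
    (hr : 1 < r) {E : Type*} [NormedAddCommGroup E] [NormedSpace ℂ E] [CompleteSpace E]
    (n : ℕ) (v : E) :
    circleAverage (fun ζ => (ζ * deriv z ζ * z ζ ^ n) • v) 0 r = 0 := by
  have hr0 : 0 < r := by linarith
  rw [circleAverage_eq_circleIntegral hr0.ne']
  have h1 : (∮ ζ in C(0, r), (ζ - 0)⁻¹ • (ζ * deriv z ζ * z ζ ^ n) • v)
      = ∮ ζ in C(0, r), (deriv z ζ * z ζ ^ n) • v := by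
    refine circleIntegral.integral_congr hr0.le fun ζ hζ => ?_
    have hn : ‖ζ‖ = r := by simpa using hζ
    have h0 : ζ ≠ 0 := by
      intro h; rw [h, norm_zero] at hn; linarith
    simp only [sub_zero]
    rw [smul_smul]
    congr 1
    field_simp
  rw [h1]
  have h2 : (∮ ζ in C(0, r), (deriv z ζ * z ζ ^ n) • v) = 0 := by
    refine circleIntegral.integral_eq_zero_of_hasDerivWithinAt (f := fun ζ =>
      (z ζ ^ (n + 1) / (n + 1)) • v) hr0.le fun ζ hζ => ?_
    have hn : ‖ζ‖ = r := by simpa using hζ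
    have hmem : ζ ∈ Ext 1 := by show 1 < ‖ζ‖; rw [hn]; exact hr
    have hd : HasDerivAt z (deriv z ζ) ζ :=
      (hz.differentiableAt ((isOpen_Ext 1).mem_nhds hmem)).hasDerivAt
    have h3 := ((hd.pow (n + 1)).div_const ((n : ℂ) + 1)).smul_const v
    refine (h3.congr_deriv ?_).hasDerivWithinAt
    congr 1
    have : (n : ℂ) + 1 ≠ 0 := by exact_mod_cast Nat.succ_ne_zero n
    push_cast
    field_simp
  rw [h2, smul_zero]

/-- [C6] -/
theorem tendsto_deriv {z : ℂ → ℂ} {c : ℂ} (hz : DifferentiableOn ℂ z (Ext 1))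
    (hlim : Tendsto (fun ζ => z ζ / ζ) (Bornology.cobounded ℂ) (𝓝 c)) :
    Tendsto (deriv z) (Bornology.cobounded ℂ) (𝓝 c) := by
  rw [Metric.tendsto_nhds]
  intro ε hε
  have h1 : ∀ᶠ ζ in Bornology.cobounded ℂ, dist (z ζ / ζ) c < ε / 4 :=
    hlim (Metric.ball_mem_nhds c (by positivity))
  rw [← comap_norm_atTop, eventually_comap] at h1
  obtain ⟨R0, hR0⟩ := eventually_atTop.mp h1
  rw [← comap_norm_atTop, eventually_comap]
  refine eventually_atTop.mpr ⟨max (2 * R0) 4, fun b hb ζ hζ => ?_⟩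
  have hζ1 : 2 * R0 ≤ ‖ζ‖ := by rw [hζ]; exact (le_max_left _ _).trans hb
  have hζ2 : 4 ≤ ‖ζ‖ := by rw [hζ]; exact (le_max_right _ _).trans hb
  have hball : ∀ w ∈ closedBall ζ (‖ζ‖ / 2), ‖ζ‖ / 2 ≤ ‖w‖ ∧ ‖w‖ ≤ 3 / 2 * ‖ζ‖ := by
    intro w hw
    rw [mem_closedBall, dist_eq_norm] at hw
    constructor
    · have := norm_sub_norm_le ζ w
      rw [norm_sub_rev] at this
      linarith
    · have := norm_sub_norm_le w ζ
      linarith
  have hsub : closedBall ζ (‖ζ‖ / 2) ⊆ Ext 1 := by
    intro w hw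
    have := (hball w hw).1
    show 1 < ‖w‖
    linarith
  have hdiff : DifferentiableOn ℂ (fun w => z w - c * w) (closedBall ζ (‖ζ‖ / 2)) :=
    (hz.mono hsub).sub ((differentiableOn_id).const_mul c)
  have hmain := norm_deriv_le_of_forall_mem_sphere_norm_le (c := ζ) (R := ‖ζ‖ / 2)
    (C := ε / 4 * (3 / 2 * ‖ζ‖)) (f := fun w => z w - c * w) (by linarith)
    (hdiff.diffContOnCl_ball subset_rfl) ?_
  · have hmem : ζ ∈ Ext 1 := by show 1 < ‖ζ‖; linarith
    have hd : HasDerivAt z (deriv z ζ) ζ :=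
      (hz.differentiableAt ((isOpen_Ext 1).mem_nhds hmem)).hasDerivAt
    have hd2 : deriv (fun w => z w - c * w) ζ = deriv z ζ - c := by
      have := (hd.sub ((hasDerivAt_id ζ).const_mul c)).deriv
      rw [mul_one] at this
      exact this
    rw [hd2] at hmain
    rw [dist_eq_norm]
    refine lt_of_le_of_lt hmain ?_
    rw [div_lt_iff₀ (by linarith)]
    nlinarith
  · intro w hw
    have hw' := hball w (sphere_subset_closedBall hw)
    have hwn : w ≠ 0 := by
      intro h; rw [h, norm_zero] at hw'; linarith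
    have hdist := hR0 ‖w‖ (by linarith) w rfl
    have : z w - c * w = (z w / w - c) * w := by field_simp
    rw [this, norm_mul]
    rw [dist_eq_norm] at hdist
    have := norm_nonneg w
    nlinarith [hw'.2, norm_nonneg (z w / w - c)]

end Vale.Agent.P123
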