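import Vale.Agent.P123.Defs

/-!
# P123, pieces [D1]: the kernel `ζ z'(ζ) (z(ζ) - B)⁻¹`
-/

open Complex Metric Set Filter Polynomial Real
open scoped Topology ComplexConjugate InnerProductSpace

universe u

namespace Vale.Agent.P123

theorem kn_isOpen_Ext (r : ℝ) : IsOpen (Ext r) := isOpen_lt continuous_const continuous_norm

/-- own copy of C6 (Cauchy estimate) -/
theorem kn_tendsto_deriv {z : ℂ → ℂ} {c : ℂ} (hz : DifferentiableOn ℂ z (Ext 1))
    (hlim : Tendsto (fun ζ => z ζ / ζ) (Bornology.cobounded ℂ) (𝓝 c)) :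
    Tendsto (deriv z) (Bornology.cobounded ℂ) (𝓝 c) := by
  rw [Metric.tendsto_nhds]
  intro ε hε
  have h1 : ∀ᶠ ζ in Bornology.cobounded ℂ, dist (z ζ / ζ) c < ε / 4 :=
    (Metric.tendsto_nhds.mp hlim) (ε / 4) (by positivity)
  rw [Filter.HasBasis.eventually_iff (Metric.hasBasis_cobounded_compl_closedBall (0 : ℂ))] at h1 ⊢
  obtain ⟨R, -, hR⟩ := h1
  refine ⟨2 * (|R| + 2), trivial, ?_⟩
  intro ζ hζ
  have hζn : 2 * (|R| + 2) < ‖ζ‖ := by simpa using hζ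
  have habs : 0 ≤ |R| := abs_nonneg R
  have hζ0 : 0 < ‖ζ‖ := by linarith
  have hsub : closedBall ζ (‖ζ‖ / 2) ⊆ Ext 1 := by
    intro ξ hξ
    have h2 : ‖ξ - ζ‖ ≤ ‖ζ‖ / 2 := by simpa [dist_eq_norm] using hξ
    have h3 : ‖ζ‖ ≤ ‖ξ‖ + ‖ξ - ζ‖ := by
      calc ‖ζ‖ = ‖ξ - (ξ - ζ)‖ := by ring_nf
        _ ≤ ‖ξ‖ + ‖ξ - ζ‖ := norm_sub_le _ _
    change 1 < ‖ξ‖
    linarith
  have hzd : DifferentiableAt ℂ z ζ :=
    (hz ζ (hsub (mem_closedBall_self (by positivity)))).differentiableAt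
      ((kn_isOpen_Ext 1).mem_nhds (hsub (mem_closedBall_self (by positivity))))
  have hcb : ∀ ξ ∈ sphere ζ (‖ζ‖ / 2), ‖z ξ - c * ξ‖ ≤ (ε / 4) * (3 / 2 * ‖ζ‖) := by
    intro ξ hξ
    have h2 : ‖ξ - ζ‖ = ‖ζ‖ / 2 := by simpa [dist_eq_norm] using hξ
    have h3 : ‖ζ‖ ≤ ‖ξ‖ + ‖ξ - ζ‖ := by
      calc ‖ζ‖ = ‖ξ - (ξ - ζ)‖ := by ring_nf
        _ ≤ ‖ξ‖ + ‖ξ - ζ‖ := norm_sub_le _ _
    have h4 : ‖ξ‖ ≤ ‖ζ‖ + ‖ξ - ζ‖ := by
      calc ‖ξ‖ = ‖ζ + (ξ - ζ)‖ := by ring_nf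
        _ ≤ ‖ζ‖ + ‖ξ - ζ‖ := norm_add_le _ _
    have hξR : R < ‖ξ‖ := by
      have := le_abs_self R
      linarith
    have hξ0 : ξ ≠ 0 := by
      rw [← norm_pos_iff]; linarith
    have h5 := hR (show ξ ∈ (closedBall (0 : ℂ) R)ᶜ by simpa using hξR)
    rw [dist_eq_norm] at h5
    have h6 : z ξ - c * ξ = (z ξ / ξ - c) * ξ := by field_simp
    rw [h6, norm_mul]
    have h7 : ‖ξ‖ ≤ 3 / 2 * ‖ζ‖ := by linarith
    gcongr
  have hdiffcl : DiffContOnCl ℂ (fun ξ => z ξ - c * ξ) (ball ζ (‖ζ‖ / 2)) := by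
    apply DifferentiableOn.diffContOnCl
    rw [closure_ball ζ (by positivity)]
    apply DifferentiableOn.sub (hz.mono hsub)
    exact (differentiable_const c).differentiableOn.mul differentiable_id.differentiableOn
  have hder := Complex.norm_deriv_le_of_forall_mem_sphere_norm_le (by positivity) hdiffcl hcb
  have hd : deriv (fun ξ => z ξ - c * ξ) ζ = deriv z ζ - c := by
    have h8 : HasDerivAt (fun ξ => z ξ - c * ξ) (deriv z ζ - c * 1) ζ :=
      hzd.hasDerivAt.sub ((hasDerivAt_id ζ).const_mul c)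
    rw [h8.deriv, mul_one]
  rw [hd] at hder
  rw [dist_eq_norm]
  refine lt_of_le_of_lt hder ?_
  have h9 : (ε / 4) * (3 / 2 * ‖ζ‖) / (‖ζ‖ / 2) = 3 / 4 * ε := by
    field_simp
  rw [h9]
  linarith

variable {V : Type*} [NormedAddCommGroup V] [InnerProductSpace ℂ V] [FiniteDimensional ℂ V]

/-- [D1] Kernel.lean -/
theorem isUnit_sub {K : Set ℂ} (B : V →L[ℂ] V) (hB : numRange B ⊆ K) {p : ℂ} (hp : p ∉ K) :
    IsUnit (algebraMap ℂ (V →L[ℂ] V) p - B) := by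
  have hinj : Function.Injective (algebraMap ℂ (V →L[ℂ] V) p - B) := by
    rw [injective_iff_map_eq_zero]
    intro x hx
    by_contra hx0
    apply hp
    apply hB
    have hnx : (0 : ℝ) < ‖x‖ := norm_pos_iff.mpr hx0
    have hBx : B x = p • x := by
      have h1 : (algebraMap ℂ (V →L[ℂ] V) p - B) x = p • x - B x := by
        rw [_root_.sub_apply, Algebra.algebraMap_eq_smul_one]
        simp
      rw [h1, sub_eq_zero] at hx
      exact hx.symm
    refine ⟨((‖x‖⁻¹ : ℝ) : ℂ) • x, ?_, ?_⟩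
    · rw [norm_smul]
      simp [hnx.ne']
    · rw [map_smul, hBx, inner_smul_left, inner_smul_right, inner_smul_right,
        inner_self_eq_norm_sq_to_K]
      have hnx' : ((‖x‖ : ℝ) : ℂ) ≠ 0 := by exact_mod_cast hnx.ne'
      simp only [Complex.conj_ofReal]
      change ((‖x‖⁻¹ : ℝ) : ℂ) * (((‖x‖⁻¹ : ℝ) : ℂ) * (p * ((‖x‖ : ℝ) : ℂ) ^ 2)) = p
      rw [Complex.ofReal_inv]
      field_simp
  have hker : LinearMap.ker ((algebraMap ℂ (V →L[ℂ] V) p - B : V →L[ℂ] V) : V →ₗ[ℂ] V) = ⊥ := by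
    rw [LinearMap.ker_eq_bot]
    exact hinj
  have hunit : IsUnit ((algebraMap ℂ (V →L[ℂ] V) p - B : V →L[ℂ] V) : V →ₗ[ℂ] V) := by
    rw [LinearMap.isUnit_iff_ker_eq_bot]
    exact hker
  obtain ⟨U, hU⟩ := hunit
  refine ⟨⟨algebraMap ℂ (V →L[ℂ] V) p - B, LinearMap.toContinuousLinearMap (U⁻¹ : (V →ₗ[ℂ] V)ˣ).1,
    ?_, ?_⟩, rfl⟩
  · ext x
    have h := LinearMap.congr_fun (Units.mul_inv U) x
    rw [hU] at h
    exact h
  · ext x
    have h := LinearMap.congr_fun (Units.inv_mul U) x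
    rw [hU] at h
    exact h

theorem kn_mem_resolventSet {K : Set ℂ} (B : V →L[ℂ] V) (hB : numRange B ⊆ K) {p : ℂ}
    (hp : p ∉ K) : p ∈ resolventSet ℂ B := isUnit_sub B hB hp

/-- `(p - B) (p - B)⁻¹ x = x` -/
theorem kn_sub_resolvent_apply {K : Set ℂ} (B : V →L[ℂ] V) (hB : numRange B ⊆ K) {p : ℂ}
    (hp : p ∉ K) (x : V) : p • resolvent B p x - B (resolvent B p x) = x := by
  have h := Ring.mul_inverse_cancel _ (isUnit_sub B hB hp)
  have h2 : (algebraMap ℂ (V →L[ℂ] V) p - B) (resolvent B p x) = x := by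
    have := congrArg (fun T : V →L[ℂ] V => T x) h
    exact this
  have h1 : (algebraMap ℂ (V →L[ℂ] V) p - B) (resolvent B p x) =
      p • resolvent B p x - B (resolvent B p x) := by
    rw [_root_.sub_apply, Algebra.algebraMap_eq_smul_one]
    simp
  rw [← h1]
  exact h2

/-- [D1] Kernel.lean -/
theorem ker_differentiableOn {K : Set ℂ} {z : ℂ → ℂ} {c : ℂ} (hz : GoodMap K z c)
    (B : V →L[ℂ] V) (hB : numRange B ⊆ K) : DifferentiableOn ℂ (ker z B) (Ext 1) := by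
  have : CompleteSpace V := FiniteDimensional.complete ℂ V
  have h1 : DifferentiableOn ℂ (fun ζ => ζ * deriv z ζ) (Ext 1) :=
    differentiable_id.differentiableOn.mul (hz.diff.deriv (kn_isOpen_Ext 1))
  apply h1.smul
  intro ζ hζ
  have h2 : DifferentiableAt ℂ (resolvent B) (z ζ) :=
    (spectrum.hasDerivAt_resolvent_const_left (kn_mem_resolventSet B hB (hz.avoid ζ hζ))).differentiableAt
  have h3 : DifferentiableWithinAt ℂ z (Ext 1) ζ := hz.diff ζ hζ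
  exact h2.comp_differentiableWithinAt ζ h3

theorem kn_tendsto_cobounded {z : ℂ → ℂ} {c : ℂ} (hc : c ≠ 0)
    (hlim : Tendsto (fun ζ => z ζ / ζ) (Bornology.cobounded ℂ) (𝓝 c)) :
    Tendsto z (Bornology.cobounded ℂ) (Bornology.cobounded ℂ) := by
  have h1 : Tendsto (fun ζ => ‖z ζ / ζ‖ * ‖ζ‖) (Bornology.cobounded ℂ) atTop :=
    Filter.Tendsto.pos_mul_atTop (norm_pos_iff.mpr hc) hlim.norm tendsto_norm_cobounded_atTop
  rw [← tendsto_norm_atTop_iff_cobounded]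
  refine h1.congr' ?_
  have h2 : ∀ᶠ ζ : ℂ in Bornology.cobounded ℂ, ζ ≠ 0 := by
    have := (tendsto_norm_cobounded_atTop (E := ℂ)).eventually (eventually_gt_atTop 0)
    filter_upwards [this] with ζ hζ
    exact norm_pos_iff.mp hζ
  filter_upwards [h2] with ζ hζ
  rw [norm_div, div_mul_cancel₀ _ (norm_ne_zero_iff.mpr hζ)]

/-- `p (p - B)⁻¹ → 1` as `p → ∞` -/
theorem kn_smul_resolvent_tendsto (B : V →L[ℂ] V) :
    Tendsto (fun p : ℂ => p • resolvent B p) (Bornology.cobounded ℂ) (𝓝 1) := by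
  have : CompleteSpace V := FiniteDimensional.complete ℂ V
  have h1 : Tendsto (fun p : ℂ => 1 + B * resolvent B p) (Bornology.cobounded ℂ)
      (𝓝 (1 + B * 0)) :=
    tendsto_const_nhds.add ((spectrum.resolvent_tendsto_cobounded B).const_mul B)
  rw [mul_zero, add_zero] at h1
  refine h1.congr' ?_
  filter_upwards [spectrum.eventually_isUnit_resolvent (𝕜 := ℂ) B] with p hp
  have h2 : IsUnit (algebraMap ℂ (V →L[ℂ] V) p - B) := by
    rw [spectrum.isUnit_resolvent.symm] at hp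
    exact hp
  have h3 := Ring.mul_inverse_cancel _ h2
  have h4 : (algebraMap ℂ (V →L[ℂ] V) p - B) * resolvent B p = 1 := h3
  rw [sub_mul, Algebra.algebraMap_eq_smul_one, smul_mul_assoc, one_mul] at h4
  rw [← h4]
  abel

/-- [D1] Kernel.lean -/
theorem ker_tendsto {K : Set ℂ} {z : ℂ → ℂ} {c : ℂ} (hz : GoodMap K z c)
    (B : V →L[ℂ] V) : Tendsto (ker z B) (Bornology.cobounded ℂ) (𝓝 1) := by
  have hz1 := kn_tendsto_cobounded hz.c_ne hz.lim
  have h1 : Tendsto (fun ζ => z ζ • resolvent B (z ζ)) (Bornology.cobounded ℂ) (𝓝 1) :=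
    (kn_smul_resolvent_tendsto B).comp hz1
  have h2 : Tendsto (fun ζ => (z ζ / ζ)⁻¹ * deriv z ζ) (Bornology.cobounded ℂ)
      (𝓝 (c⁻¹ * c)) := (hz.lim.inv₀ hz.c_ne).mul (kn_tendsto_deriv hz.diff hz.lim)
  rw [inv_mul_cancel₀ hz.c_ne] at h2
  have h3 := h2.smul h1
  rw [one_smul] at h3
  refine h3.congr' ?_
  have h4 : ∀ᶠ ζ : ℂ in Bornology.cobounded ℂ, z ζ ≠ 0 := by
    have := (tendsto_norm_cobounded_atTop (E := ℂ)).comp hz1
    filter_upwards [this.eventually (eventually_gt_atTop 0)] with ζ hζ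
    exact norm_pos_iff.mp hζ
  filter_upwards [h4] with ζ hζ
  rw [smul_smul, ker, inv_div]
  congr 1
  field_simp

end Vale.Agent.P123
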