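import Vale.Agent.P123.Avg

/-!
# P123 [C4]: orthogonality of positive and negative frequencies
-/

open Complex Metric Set Filter Polynomial Real
open scoped Topology ComplexConjugate InnerProductSpace

namespace Vale.Agent.P123

namespace Orth

theorem conj_eq {ζ : ℂ} {r : ℝ} (hr : 0 < r) (h : ‖ζ‖ = r) : conj ζ = (r : ℂ) ^ 2 / ζ := by
  have h0 : ζ ≠ 0 := by
    rintro rfl
    simp at h
    linarith
  rw [eq_div_iff h0, mul_comm, Complex.mul_conj, Complex.normSq_eq_norm_sq, h]
  push_cast; rfl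

theorem conj_eval (w : ℂ[X]) (ζ : ℂ) :
    conj (w.eval ζ) = (w.map (starRingEnd ℂ)).eval (conj ζ) := by
  rw [eval_map, eval₂_hom]

theorem ext_ne {ζ : ℂ} (h : ζ ∈ Ext 1) : ζ ≠ 0 := by
  rintro rfl
  have : (1 : ℝ) < ‖(0 : ℂ)‖ := h
  simp at this
  linarith

theorem ext_open (s : ℝ) : IsOpen (Ext s) := isOpen_lt continuous_const continuous_norm

theorem sphere_sub {r : ℝ} (hr : 1 < r) : sphere (0 : ℂ) |r| ⊆ Ext 1 := by
  intro ζ hζ
  rw [mem_sphere_zero_iff_norm, abs_of_pos (by linarith)] at hζ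
  show 1 < ‖ζ‖
  rw [hζ]; exact hr

theorem ci {E : Type*} [NormedAddCommGroup E] [NormedSpace ℂ E] {f : ℂ → E} {r : ℝ} (hr : 1 < r)
    (hf : ContinuousOn f (Ext 1)) : CircleIntegrable f 0 r :=
  (hf.mono (sphere_sub hr)).circleIntegrable'

end Orth

open Orth

/-- [C4] -/
theorem avg_conj_mul {w : ℂ[X]} (hw : w.coeff 0 = 0) {v : ℂ → ℂ}
    (hv : DifferentiableOn ℂ v (Ext 1)) {L : ℂ}
    (hv0 : Tendsto v (Bornology.cobounded ℂ) (𝓝 L))
    {r : ℝ} (hr : 1 < r) : circleAverage (fun ζ => conj (w.eval ζ) * v ζ) 0 r = 0 := by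
  set W : ℂ → ℂ := fun ζ => (w.map (starRingEnd ℂ)).eval ((r : ℂ) ^ 2 / ζ) with hW
  have h1 : circleAverage (fun ζ => conj (w.eval ζ) * v ζ) 0 r =
      circleAverage (fun ζ => W ζ * v ζ) 0 r := by
    refine circleAverage_congr_sphere fun ζ hζ => ?_
    rw [mem_sphere_zero_iff_norm, abs_of_pos (by linarith)] at hζ
    simp only [hW]
    rw [conj_eval, conj_eq (by linarith) hζ]
  rw [h1]
  have hWd : DifferentiableOn ℂ W (Ext 1) := by
    refine (w.map (starRingEnd ℂ)).differentiable.comp_differentiableOn ?_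
    exact (differentiableOn_const _).div differentiableOn_id fun ζ hζ => ext_ne hζ
  have hWt : Tendsto W (Bornology.cobounded ℂ) (𝓝 0) := by
    have h2 : Tendsto (fun ζ : ℂ => (r : ℂ) ^ 2 / ζ) (Bornology.cobounded ℂ) (𝓝 0) := by
      have := (tendsto_inv₀_cobounded (α := ℂ)).const_mul ((r : ℂ) ^ 2)
      rw [mul_zero] at this
      exact this.congr fun ζ => by rw [div_eq_mul_inv]
    have h3 := ((w.map (starRingEnd ℂ)).continuous.tendsto 0).comp h2
    have h4 : (w.map (starRingEnd ℂ)).eval 0 = 0 := by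
      rw [← coeff_zero_eq_eval_zero, coeff_map, hw, map_zero]
    rw [h4] at h3
    exact h3
  have := circleAverage_eq_of_tendsto (s := 1) (by norm_num) hr (hWd.mul hv) (L := 0 * L)
    (hWt.mul hv0)
  rw [zero_mul] at this
  exact this

/-- [C4'] -/
theorem avg_pythagoras {w : ℂ[X]} (hw : w.coeff 0 = 0) (g0 : ℂ) {v : ℂ → ℂ}
    (hv : DifferentiableOn ℂ v (Ext 1)) (hv0 : Tendsto v (Bornology.cobounded ℂ) (𝓝 0))
    {r : ℝ} (hr : 1 < r) :
    circleAverage (fun ζ => ‖w.eval ζ + g0 + v ζ‖ ^ 2) 0 r =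
      circleAverage (fun ζ => ‖w.eval ζ‖ ^ 2) 0 r + ‖g0‖ ^ 2
        + circleAverage (fun ζ => ‖v ζ‖ ^ 2) 0 r := by
  have cw : ContinuousOn (fun ζ => w.eval ζ) (Ext 1) := w.continuous.continuousOn
  have cv : ContinuousOn v (Ext 1) := hv.continuousOn
  have ccw : ContinuousOn (fun ζ => conj (w.eval ζ)) (Ext 1) :=
    Complex.continuous_conj.comp_continuousOn cw
  -- the three cross terms
  have a1 : circleAverage (fun ζ => (conj (w.eval ζ) * v ζ).re) 0 r = 0 := by
    have h1 := avg_conj_mul hw hv hv0 hr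
    have h2 := (Complex.reCLM).circleAverage_comp_comm (ci hr (ccw.mul cv))
    have h3 : circleAverage (fun ζ => (conj (w.eval ζ) * v ζ).re) 0 r =
        (circleAverage (fun ζ => conj (w.eval ζ) * v ζ) 0 r).re := h2
    rw [h3, h1]; rfl
  have a2 : circleAverage (fun ζ => (conj (w.eval ζ) * g0).re) 0 r = 0 := by
    have h1 := avg_conj_mul hw (v := fun _ => g0) (differentiableOn_const _)
      (tendsto_const_nhds) hr
    have h2 := (Complex.reCLM).circleAverage_comp_comm (ci hr (ccw.mul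
      (continuousOn_const (c := g0))))
    have h3 : circleAverage (fun ζ => (conj (w.eval ζ) * g0).re) 0 r =
        (circleAverage (fun ζ => conj (w.eval ζ) * g0) 0 r).re := h2
    rw [h3, h1]; rfl
  have a3 : circleAverage (fun ζ => (conj g0 * v ζ).re) 0 r = 0 := by
    have h1 := circleAverage_eq_of_tendsto (s := 1) (by norm_num) hr
      ((differentiableOn_const (conj g0)).mul hv) (L := conj g0 * 0) (tendsto_const_nhds.mul hv0)
    have h2 := (Complex.reCLM).circleAverage_comp_comm (ci hr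
      ((continuousOn_const (c := conj g0)).mul cv))
    have h3 : circleAverage (fun ζ => (conj g0 * v ζ).re) 0 r =
        (circleAverage (fun ζ => conj g0 * v ζ) 0 r).re := h2
    rw [mul_zero] at h1
    rw [h3]
    have h4 : circleAverage (fun ζ => conj g0 * v ζ) 0 r = 0 := h1
    rw [h4]; rfl
  have key : (fun ζ => ‖w.eval ζ + g0 + v ζ‖ ^ 2) =
      (((fun ζ => ‖w.eval ζ‖ ^ 2) + fun _ => ‖g0‖ ^ 2) + fun ζ => ‖v ζ‖ ^ 2) +
        (((fun ζ => 2 * (conj (w.eval ζ) * g0).re) +
        fun ζ => 2 * (conj (w.eval ζ) * v ζ).re) + fun ζ => 2 * (conj g0 * v ζ).re) := by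
    funext ζ
    simp only [Pi.add_apply, ← Complex.normSq_eq_norm_sq, Complex.normSq_apply, Complex.add_re, Complex.add_im,
      Complex.mul_re, Complex.conj_re, Complex.conj_im]
    ring
  rw [key]
  have i1 : CircleIntegrable (fun ζ => ‖w.eval ζ‖ ^ 2) 0 r := by
    refine ContinuousOn.circleIntegrable' ?_
    exact (cw.norm.pow 2).mono (sphere_sub hr)
  have i2 : CircleIntegrable (fun ζ => ‖v ζ‖ ^ 2) 0 r := by
    refine ContinuousOn.circleIntegrable' ?_
    exact (cv.norm.pow 2).mono (sphere_sub hr)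
  have i0 : CircleIntegrable (fun _ : ℂ => ‖g0‖ ^ 2) 0 r := circleIntegrable_const _ _ _
  have j1 : CircleIntegrable (fun ζ => 2 * (conj (w.eval ζ) * g0).re) 0 r := by
    refine ContinuousOn.circleIntegrable' ?_
    exact (continuousOn_const.mul (Complex.continuous_re.comp_continuousOn
      (ccw.mul continuousOn_const))).mono (sphere_sub hr)
  have j2 : CircleIntegrable (fun ζ => 2 * (conj (w.eval ζ) * v ζ).re) 0 r := by
    refine ContinuousOn.circleIntegrable' ?_
    exact (continuousOn_const.mul (Complex.continuous_re.comp_continuousOn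
      (ccw.mul cv))).mono (sphere_sub hr)
  have j3 : CircleIntegrable (fun ζ => 2 * (conj g0 * v ζ).re) 0 r := by
    refine ContinuousOn.circleIntegrable' ?_
    exact (continuousOn_const.mul (Complex.continuous_re.comp_continuousOn
      (continuousOn_const.mul cv))).mono (sphere_sub hr)
  have m1 : circleAverage (fun ζ => 2 * (conj (w.eval ζ) * g0).re) 0 r = 0 := by
    have := circleAverage_fun_smul (a := (2 : ℝ)) (f := fun ζ => (conj (w.eval ζ) * g0).re)
      (c := 0) (R := r)
    simp only [smul_eq_mul] at this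
    rw [this, a2, mul_zero]
  have m2 : circleAverage (fun ζ => 2 * (conj (w.eval ζ) * v ζ).re) 0 r = 0 := by
    have := circleAverage_fun_smul (a := (2 : ℝ)) (f := fun ζ => (conj (w.eval ζ) * v ζ).re)
      (c := 0) (R := r)
    simp only [smul_eq_mul] at this
    rw [this, a1, mul_zero]
  have m3 : circleAverage (fun ζ => 2 * (conj g0 * v ζ).re) 0 r = 0 := by
    have := circleAverage_fun_smul (a := (2 : ℝ)) (f := fun ζ => (conj g0 * v ζ).re)
      (c := 0) (R := r)
    simp only [smul_eq_mul] at this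
    rw [this, a3, mul_zero]
  rw [circleAverage_add ((i1.add i0).add i2) ((j1.add j2).add j3),
    circleAverage_add (i1.add i0) i2, circleAverage_add i1 i0,
    circleAverage_add (j1.add j2) j3, circleAverage_add j1 j2, m1, m2, m3,
    circleAverage_const]
  ring

end Vale.Agent.P123
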