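import Vale.Agent.P123.Avg
import Vale.Agent.P123.Kernel
import Vale.Agent.P123.Orth

/-!
# P123, pieces D2, D3: the functional calculus on a level circle
-/

open Complex Metric Set Filter Polynomial Real
open scoped Topology ComplexConjugate InnerProductSpace

universe u

namespace Vale.Agent.P123

variable {V : Type*} [NormedAddCommGroup V] [InnerProductSpace ℂ V] [FiniteDimensional ℂ V]

theorem circleIntegrable_of_differentiableOn {E : Type*} [NormedAddCommGroup E] [NormedSpace ℂ E]
    {F : ℂ → E} (hF : ContinuousOn F (Ext 1)) {r : ℝ} (hr : 1 < r) : CircleIntegrable F 0 r := by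
  refine ContinuousOn.circleIntegrable (by linarith) (hF.mono fun w hw => ?_)
  have : ‖w‖ = r := by simpa using hw
  show 1 < ‖w‖
  rw [this]; exact hr

theorem continuousOn_deriv {z : ℂ → ℂ} (hz : DifferentiableOn ℂ z (Ext 1)) :
    DifferentiableOn ℂ (deriv z) (Ext 1) := hz.deriv (isOpen_Ext 1)

theorem resolvent_step {K : Set ℂ} {z : ℂ → ℂ} {c : ℂ} (hz : GoodMap K z c)
    (B : V →L[ℂ] V) (hB : numRange B ⊆ K) {ζ : ℂ} (hζ : ζ ∈ Ext 1) :
    z ζ • resolvent B (z ζ) = 1 + B * resolvent B (z ζ) := by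
  have hu := isUnit_sub B hB (hz.avoid ζ hζ)
  have h1 : (algebraMap ℂ (V →L[ℂ] V) (z ζ) - B) * resolvent B (z ζ) = 1 :=
    Ring.mul_inverse_cancel _ hu
  rw [sub_mul, ← Algebra.smul_def] at h1
  rw [← h1]; abel

theorem avg_pow_ker {K : Set ℂ} {z : ℂ → ℂ} {c : ℂ} (hz : GoodMap K z c)
    (B : V →L[ℂ] V) (hB : numRange B ⊆ K) {r : ℝ} (hr : 1 < r) (n : ℕ) :
    circleAverage (fun ζ => z ζ ^ n • ker z B ζ) 0 r = B ^ n := by
  have : CompleteSpace V := FiniteDimensional.complete ℂ V
  induction n with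
  | zero =>
    simp only [pow_zero, one_smul]
    exact circleAverage_eq_of_tendsto zero_le_one hr (ker_differentiableOn hz B hB)
      (ker_tendsto hz B)
  | succ n ih =>
    have hkerc : ContinuousOn (ker z B) (Ext 1) := (ker_differentiableOn hz B hB).continuousOn
    have h1 : EqOn (fun ζ => z ζ ^ (n + 1) • ker z B ζ)
        (fun ζ => (ζ * deriv z ζ * z ζ ^ n) • (1 : V →L[ℂ] V)
          + (ContinuousLinearMap.mul ℂ (V →L[ℂ] V) B) (z ζ ^ n • ker z B ζ)) (sphere 0 |r|) := by
      intro ζ hζ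
      have hn : ‖ζ‖ = r := by
        have : ‖ζ‖ = |r| := by simpa using hζ
        rw [this, abs_of_pos (by linarith)]
      have hmem : ζ ∈ Ext 1 := by show 1 < ‖ζ‖; rw [hn]; exact hr
      have hs := resolvent_step hz B hB hmem
      simp only [ker, ContinuousLinearMap.mul_apply', mul_smul_comm]
      rw [show z ζ ^ (n + 1) • (ζ * deriv z ζ) • resolvent B (z ζ)
        = (ζ * deriv z ζ * z ζ ^ n) • (z ζ • resolvent B (z ζ)) by
          rw [smul_smul, smul_smul]; congr 1; ring, hs, smul_add, smul_smul]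
      congr 2
      ring
    rw [circleAverage_congr_sphere h1, circleAverage_fun_add, circleAverage_deriv_mul_eval hz.diff hr,
      zero_add]
    · have h2 := ((ContinuousLinearMap.mul ℂ (V →L[ℂ] V) B).restrictScalars ℝ).circleAverage_comp_comm
        (f := fun ζ => z ζ ^ n • ker z B ζ) (c := 0) (R := r)
        (circleIntegrable_of_differentiableOn ((hz.diff.continuousOn.pow n).smul hkerc) hr)
      rw [ih] at h2
      simp only [ContinuousLinearMap.coe_restrictScalars', ContinuousLinearMap.mul_apply'] at h2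
      rw [pow_succ', ← h2]
      rfl
    · refine circleIntegrable_of_differentiableOn ?_ hr
      exact ((continuousOn_id.mul (continuousOn_deriv hz.diff).continuousOn).mul
        (hz.diff.continuousOn.pow n)).smul continuousOn_const
    · refine circleIntegrable_of_differentiableOn ?_ hr
      exact (ContinuousLinearMap.continuous _).comp_continuousOn
        ((hz.diff.continuousOn.pow n).smul hkerc)

/-- [D2] -/
theorem avg_eval_ker {K : Set ℂ} {z : ℂ → ℂ} {c : ℂ} (hz : GoodMap K z c)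
    (B : V →L[ℂ] V) (hB : numRange B ⊆ K) (g : ℂ[X]) {r : ℝ} (hr : 1 < r) :
    circleAverage (fun ζ => g.eval (z ζ) • ker z B ζ) 0 r = aeval B g := by
  have hkerc : ContinuousOn (ker z B) (Ext 1) := (ker_differentiableOn hz B hB).continuousOn
  have hpc : ∀ p : ℂ[X], ContinuousOn (fun ζ => p.eval (z ζ) • ker z B ζ) (Ext 1) := fun p =>
    (p.continuous.comp_continuousOn hz.diff.continuousOn).smul hkerc
  induction g using Polynomial.induction_on' with
  | add p q hp hq =>
    simp only [eval_add, add_smul, map_add]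
    rw [circleAverage_fun_add (circleIntegrable_of_differentiableOn (hpc p) hr)
      (circleIntegrable_of_differentiableOn (hpc q) hr), hp, hq]
  | monomial n a =>
    simp only [eval_monomial, mul_smul, aeval_monomial]
    rw [circleAverage_fun_smul, avg_pow_ker hz B hB hr, ← Algebra.smul_def]

/-- [D3] -/
theorem avg_w_ker {K : Set ℂ} {z : ℂ → ℂ} {c : ℂ} (hz : GoodMap K z c)
    (B : V →L[ℂ] V) (hB : numRange B ⊆ K) {g w : ℂ[X]} {g0 : ℂ} (hw : w.coeff 0 = 0)
    (hg : Tendsto (fun ζ => g.eval (z ζ) - w.eval ζ - g0) (Bornology.cobounded ℂ) (𝓝 0))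
    {r : ℝ} (hr : 1 < r) (x y : V) :
    circleAverage (fun ζ => w.eval ζ * (⟪y, ker z B ζ x⟫_ℂ + ⟪ker z B ζ y, x⟫_ℂ)) 0 r =
      ⟪y, aeval B g x⟫_ℂ - g0 * ⟪y, x⟫_ℂ := by
  have : CompleteSpace V := FiniteDimensional.complete ℂ V
  have hkerd : DifferentiableOn ℂ (ker z B) (Ext 1) := ker_differentiableOn hz B hB
  -- the functional `T ↦ ⟪y, T x⟫`
  set Λ : V → V → (V →L[ℂ] V) →L[ℂ] ℂ := fun x y =>
    (innerSL ℂ y).comp (ContinuousLinearMap.apply ℂ V x) with hΛ
  have hΛa : ∀ x y (T : V →L[ℂ] V), Λ x y T = ⟪y, T x⟫_ℂ := fun x y T => rfl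
  have hvd : ∀ x y : V, DifferentiableOn ℂ (fun ζ => ⟪y, ker z B ζ x⟫_ℂ) (Ext 1) := fun x y =>
    (Λ x y).differentiable.comp_differentiableOn hkerd
  have hvt : ∀ x y : V, Tendsto (fun ζ => ⟪y, ker z B ζ x⟫_ℂ) (Bornology.cobounded ℂ)
      (𝓝 ⟪y, x⟫_ℂ) := fun x y =>
    ((Λ x y).continuous.tendsto 1).comp (ker_tendsto hz B)
  have hwd : DifferentiableOn ℂ (fun ζ => w.eval ζ) (Ext 1) := w.differentiable.differentiableOn
  have hgd : DifferentiableOn ℂ (fun ζ => g.eval (z ζ)) (Ext 1) :=
    g.differentiable.comp_differentiableOn hz.diff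
  have hci : ∀ {F : ℂ → ℂ}, DifferentiableOn ℂ F (Ext 1) → CircleIntegrable F 0 r := fun hF =>
    circleIntegrable_of_differentiableOn hF.continuousOn hr
  -- first part
  have hA : circleAverage (fun ζ => w.eval ζ * ⟪y, ker z B ζ x⟫_ℂ) 0 r
      = ⟪y, aeval B g x⟫_ℂ - g0 * ⟪y, x⟫_ℂ := by
    have h1 : ∀ ζ, w.eval ζ * ⟪y, ker z B ζ x⟫_ℂ
        = (g.eval (z ζ) * ⟪y, ker z B ζ x⟫_ℂ - g0 * ⟪y, ker z B ζ x⟫_ℂ)
          - (g.eval (z ζ) - w.eval ζ - g0) * ⟪y, ker z B ζ x⟫_ℂ := fun ζ => by ring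
    simp_rw [h1]
    rw [circleAverage_fun_sub, circleAverage_fun_sub]
    · have e1 : circleAverage (fun ζ => g.eval (z ζ) * ⟪y, ker z B ζ x⟫_ℂ) 0 r
          = ⟪y, aeval B g x⟫_ℂ := by
        have h2 := ((Λ x y).restrictScalars ℝ).circleAverage_comp_comm
          (f := fun ζ => g.eval (z ζ) • ker z B ζ) (c := 0) (R := r)
          (circleIntegrable_of_differentiableOn (hgd.smul hkerd).continuousOn hr)
        rw [avg_eval_ker hz B hB g hr] at h2
        simp only [ContinuousLinearMap.coe_restrictScalars', hΛa] at h2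
        rw [← h2]
        congr 1
        funext ζ
        simp only [Function.comp, hΛa, smul_apply, inner_smul_right]
      have e2 : circleAverage (fun ζ => g0 * ⟪y, ker z B ζ x⟫_ℂ) 0 r = g0 * ⟪y, x⟫_ℂ :=
        circleAverage_eq_of_tendsto zero_le_one hr ((hvd x y).const_mul g0)
          ((hvt x y).const_mul g0)
      have e3 : circleAverage (fun ζ => (g.eval (z ζ) - w.eval ζ - g0) * ⟪y, ker z B ζ x⟫_ℂ) 0 r
          = 0 := by
        refine circleAverage_eq_of_tendsto zero_le_one hr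
          (((hgd.sub hwd).sub_const g0).mul (hvd x y)) ?_
        have h3 := hg.mul (hvt x y)
        rw [zero_mul] at h3
        exact h3
      rw [e1, e2, e3, sub_zero]
    · exact hci (hgd.mul (hvd x y))
    · exact hci ((hvd x y).const_mul g0)
    · exact hci ((hgd.mul (hvd x y)).sub ((hvd x y).const_mul g0))
    · exact hci (((hgd.sub hwd).sub_const g0).mul (hvd x y))
  -- second part
  have hBpart : circleAverage (fun ζ => w.eval ζ * ⟪ker z B ζ y, x⟫_ℂ) 0 r = 0 := by
    have h1 := avg_conj_mul hw (hvd y x) (hvt y x) hr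
    have hint : CircleIntegrable (fun ζ => conj (w.eval ζ) * ⟪x, ker z B ζ y⟫_ℂ) 0 r := by
      refine circleIntegrable_of_differentiableOn ?_ hr
      exact (continuous_conj.comp_continuousOn hwd.continuousOn).mul (hvd y x).continuousOn
    have h2 := (conjCLE : ℂ →L[ℝ] ℂ).circleAverage_comp_comm hint
    rw [h1, map_zero] at h2
    rw [← h2]
    congr 1
    funext ζ
    simp only [Function.comp, ContinuousLinearEquiv.coe_coe, conjCLE_apply, map_mul, conj_conj,
      inner_conj_symm]
  simp_rw [mul_add]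
  rw [circleAverage_fun_add, hA, hBpart, add_zero]
  · exact hci (hwd.mul (hvd x y))
  · refine circleIntegrable_of_differentiableOn ?_ hr
    refine hwd.continuousOn.mul ?_
    have : (fun ζ => ⟪ker z B ζ y, x⟫_ℂ) = fun ζ => conj ⟪x, ker z B ζ y⟫_ℂ := by
      funext ζ; rw [inner_conj_symm]
    rw [this]
    exact continuous_conj.comp_continuousOn (hvd y x).continuousOn

end Vale.Agent.P123
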