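import Mathlib

/-!
# P123: injective holomorphic maps have nonvanishing derivative and holomorphic inverse
-/

open Metric Set Filter
open scoped Topology

namespace Vale.Agent.P123

/-! ### inverses of injective holomorphic maps -/

lemma nhds_le_map_of_injOn {U : Set ℂ} (hU : IsOpen U) {f : ℂ → ℂ} (hf : DifferentiableOn ℂ f U)
    (hinj : InjOn f U) {a : ℂ} (ha : a ∈ U) : 𝓝 (f a) ≤ map f (𝓝 a) := by
  refine ((hf.analyticOnNhd hU) a ha).eventually_constant_or_nhds_le_map_nhds.resolve_left ?_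
  intro h
  have h1 : ∀ᶠ z in 𝓝[≠] a, z ∈ U ∧ f z = f a :=
    ((hU.eventually_mem ha).and h).filter_mono nhdsWithin_le_nhds
  have h2 : ∀ᶠ z in 𝓝[≠] a, z ≠ a := eventually_mem_nhdsWithin
  obtain ⟨z, ⟨hzU, hz⟩, hza⟩ := (h1.and h2).exists
  exact hza (hinj hzU ha hz)

lemma continuousAt_invFunOn {U : Set ℂ} (hU : IsOpen U) {f : ℂ → ℂ} (hf : DifferentiableOn ℂ f U)
    (hinj : InjOn f U) {a : ℂ} (ha : a ∈ U) : ContinuousAt (Function.invFunOn f U) (f a) := by
  have hinv : Function.invFunOn f U (f a) = a := hinj.leftInvOn_invFunOn ha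
  rw [ContinuousAt, hinv]
  intro W hW
  rw [mem_map]
  have h1 : f '' (W ∩ U) ∈ 𝓝 (f a) := by
    apply nhds_le_map_of_injOn hU hf hinj ha
    rw [mem_map]
    exact mem_of_superset (inter_mem hW (hU.mem_nhds ha)) (subset_preimage_image f _)
  refine mem_of_superset h1 ?_
  rintro _ ⟨w, ⟨hwW, hwU⟩, rfl⟩
  rw [mem_preimage, hinj.leftInvOn_invFunOn hwU]
  exact hwW

lemma isOpen_image_of_injOn {U : Set ℂ} (hU : IsOpen U) {f : ℂ → ℂ} (hf : DifferentiableOn ℂ f U)
    (hinj : InjOn f U) : IsOpen (f '' U) := by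
  rw [isOpen_iff_mem_nhds]
  rintro _ ⟨a, ha, rfl⟩
  apply nhds_le_map_of_injOn hU hf hinj ha
  rw [mem_map]
  exact mem_of_superset (hU.mem_nhds ha) (subset_preimage_image f _)

lemma hasDerivAt_invFunOn_aux {U : Set ℂ} (hU : IsOpen U) {f : ℂ → ℂ}
    (hf : DifferentiableOn ℂ f U) (hinj : InjOn f U) {a : ℂ} (ha : a ∈ U) (hd : deriv f a ≠ 0) :
    HasDerivAt (Function.invFunOn f U) (deriv f a)⁻¹ (f a) := by
  have hinv : Function.invFunOn f U (f a) = a := hinj.leftInvOn_invFunOn ha
  refine HasDerivAt.of_local_left_inverse (f := f) (continuousAt_invFunOn hU hf hinj ha) ?_ hd ?_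
  · rw [hinv]
    exact (hf.differentiableAt (hU.mem_nhds ha)).hasDerivAt
  · filter_upwards [(isOpen_image_of_injOn hU hf hinj).mem_nhds ⟨a, ha, rfl⟩] with y hy
    exact Function.invFunOn_eq hy

theorem deriv_ne_zero_of_injOn {U : Set ℂ} (hUo : IsOpen U) {f : ℂ → ℂ}
    (hf : DifferentiableOn ℂ f U) (hinj : InjOn f U) {w : ℂ} (hw : w ∈ U) : deriv f w ≠ 0 := by
  have hU := hUo
  have ha := hw
  set a := w with haw
  have hfa := hf.analyticOnNhd hU
  rcases (hfa a ha).deriv.eventually_eq_zero_or_eventually_ne_zero with h | h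
  · exfalso
    rw [Metric.eventually_nhds_iff_ball] at h
    obtain ⟨ε, hε, h⟩ := h
    obtain ⟨r, hr, hrU⟩ := Metric.isOpen_iff.mp hU a ha
    set ρ := min ε r with hρ
    have hρ0 : 0 < ρ := lt_min hε hr
    have hsub : ball a ρ ⊆ U := (ball_subset_ball (min_le_right _ _)).trans hrU
    have hconst : ∀ z ∈ ball a ρ, f z = f a := by
      intro z hz
      have hcv : Convex ℝ (ball a ρ) := convex_ball a ρ
      refine (convex_ball a ρ).is_const_of_fderivWithin_eq_zero (𝕜 := ℂ) (hf.mono hsub) ?_ hz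
        (mem_ball_self hρ0)
      intro y hy
      rw [fderivWithin_of_isOpen isOpen_ball hy]
      have h1 : deriv f y = 0 := h y (ball_subset_ball (min_le_left _ _) hy)
      ext
      simp [h1]
    have h2 : ∀ᶠ z in 𝓝[≠] a, z ∈ ball a ρ ∧ z ≠ a :=
      (((isOpen_ball.eventually_mem (mem_ball_self hρ0)).filter_mono nhdsWithin_le_nhds).and
        eventually_mem_nhdsWithin)
    obtain ⟨z, hz, hza⟩ := h2.exists
    exact hza (hinj (hsub hz) ha (hconst z hz))
  · -- removable singularity for the inverse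
    have hnear : ∀ᶠ z in 𝓝[≠] a, z ∈ U ∧ deriv f z ≠ 0 :=
      ((hU.eventually_mem ha).filter_mono nhdsWithin_le_nhds).and h
    rw [eventually_nhdsWithin_iff, Metric.eventually_nhds_iff_ball] at hnear
    obtain ⟨ρ, hρ, hnear⟩ := hnear
    have hBU : ball a ρ ⊆ U := by
      intro z hz
      by_cases hza : z = a
      · rw [hza]; exact ha
      · exact (hnear z hz hza).1
    set g := Function.invFunOn f (ball a ρ) with hg
    have hfB := hf.mono hBU
    have hinjB := hinj.mono hBU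
    have haB : a ∈ ball a ρ := mem_ball_self hρ
    have hV : IsOpen (f '' ball a ρ) := isOpen_image_of_injOn isOpen_ball hfB hinjB
    have hfaV : f a ∈ f '' ball a ρ := ⟨a, haB, rfl⟩
    have hgd : DifferentiableOn ℂ g (f '' ball a ρ \ {f a}) := by
      rintro _ ⟨⟨z, hz, rfl⟩, hne⟩
      have hza : z ≠ a := by rintro rfl; exact hne rfl
      exact (hasDerivAt_invFunOn_aux isOpen_ball hfB hinjB hz
        (hnear z hz hza).2).differentiableAt.differentiableWithinAt
    have hgc : ContinuousAt g (f a) := continuousAt_invFunOn isOpen_ball hfB hinjB haB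
    have hgD : DifferentiableOn ℂ g (f '' ball a ρ) :=
      (Complex.differentiableOn_compl_singleton_and_continuousAt_iff (hV.mem_nhds hfaV)).mp
        ⟨hgd, hgc⟩
    have hga : DifferentiableAt ℂ g (f a) := hgD.differentiableAt (hV.mem_nhds hfaV)
    have hcomp : HasDerivAt (g ∘ f) (deriv g (f a) * deriv f a) a :=
      hga.hasDerivAt.comp a (hf.differentiableAt (hU.mem_nhds ha)).hasDerivAt
    have hid : (g ∘ f) =ᶠ[𝓝 a] id := by
      filter_upwards [ball_mem_nhds a hρ] with z hz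
      exact hinjB.leftInvOn_invFunOn hz
    have h1 : HasDerivAt (g ∘ f) 1 a := (hasDerivAt_id a).congr_of_eventuallyEq hid
    have h2 := hcomp.unique h1
    intro h0
    rw [h0, mul_zero] at h2
    exact zero_ne_one h2

lemma hasDerivAt_invFunOn {U : Set ℂ} (hU : IsOpen U) {f : ℂ → ℂ}
    (hf : DifferentiableOn ℂ f U) (hinj : InjOn f U) {a : ℂ} (ha : a ∈ U) :
    HasDerivAt (Function.invFunOn f U) (deriv f a)⁻¹ (f a) :=
  hasDerivAt_invFunOn_aux hU hf hinj ha (deriv_ne_zero_of_injOn hU hf hinj ha)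

end Vale.Agent.P123
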