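import Vale.Agent.P123.Orth
import Vale.Agent.P123.DerivInj

/-!
# P123, module [C5]: the contraction property of the Neumann-Poincare operator
-/

open Complex Metric Set Filter Polynomial Real MeasureTheory
open scoped Topology ComplexConjugate InnerProductSpace

namespace Vale.Agent.P123

namespace Contr

/-- A doubly stochastic kernel is a contraction in `L²`. -/
theorem markov_contraction {α : Type*} [MeasurableSpace α] (μ : Measure α)
    [IsFiniteMeasure μ] (P : α → α → ℝ) (hPm : Measurable (Function.uncurry P))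
    (hP0 : ∀ s t, 0 ≤ P s t)
    (hi1 : ∀ t, Integrable (fun s => P s t) μ) (hi2 : ∀ s, Integrable (fun t => P s t) μ)
    (h1 : ∀ t, ∫ s, P s t ∂μ = 1) (h2 : ∀ s, ∫ t, P s t ∂μ = 1)
    (u v : α → ℂ) (hu : Measurable u) {C : ℝ} (huC : ∀ s, ‖u s‖ ≤ C)
    (hv : ∀ t, v t = ∫ s, u s * (P s t : ℂ) ∂μ) :
    ∫ t, ‖v t‖ ^ 2 ∂μ ≤ ∫ s, ‖u s‖ ^ 2 ∂μ := by
  have hint1 : ∀ t, Integrable (fun s => ‖u s‖ * P s t) μ := by
    intro t
    refine (hi1 t).bdd_mul (c := C) hu.norm.aestronglyMeasurable (Eventually.of_forall ?_)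
    intro s; simpa using huC s
  have hint2 : ∀ t, Integrable (fun s => ‖u s‖ ^ 2 * P s t) μ := by
    intro t
    refine (hi1 t).bdd_mul (c := C ^ 2) (hu.norm.pow_const 2).aestronglyMeasurable
      (Eventually.of_forall ?_)
    intro s
    have h0 : 0 ≤ ‖u s‖ := norm_nonneg _
    rw [Real.norm_of_nonneg (by positivity)]
    exact pow_le_pow_left₀ h0 (huC s) 2
  have hpt : ∀ t, ‖v t‖ ^ 2 ≤ ∫ s, ‖u s‖ ^ 2 * P s t ∂μ := by
    intro t
    set l : ℝ := ∫ s, ‖u s‖ * P s t ∂μ with hl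
    have hvl : ‖v t‖ ≤ l := by
      rw [hv t]
      refine (norm_integral_le_integral_norm _).trans (le_of_eq ?_)
      rw [hl]
      congr 1
      funext s
      rw [norm_mul, Complex.norm_real, Real.norm_of_nonneg (hP0 s t)]
    have hl0 : 0 ≤ l := (norm_nonneg _).trans hvl
    have hsq : 0 ≤ ∫ s, (‖u s‖ - l) ^ 2 * P s t ∂μ :=
      integral_nonneg fun s => mul_nonneg (sq_nonneg _) (hP0 s t)
    have hexp : ∫ s, (‖u s‖ - l) ^ 2 * P s t ∂μ
        = (∫ s, ‖u s‖ ^ 2 * P s t ∂μ) - 2 * l * l + l ^ 2 := by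
      have : (fun s => (‖u s‖ - l) ^ 2 * P s t)
          = fun s => (‖u s‖ ^ 2 * P s t - (2 * l) * (‖u s‖ * P s t)) + l ^ 2 * P s t := by
        funext s; ring
      have i12 : Integrable (fun s => ‖u s‖ ^ 2 * P s t - (2 * l) * (‖u s‖ * P s t)) μ :=
        (hint2 t).sub ((hint1 t).const_mul _)
      rw [this, integral_add i12 ((hi1 t).const_mul _),
        integral_sub (hint2 t) ((hint1 t).const_mul _), integral_const_mul, integral_const_mul,
        h1 t, ← hl]
      ring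
    have : ‖v t‖ ^ 2 ≤ l ^ 2 := pow_le_pow_left₀ (norm_nonneg _) hvl 2
    nlinarith
  have hprod : Integrable (Function.uncurry fun s t => ‖u s‖ ^ 2 * P s t) (μ.prod μ) := by
    rw [integrable_prod_iff]
    · refine ⟨Eventually.of_forall fun s => ?_, ?_⟩
      · simpa [Function.uncurry] using (hi2 s).const_mul (‖u s‖ ^ 2)
      · have : (fun s => ∫ t, ‖Function.uncurry (fun s t => ‖u s‖ ^ 2 * P s t) (s, t)‖ ∂μ)
            = fun s => ‖u s‖ ^ 2 := by
          funext s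
          have : (fun t => ‖Function.uncurry (fun s t => ‖u s‖ ^ 2 * P s t) (s, t)‖)
              = fun t => ‖u s‖ ^ 2 * P s t := by
            funext t
            simp only [Function.uncurry]
            rw [Real.norm_of_nonneg (mul_nonneg (sq_nonneg _) (hP0 s t))]
          rw [this, integral_const_mul, h2 s, mul_one]
        rw [this]
        refine Integrable.of_bound (hu.norm.pow_const 2).aestronglyMeasurable (C ^ 2)
          (Eventually.of_forall ?_)
        intro s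
        rw [Real.norm_of_nonneg (by positivity)]
        exact pow_le_pow_left₀ (norm_nonneg _) (huC s) 2
    · exact (((hu.comp measurable_fst).norm.pow_const 2).mul hPm).aestronglyMeasurable
  calc ∫ t, ‖v t‖ ^ 2 ∂μ ≤ ∫ t, ∫ s, ‖u s‖ ^ 2 * P s t ∂μ ∂μ := by
        refine integral_mono_of_nonneg (Eventually.of_forall fun t => sq_nonneg _) ?_
          (Eventually.of_forall hpt)
        exact hprod.integral_prod_right
    _ = ∫ s, ∫ t, ‖u s‖ ^ 2 * P s t ∂μ ∂μ := by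
        exact (integral_integral_swap hprod).symm
    _ = ∫ s, ‖u s‖ ^ 2 ∂μ := by
        congr 1
        funext s
        rw [integral_const_mul, h2 s, mul_one]

/-- The normalised angle measure. -/
noncomputable def angleMeasure : Measure ℝ :=
  (ENNReal.ofReal (2 * π)⁻¹) • (volume.restrict (Ioc 0 (2 * π)))

instance : IsFiniteMeasure angleMeasure := by
  unfold angleMeasure
  exact Measure.smul_finite _ ENNReal.ofReal_ne_top

theorem circleAverage_eq_angle {E : Type*} [NormedAddCommGroup E] [NormedSpace ℝ E]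
    (f : ℂ → E) (c : ℂ) (r : ℝ) :
    circleAverage f c r = ∫ θ, f (circleMap c r θ) ∂angleMeasure := by
  rw [circleAverage_def, intervalIntegral.integral_of_le two_pi_pos.le, angleMeasure,
    integral_smul_measure, ENNReal.toReal_ofReal (by positivity)]

theorem circleIntegrable_iff_angle {E : Type*} [NormedAddCommGroup E]
    (f : ℂ → E) (c : ℂ) (r : ℝ) :
    CircleIntegrable f c r ↔ Integrable (fun θ => f (circleMap c r θ)) angleMeasure := by
  rw [angleMeasure, integrable_smul_measure (by simp; positivity) (by simp),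
    circleIntegrable_def, intervalIntegrable_iff_integrableOn_Ioc_of_le two_pi_pos.le]
  rfl


lemma isOpen_Ext (r : ℝ) : IsOpen (Ext r) := isOpen_lt continuous_const continuous_norm

lemma Ext_mem_nhds {r : ℝ} {ζ : ℂ} (h : ζ ∈ Ext r) : Ext r ∈ 𝓝 ζ := (isOpen_Ext r).mem_nhds h

lemma notMem_Ext_norm (a : ℂ) : a ∉ Ext ‖a‖ := fun h => lt_irrefl ‖a‖ h

lemma eventually_ext (r : ℝ) : ∀ᶠ ζ in Bornology.cobounded ℂ, ζ ∈ Ext r := by
  filter_upwards [(tendsto_norm_cobounded_atTop (E := ℂ)).eventually_gt_atTop r] with ζ h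
  exact h

lemma tendsto_inv_cob : Tendsto (fun ζ : ℂ => ζ⁻¹) (Bornology.cobounded ℂ) (𝓝 0) :=
  tendsto_inv₀_cobounded

lemma tendsto_div_sub (a : ℂ) :
    Tendsto (fun ζ : ℂ => ζ / (ζ - a)) (Bornology.cobounded ℂ) (𝓝 1) := by
  have h1 : Tendsto (fun ζ : ℂ => (1 - a * ζ⁻¹)⁻¹) (Bornology.cobounded ℂ) (𝓝 (1 - a * 0)⁻¹) := by
    apply Tendsto.inv₀
    · exact tendsto_const_nhds.sub (tendsto_const_nhds.mul tendsto_inv_cob)
    · simp
  simp only [mul_zero, sub_zero, inv_one] at h1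
  refine h1.congr' ?_
  filter_upwards [eventually_ext 0, eventually_ext ‖a‖] with ζ h0 ha
  have hz : ζ ≠ 0 := by
    rintro rfl
    simp [Ext] at h0
  have hza : ζ - a ≠ 0 := by
    intro h
    rw [sub_eq_zero] at h
    rw [h] at ha
    exact notMem_Ext_norm a ha
  have : 1 - a * ζ⁻¹ = (ζ - a) / ζ := by field_simp
  rw [this, inv_div]

lemma tendsto_zsub_div {z : ℂ → ℂ} {c : ℂ}
    (hlim : Tendsto (fun ζ => z ζ / ζ) (Bornology.cobounded ℂ) (𝓝 c)) (b : ℂ) :
    Tendsto (fun ζ => (z ζ - b) / ζ) (Bornology.cobounded ℂ) (𝓝 c) := by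
  have : Tendsto (fun ζ => z ζ / ζ - b * ζ⁻¹) (Bornology.cobounded ℂ) (𝓝 (c - b * 0)) :=
    hlim.sub (tendsto_const_nhds.mul tendsto_inv_cob)
  simp only [mul_zero, sub_zero] at this
  refine this.congr fun ζ => ?_
  rw [sub_div, div_eq_mul_inv b]

variable {K : Set ℂ} {z : ℂ → ℂ} {c : ℂ}

/-- The kernel as a function of the first variable. -/
theorem exists_kernel_left (hz : GoodMap K z c) {ξ : ℂ} (hξ : ξ ∈ Ext 1) :
    ∃ κ : ℂ → ℂ, DifferentiableOn ℂ κ (Ext 1) ∧ Tendsto κ (Bornology.cobounded ℂ) (𝓝 0) ∧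
      (∀ ζ ∈ Ext 1, (z ζ - z ξ) * κ ζ = ζ * deriv z ζ - ζ * dslope z ξ ζ) ∧
      (∀ ζ ∈ Ext 1, ζ ≠ ξ → κ ζ = ζ * deriv z ζ / (z ζ - z ξ) - ζ / (ζ - ξ)) := by
  set D : ℂ → ℂ := dslope z ξ with hD
  have hDd : DifferentiableOn ℂ D (Ext 1) :=
    (Complex.differentiableOn_dslope (Ext_mem_nhds hξ)).mpr hz.diff
  have hmul : ∀ ζ : ℂ, (ζ - ξ) * D ζ = z ζ - z ξ := fun ζ => by
    rw [hD, ← smul_eq_mul, sub_smul_dslope]
  have hDne : ∀ ζ ∈ Ext 1, D ζ ≠ 0 := by
    intro ζ hζ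
    by_cases h : ζ = ξ
    · subst h
      rw [hD, dslope_same]
      exact deriv_ne_zero_of_injOn (isOpen_Ext 1) hz.diff hz.inj hζ
    · intro h0
      have := hmul ζ
      rw [h0, mul_zero] at this
      exact h (hz.inj hζ hξ (sub_eq_zero.mp this.symm))
  have hder : ∀ ζ ∈ Ext 1, deriv z ζ = D ζ + (ζ - ξ) * deriv D ζ := by
    intro ζ hζ
    have h1 : HasDerivAt D (deriv D ζ) ζ := (hDd.differentiableAt (Ext_mem_nhds hζ)).hasDerivAt
    have h2 : HasDerivAt (fun w => (w - ξ) * D w) (1 * D ζ + (ζ - ξ) * deriv D ζ) ζ :=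
      ((hasDerivAt_id ζ).sub_const ξ).mul h1
    have h3 : (fun w => (w - ξ) * D w) = fun w => z w - z ξ := funext hmul
    rw [h3] at h2
    have h4 : HasDerivAt z (1 * D ζ + (ζ - ξ) * deriv D ζ) ζ := by
      simpa using h2.add_const (z ξ)
    rw [h4.deriv, one_mul]
  have hform : ∀ ζ ∈ Ext 1, ζ ≠ ξ →
      ζ * deriv D ζ / D ζ = ζ * deriv z ζ / (z ζ - z ξ) - ζ / (ζ - ξ) := by
    intro ζ hζ hne
    have h1 := hDne ζ hζ
    have h2 : ζ - ξ ≠ 0 := sub_ne_zero.mpr hne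
    rw [← hmul ζ, hder ζ hζ]
    field_simp
    ring
  refine ⟨fun ζ => ζ * deriv D ζ / D ζ, ?_, ?_, ?_, hform⟩
  · exact (differentiableOn_id.mul (hDd.deriv (isOpen_Ext 1))).div hDd hDne
  · have h1 : Tendsto (fun ζ => ζ * deriv z ζ / (z ζ - z ξ) - ζ / (ζ - ξ))
        (Bornology.cobounded ℂ) (𝓝 (c / c - 1)) := by
      refine Tendsto.sub ?_ (tendsto_div_sub ξ)
      have h2 := (tendsto_deriv hz.diff hz.lim).div (tendsto_zsub_div hz.lim (z ξ)) hz.c_ne
      refine h2.congr' ?_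
      filter_upwards [eventually_ext 0] with ζ h0
      have hz0 : ζ ≠ 0 := by
        rintro rfl
        simp [Ext] at h0
      simp only [Pi.div_apply]
      rw [div_div_eq_mul_div, mul_comm]
    rw [div_self hz.c_ne, sub_self] at h1
    refine h1.congr' ?_
    filter_upwards [eventually_ext 1, eventually_ext ‖ξ‖] with ζ hζ hζξ
    refine (hform ζ hζ ?_).symm
    rintro rfl
    exact notMem_Ext_norm _ hζξ
  · intro ζ hζ
    have h1 := hDne ζ hζ
    rw [← hmul ζ, hder ζ hζ]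
    field_simp
    ring

/-- The kernel as a function of the second variable. -/
theorem exists_kernel_right (hz : GoodMap K z c) {ζ : ℂ} (hζ : ζ ∈ Ext 1) :
    ∃ κ : ℂ → ℂ, DifferentiableOn ℂ κ (Ext 1) ∧ Tendsto κ (Bornology.cobounded ℂ) (𝓝 0) ∧
      (∀ ξ ∈ Ext 1, ξ ≠ ζ → κ ξ = ζ * deriv z ζ / (z ζ - z ξ) - ζ / (ζ - ξ)) := by
  set E : ℂ → ℂ := dslope z ζ with hE
  have hEd : DifferentiableOn ℂ E (Ext 1) :=
    (Complex.differentiableOn_dslope (Ext_mem_nhds hζ)).mpr hz.diff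
  have hmul : ∀ ξ : ℂ, (ξ - ζ) * E ξ = z ξ - z ζ := fun ξ => by
    rw [hE, ← smul_eq_mul, sub_smul_dslope]
  have hEne : ∀ ξ ∈ Ext 1, E ξ ≠ 0 := by
    intro ξ hξ
    by_cases h : ξ = ζ
    · subst h
      rw [hE, dslope_same]
      exact deriv_ne_zero_of_injOn (isOpen_Ext 1) hz.diff hz.inj hξ
    · intro h0
      have := hmul ξ
      rw [h0, mul_zero] at this
      exact h (hz.inj hξ hζ (sub_eq_zero.mp this.symm))
  have hEE : E ζ = deriv z ζ := by rw [hE, dslope_same]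
  have hE2 : DifferentiableOn ℂ (dslope E ζ) (Ext 1) :=
    (Complex.differentiableOn_dslope (Ext_mem_nhds hζ)).mpr hEd
  have hform : ∀ ξ ∈ Ext 1, ξ ≠ ζ →
      ζ * dslope E ζ ξ / E ξ = ζ * deriv z ζ / (z ζ - z ξ) - ζ / (ζ - ξ) := by
    intro ξ hξ hne
    have h1 := hEne ξ hξ
    have h2 : ξ - ζ ≠ 0 := sub_ne_zero.mpr hne
    have h3 : ζ - ξ ≠ 0 := sub_ne_zero.mpr hne.symm
    have h4 : dslope E ζ ξ = (E ξ - E ζ) / (ξ - ζ) := by
      rw [dslope_of_ne _ hne, slope_def_field]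
    have h5 : z ζ - z ξ = (ζ - ξ) * E ξ := by
      have := hmul ξ
      linear_combination this
    rw [h4, h5, hEE]
    field_simp
    ring
  refine ⟨fun ξ => ζ * dslope E ζ ξ / E ξ, ?_, ?_, hform⟩
  · exact ((differentiableOn_const ζ).mul hE2).div hEd hEne
  · have hinf : Tendsto (fun ξ => (z ζ - z ξ)⁻¹) (Bornology.cobounded ℂ) (𝓝 0) := by
      have h2 : Tendsto (fun ξ => -(ξ⁻¹ * ((z ξ - z ζ) / ξ)⁻¹)) (Bornology.cobounded ℂ)
          (𝓝 (-(0 * c⁻¹))) :=
        (tendsto_inv_cob.mul ((tendsto_zsub_div hz.lim (z ζ)).inv₀ hz.c_ne)).neg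
      simp only [zero_mul, neg_zero] at h2
      refine h2.congr' ?_
      filter_upwards [eventually_ext 0] with ξ h0
      have hz0 : ξ ≠ 0 := by
        rintro rfl
        simp [Ext] at h0
      rw [inv_div, ← neg_sub (z ξ) (z ζ), inv_neg]
      field_simp
    have hinf2 : Tendsto (fun ξ : ℂ => (ζ - ξ)⁻¹) (Bornology.cobounded ℂ) (𝓝 0) := by
      have h2 : Tendsto (fun ξ : ℂ => -(ξ⁻¹ * (ξ / (ξ - ζ)))) (Bornology.cobounded ℂ)
          (𝓝 (-(0 * 1))) := (tendsto_inv_cob.mul (tendsto_div_sub ζ)).neg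
      simp only [zero_mul, neg_zero] at h2
      refine h2.congr' ?_
      filter_upwards [eventually_ext 0] with ξ h0
      have hz0 : ξ ≠ 0 := by
        rintro rfl
        simp [Ext] at h0
      rw [← neg_sub ξ ζ, inv_neg]
      field_simp
    have h1 : Tendsto (fun ξ => ζ * deriv z ζ * (z ζ - z ξ)⁻¹ - ζ * (ζ - ξ)⁻¹)
        (Bornology.cobounded ℂ) (𝓝 (ζ * deriv z ζ * 0 - ζ * 0)) :=
      (tendsto_const_nhds.mul hinf).sub (tendsto_const_nhds.mul hinf2)
    simp only [mul_zero, sub_zero] at h1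
    refine h1.congr' ?_
    filter_upwards [eventually_ext 1, eventually_ext ‖ζ‖] with ξ hξ hζξ
    rw [← div_eq_mul_inv, ← div_eq_mul_inv]
    refine (hform ξ hξ ?_).symm
    rintro rfl
    exact notMem_Ext_norm _ hζξ

lemma sphere_mem_Ext {r : ℝ} (hr : 1 < r) {ζ : ℂ} (hζ : ζ ∈ sphere (0 : ℂ) |r|) :
    ζ ∈ Ext 1 ∧ ‖ζ‖ = r := by
  have h1 : ‖ζ‖ = r := by
    rw [mem_sphere_zero_iff_norm] at hζ
    rw [hζ, abs_of_pos (by linarith)]
  refine ⟨?_, h1⟩
  change 1 < ‖ζ‖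
  rw [h1]
  exact hr

lemma circleIntegrable_of_ext {E : Type*} [NormedAddCommGroup E] {f : ℂ → E} {r : ℝ}
    (hr : 1 < r) (hf : ContinuousOn f (Ext 1)) : CircleIntegrable f 0 r :=
  ContinuousOn.circleIntegrable' (hf.mono fun _ hζ => (sphere_mem_Ext hr hζ).1)

lemma circleMap_mem_Ext {r : ℝ} (hr : 1 < r) (θ : ℝ) : circleMap 0 r θ ∈ Ext 1 := by
  change 1 < ‖circleMap 0 r θ‖
  rw [norm_circleMap_zero, abs_of_pos (by linarith)]
  exact hr

lemma avg_deriv_mul_poly {z : ℂ → ℂ} (hz : DifferentiableOn ℂ z (Ext 1)) {r : ℝ} (hr : 1 < r)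
    (q : ℂ[X]) : circleAverage (fun ζ => ζ * deriv z ζ * q.eval (z ζ)) 0 r = 0 := by
  have h : (fun ζ => ζ * deriv z ζ * q.eval (z ζ))
      = fun ζ => ∑ i ∈ Finset.range (q.natDegree + 1),
          (ζ * deriv z ζ * z ζ ^ i) • q.coeff i := by
    funext ζ
    rw [eval_eq_sum_range, Finset.mul_sum]
    refine Finset.sum_congr rfl fun i _ => ?_
    rw [smul_eq_mul]
    ring
  rw [h, circleAverage_fun_sum]
  · exact Finset.sum_eq_zero fun i _ => circleAverage_deriv_mul_eval hz hr i _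
  · intro i _
    apply circleIntegrable_of_ext hr
    exact ((continuousOn_id.mul (hz.deriv (isOpen_Ext 1)).continuousOn).mul
      (hz.continuousOn.pow i)).smul continuousOn_const

lemma avg_mul_poly {r : ℝ} (hr : 1 < r) (q : ℂ[X]) :
    circleAverage (fun ζ => ζ * q.eval ζ) 0 r = 0 := by
  have := avg_deriv_mul_poly (z := fun ζ => ζ) differentiableOn_id hr q
  simpa using this

/-- The Neumann-Poincare operator applied to `w`. -/
theorem avg_mul_kernel (hz : GoodMap K z c) {w h : ℂ[X]} {h0 : ℂ}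
    (hh : Tendsto (fun ζ => h.eval (z ζ) - w.eval ζ - h0) (Bornology.cobounded ℂ) (𝓝 0))
    {r : ℝ} (hr : 1 < r) {ξ : ℂ} (hξ : ξ ∈ Ext 1) {κ : ℂ → ℂ} (hκd : DifferentiableOn ℂ κ (Ext 1))
    (hκ0 : Tendsto κ (Bornology.cobounded ℂ) (𝓝 0))
    (hκ1 : ∀ ζ ∈ Ext 1, (z ζ - z ξ) * κ ζ = ζ * deriv z ζ - ζ * dslope z ξ ζ) :
    circleAverage (fun ζ => w.eval ζ * κ ζ) 0 r = h.eval (z ξ) - w.eval ξ - h0 := by
  set v : ℂ → ℂ := fun ζ => h.eval (z ζ) - w.eval ζ - h0 with hv
  have hhz : DifferentiableOn ℂ (fun ζ => h.eval (z ζ)) (Ext 1) :=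
    h.differentiable.comp_differentiableOn hz.diff
  have hvd : DifferentiableOn ℂ v (Ext 1) :=
    (hhz.sub w.differentiable.differentiableOn).sub (differentiableOn_const h0)
  obtain ⟨q, hq⟩ := X_sub_C_dvd_sub_C_eval (a := z ξ) (p := h)
  obtain ⟨p, hp⟩ := X_sub_C_dvd_sub_C_eval (a := ξ) (p := w)
  have hq' : ∀ a : ℂ, h.eval a - h.eval (z ξ) = (a - z ξ) * q.eval a := by
    intro a
    have := congrArg (eval a) hq
    simpa using this
  have hp' : ∀ a : ℂ, w.eval a - w.eval ξ = (a - ξ) * p.eval a := by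
    intro a
    have := congrArg (eval a) hp
    simpa using this
  set V : ℂ → ℂ := dslope v ξ with hV
  have hVd : DifferentiableOn ℂ V (Ext 1) :=
    (Complex.differentiableOn_dslope (Ext_mem_nhds hξ)).mpr hvd
  have hVm : ∀ ζ : ℂ, (ζ - ξ) * V ζ = v ζ - v ξ := fun ζ => by
    rw [hV, ← smul_eq_mul, sub_smul_dslope]
  have hDm : ∀ ζ : ℂ, (ζ - ξ) * dslope z ξ ζ = z ζ - z ξ := fun ζ => by
    rw [← smul_eq_mul, sub_smul_dslope]
  set F1 : ℂ → ℂ := fun ζ => (h.eval (z ξ) - h0 - v ζ) * κ ζ with hF1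
  set F2 : ℂ → ℂ := fun ζ => ζ * deriv z ζ * q.eval (z ζ) with hF2
  set F3 : ℂ → ℂ := fun ζ => ζ * p.eval ζ with hF3
  set F4 : ℂ → ℂ := fun ζ => ζ * V ζ with hF4
  have hF1d : DifferentiableOn ℂ F1 (Ext 1) := ((differentiableOn_const _).sub hvd).mul hκd
  have hF1a : circleAverage F1 0 r = 0 := by
    refine circleAverage_eq_of_tendsto zero_le_one hr hF1d ?_
    have := ((tendsto_const_nhds (x := h.eval (z ξ) - h0)).sub hh).mul hκ0
    simpa using this
  have hF4d : DifferentiableOn ℂ F4 (Ext 1) := differentiableOn_id.mul hVd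
  have hF4a : circleAverage F4 0 r = -v ξ := by
    refine circleAverage_eq_of_tendsto zero_le_one hr hF4d ?_
    have h1 : Tendsto (fun ζ => (ζ / (ζ - ξ)) * (v ζ - v ξ)) (Bornology.cobounded ℂ)
        (𝓝 (1 * (0 - v ξ))) := (tendsto_div_sub ξ).mul (hh.sub tendsto_const_nhds)
    rw [one_mul, zero_sub] at h1
    refine h1.congr' ?_
    filter_upwards [eventually_ext ‖ξ‖] with ζ hζ
    have hne : ζ - ξ ≠ 0 := by
      rw [sub_ne_zero]
      rintro rfl
      exact notMem_Ext_norm _ hζ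
    rw [← hVm ζ, hF4]
    field_simp
  have hF2a : circleAverage F2 0 r = 0 := avg_deriv_mul_poly hz.diff hr q
  have hF3a : circleAverage F3 0 r = 0 := avg_mul_poly hr p
  have hI1 : CircleIntegrable F1 0 r := circleIntegrable_of_ext hr hF1d.continuousOn
  have hI2 : CircleIntegrable F2 0 r := circleIntegrable_of_ext hr
    ((continuousOn_id.mul (hz.diff.deriv (isOpen_Ext 1)).continuousOn).mul
      (q.differentiable.comp_differentiableOn hz.diff).continuousOn)
  have hI3 : CircleIntegrable F3 0 r := circleIntegrable_of_ext hr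
    (continuousOn_id.mul p.continuous.continuousOn)
  have hI4 : CircleIntegrable F4 0 r := circleIntegrable_of_ext hr hF4d.continuousOn
  have hcongr : circleAverage (fun ζ => w.eval ζ * κ ζ) 0 r
      = circleAverage (F1 + F2 - F3 - F4) 0 r := by
    apply circleAverage_congr_codiscreteWithin _ (by linarith : r ≠ 0)
    filter_upwards [compl_singleton_mem_codiscreteWithin (x := ξ) (s := sphere (0 : ℂ) |r|),
      self_mem_codiscreteWithin (sphere (0 : ℂ) |r|)] with ζ hne hs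
    have hζ := (sphere_mem_Ext hr hs).1
    have hne' : ζ - ξ ≠ 0 := sub_ne_zero.mpr (by simpa using hne)
    have e1 := hκ1 ζ hζ
    have e2 := hq' (z ζ)
    have e3 := hp' ζ
    have e4 := hVm ζ
    have e5 := hDm ζ
    have e6 : dslope z ξ ζ * q.eval (z ζ) = p.eval ζ + V ζ := by
      apply mul_left_cancel₀ hne'
      rw [← mul_assoc, e5, ← e2, mul_add, ← e3, e4]
      simp only [hv]
      ring
    simp only [Pi.add_apply, Pi.sub_apply, hF1, hF2, hF3, hF4]
    have e7 : w.eval ζ = h.eval (z ξ) - h0 - v ζ + (z ζ - z ξ) * q.eval (z ζ) := by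
      rw [← e2]
      simp only [hv]
      ring
    rw [e7]
    linear_combination (q.eval (z ζ)) * e1 - ζ * e6
  rw [hcongr, circleAverage_sub ((hI1.add hI2).sub hI3) hI4,
    circleAverage_sub (hI1.add hI2) hI3, circleAverage_add hI1 hI2, hF1a, hF2a, hF3a, hF4a]
  simp only [hv]
  ring

lemma re_div_sub_eq {ζ ξ : ℂ} (h : ‖ζ‖ = ‖ξ‖) (hne : ζ ≠ ξ) : (ζ / (ζ - ξ)).re = 1 / 2 := by
  have h1 : ζ.re ^ 2 + ζ.im ^ 2 = ξ.re ^ 2 + ξ.im ^ 2 := by
    have := congrArg (· ^ 2) h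
    simp only [Complex.sq_norm, Complex.normSq_apply] at this
    linarith
  have h2 : normSq (ζ - ξ) ≠ 0 := by
    rw [Ne, normSq_eq_zero, sub_eq_zero]
    exact hne
  rw [Complex.div_re, ← add_div, div_eq_div_iff h2 two_ne_zero]
  rw [normSq_apply]
  simp only [sub_re, sub_im]
  linear_combination h1

/-- The real kernel. -/
noncomputable def Pker (z : ℂ → ℂ) (ζ ξ : ℂ) : ℝ := 2 * (ζ * deriv z ζ / (z ζ - z ξ)).re

lemma Pker_nonneg (hz : GoodMap K z c) {ζ ξ : ℂ} (hζ : ζ ∈ Ext 1) (h : ‖ξ‖ = ‖ζ‖) :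
    0 ≤ Pker z ζ ξ := by
  unfold Pker
  have h1 := hz.conv ζ hζ ξ h
  have h2 : (ζ * deriv z ζ / (z ζ - z ξ)).re
      = (ζ * deriv z ζ * conj (z ζ - z ξ)).re * (normSq (z ζ - z ξ))⁻¹ := by
    rw [div_eq_mul_inv, Complex.inv_def, ← mul_assoc]
    exact re_mul_ofReal _ _
  rw [h2]
  have := inv_nonneg.mpr (normSq_nonneg (z ζ - z ξ))
  positivity

lemma Pker_left (hz : GoodMap K z c) {r : ℝ} (hr : 1 < r) {ξ : ℂ} (hξ : ‖ξ‖ = r)
    {w h : ℂ[X]} {h0 : ℂ} (hw : w.coeff 0 = 0)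
    (hh : Tendsto (fun ζ => h.eval (z ζ) - w.eval ζ - h0) (Bornology.cobounded ℂ) (𝓝 0)) :
    CircleIntegrable (fun ζ => Pker z ζ ξ) 0 r ∧ circleAverage (fun ζ => Pker z ζ ξ) 0 r = 1 ∧
      circleAverage (fun ζ => w.eval ζ * (Pker z ζ ξ : ℂ)) 0 r = h.eval (z ξ) - w.eval ξ - h0 := by
  have hξE : ξ ∈ Ext 1 := by
    change 1 < ‖ξ‖
    rw [hξ]; exact hr
  obtain ⟨κ, hκd, hκ0, hκ1, hκ2⟩ := exists_kernel_left hz hξE
  have hr0 : r ≠ 0 := by linarith
  have hcong : (fun ζ => Pker z ζ ξ) =ᶠ[codiscreteWithin (sphere (0 : ℂ) |r|)]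
      fun ζ => (1 + 2 * κ ζ).re := by
    filter_upwards [compl_singleton_mem_codiscreteWithin (x := ξ) (s := sphere (0 : ℂ) |r|),
      self_mem_codiscreteWithin (sphere (0 : ℂ) |r|)] with ζ hne hs
    have hζ := sphere_mem_Ext hr hs
    have hne' : ζ ≠ ξ := by simpa using hne
    have e1 := hκ2 ζ hζ.1 hne'
    have e2 := re_div_sub_eq (hζ.2.trans hξ.symm) hne'
    simp only [Pker]
    rw [e1]
    have e3 : (1 + 2 * (ζ * deriv z ζ / (z ζ - z ξ) - ζ / (ζ - ξ)) : ℂ).re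
        = 1 + 2 * ((ζ * deriv z ζ / (z ζ - z ξ)).re - (ζ / (ζ - ξ)).re) := by
      simp
    rw [e3, e2]
    ring
  have hGd : DifferentiableOn ℂ (fun ζ => 1 + 2 * κ ζ) (Ext 1) :=
    (differentiableOn_const _).add ((differentiableOn_const _).mul hκd)
  have hGI : CircleIntegrable (fun ζ => 1 + 2 * κ ζ) 0 r :=
    circleIntegrable_of_ext hr hGd.continuousOn
  have hGre : CircleIntegrable (fun ζ => (1 + 2 * κ ζ).re) 0 r :=
    circleIntegrable_of_ext hr (Complex.continuous_re.comp_continuousOn hGd.continuousOn)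
  have hGa : circleAverage (fun ζ => 1 + 2 * κ ζ) 0 r = 1 := by
    refine circleAverage_eq_of_tendsto zero_le_one hr hGd ?_
    have := (tendsto_const_nhds (x := (1 : ℂ))).add ((tendsto_const_nhds (x := (2 : ℂ))).mul hκ0)
    simpa using this
  refine ⟨hGre.congr_codiscreteWithin hcong.symm, ?_, ?_⟩
  · rw [circleAverage_congr_codiscreteWithin hcong hr0]
    have := Complex.reCLM.circleAverage_comp_comm hGI
    have h3 : (⇑Complex.reCLM ∘ fun ζ => 1 + 2 * κ ζ) = fun ζ => (1 + 2 * κ ζ).re := rfl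
    rw [h3, hGa] at this
    rw [this]
    simp
  · have hcong2 : (fun ζ => w.eval ζ * (Pker z ζ ξ : ℂ))
        =ᶠ[codiscreteWithin (sphere (0 : ℂ) |r|)]
        fun ζ => w.eval ζ * κ ζ + conj (conj (w.eval ζ) * (1 + κ ζ)) := by
      filter_upwards [hcong] with ζ h1
      have h2 : (Pker z ζ ξ : ℂ) = 1 + κ ζ + conj (κ ζ) := by
        rw [h1]
        have : κ ζ + conj (κ ζ) = ((2 * (κ ζ).re : ℝ) : ℂ) := Complex.add_conj (κ ζ)
        rw [add_assoc, this]
        push_cast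
        simp
      rw [h2]
      simp only [map_mul, map_add, map_one, Complex.conj_conj]
      ring
    have hA : CircleIntegrable (fun ζ => w.eval ζ * κ ζ) 0 r :=
      circleIntegrable_of_ext hr (w.continuous.continuousOn.mul hκd.continuousOn)
    have hvd : DifferentiableOn ℂ (fun ζ => 1 + κ ζ) (Ext 1) := (differentiableOn_const _).add hκd
    have hBc : ContinuousOn (fun ζ => conj (w.eval ζ) * (1 + κ ζ)) (Ext 1) :=
      (Complex.continuous_conj.comp_continuousOn w.continuous.continuousOn).mul hvd.continuousOn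
    have hB : CircleIntegrable (fun ζ => conj (w.eval ζ) * (1 + κ ζ)) 0 r :=
      circleIntegrable_of_ext hr hBc
    have hB' : CircleIntegrable (fun ζ => conj (conj (w.eval ζ) * (1 + κ ζ))) 0 r :=
      circleIntegrable_of_ext hr (Complex.continuous_conj.comp_continuousOn hBc)
    have hBa : circleAverage (fun ζ => conj (w.eval ζ) * (1 + κ ζ)) 0 r = 0 := by
      refine avg_conj_mul hw hvd (L := 1 + 0) ?_ hr
      exact (tendsto_const_nhds (x := (1 : ℂ))).add hκ0
    have hBa' : circleAverage (fun ζ => conj (conj (w.eval ζ) * (1 + κ ζ))) 0 r = 0 := by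
      have := (Complex.conjCLE : ℂ →L[ℝ] ℂ).circleAverage_comp_comm hB
      rw [hBa, map_zero] at this
      exact this
    rw [circleAverage_congr_codiscreteWithin hcong2 hr0, circleAverage_fun_add hA hB', hBa',
      avg_mul_kernel hz hh hr hξE hκd hκ0 hκ1, add_zero]

lemma Pker_right (hz : GoodMap K z c) {r : ℝ} (hr : 1 < r) {ζ : ℂ} (hζ : ‖ζ‖ = r) :
    CircleIntegrable (fun ξ => Pker z ζ ξ) 0 r ∧
      circleAverage (fun ξ => Pker z ζ ξ) 0 r = 1 := by
  have hζE : ζ ∈ Ext 1 := by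
    change 1 < ‖ζ‖
    rw [hζ]; exact hr
  obtain ⟨κ, hκd, hκ0, hκ2⟩ := exists_kernel_right hz hζE
  have hr0 : r ≠ 0 := by linarith
  have hcong : (fun ξ => Pker z ζ ξ) =ᶠ[codiscreteWithin (sphere (0 : ℂ) |r|)]
      fun ξ => (1 + 2 * κ ξ).re := by
    filter_upwards [compl_singleton_mem_codiscreteWithin (x := ζ) (s := sphere (0 : ℂ) |r|),
      self_mem_codiscreteWithin (sphere (0 : ℂ) |r|)] with ξ hne hs
    have hξ := sphere_mem_Ext hr hs
    have hne' : ξ ≠ ζ := by simpa using hne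
    have e1 := hκ2 ξ hξ.1 hne'
    have e2 := re_div_sub_eq (hζ.trans hξ.2.symm) hne'.symm
    simp only [Pker]
    rw [e1]
    have e3 : (1 + 2 * (ζ * deriv z ζ / (z ζ - z ξ) - ζ / (ζ - ξ)) : ℂ).re
        = 1 + 2 * ((ζ * deriv z ζ / (z ζ - z ξ)).re - (ζ / (ζ - ξ)).re) := by
      simp
    rw [e3, e2]
    ring
  have hGd : DifferentiableOn ℂ (fun ζ => 1 + 2 * κ ζ) (Ext 1) :=
    (differentiableOn_const _).add ((differentiableOn_const _).mul hκd)
  have hGI : CircleIntegrable (fun ζ => 1 + 2 * κ ζ) 0 r :=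
    circleIntegrable_of_ext hr hGd.continuousOn
  have hGre : CircleIntegrable (fun ζ => (1 + 2 * κ ζ).re) 0 r :=
    circleIntegrable_of_ext hr (Complex.continuous_re.comp_continuousOn hGd.continuousOn)
  have hGa : circleAverage (fun ζ => 1 + 2 * κ ζ) 0 r = 1 := by
    refine circleAverage_eq_of_tendsto zero_le_one hr hGd ?_
    have := (tendsto_const_nhds (x := (1 : ℂ))).add ((tendsto_const_nhds (x := (2 : ℂ))).mul hκ0)
    simpa using this
  refine ⟨hGre.congr_codiscreteWithin hcong.symm, ?_⟩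
  rw [circleAverage_congr_codiscreteWithin hcong hr0]
  have := Complex.reCLM.circleAverage_comp_comm hGI
  have h3 : (⇑Complex.reCLM ∘ fun ζ => 1 + 2 * κ ζ) = fun ζ => (1 + 2 * κ ζ).re := rfl
  rw [h3, hGa] at this
  rw [this]
  simp

theorem main (hz : GoodMap K z c) {w h : ℂ[X]} {h0 : ℂ}
    (hw : w.coeff 0 = 0)
    (hh : Tendsto (fun ζ => h.eval (z ζ) - w.eval ζ - h0) (Bornology.cobounded ℂ) (𝓝 0))
    {r : ℝ} (hr : 1 < r) :
    circleAverage (fun ζ => ‖h.eval (z ζ) - w.eval ζ - h0‖ ^ 2) 0 r ≤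
      circleAverage (fun ζ => ‖w.eval ζ‖ ^ 2) 0 r := by
  have hnorm : ∀ θ : ℝ, ‖circleMap 0 r θ‖ = r := fun θ => by
    rw [norm_circleMap_zero, abs_of_pos (by linarith)]
  have hcm : ∀ θ : ℝ, circleMap 0 r θ ∈ Ext 1 := circleMap_mem_Ext hr
  rw [circleAverage_eq_angle, circleAverage_eq_angle]
  obtain ⟨C, hC⟩ : ∃ C, ∀ θ : ℝ, ‖w.eval (circleMap 0 r θ)‖ ≤ C := by
    obtain ⟨C, hC⟩ := (isCompact_sphere (0 : ℂ) r).exists_bound_of_continuousOn
      (f := fun ζ => w.eval ζ) w.continuous.continuousOn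
    exact ⟨C, fun θ => hC _ (circleMap_mem_sphere 0 (by linarith) θ)⟩
  have hzc : Continuous fun θ : ℝ => z (circleMap 0 r θ) :=
    hz.diff.continuousOn.comp_continuous (continuous_circleMap 0 r) hcm
  have hzc' : Continuous fun θ : ℝ => deriv z (circleMap 0 r θ) :=
    (hz.diff.deriv (isOpen_Ext 1)).continuousOn.comp_continuous (continuous_circleMap 0 r) hcm
  refine markov_contraction angleMeasure
    (fun s t => Pker z (circleMap 0 r s) (circleMap 0 r t)) ?_ ?_ ?_ ?_ ?_ ?_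
    (fun s => w.eval (circleMap 0 r s))
    (fun t => h.eval (z (circleMap 0 r t)) - w.eval (circleMap 0 r t) - h0) ?_ hC ?_
  · simp only [Pker, Function.uncurry_def]
    refine Measurable.const_mul ?_ 2
    refine Complex.measurable_re.comp ?_
    refine Measurable.div ?_ ?_
    · exact (((continuous_circleMap 0 r).comp continuous_fst).mul
        (hzc'.comp continuous_fst)).measurable
    · exact ((hzc.comp continuous_fst).sub (hzc.comp continuous_snd)).measurable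
  · intro s t
    exact Pker_nonneg hz (hcm s) ((hnorm t).trans (hnorm s).symm)
  · intro t
    exact (circleIntegrable_iff_angle _ _ _).mp (Pker_left hz hr (hnorm t) hw hh).1
  · intro s
    exact (circleIntegrable_iff_angle _ _ _).mp (Pker_right hz hr (hnorm s)).1
  · intro t
    rw [← circleAverage_eq_angle (fun ζ => Pker z ζ (circleMap 0 r t))]
    exact (Pker_left hz hr (hnorm t) hw hh).2.1
  · intro s
    rw [← circleAverage_eq_angle (fun ξ => Pker z (circleMap 0 r s) ξ)]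
    exact (Pker_right hz hr (hnorm s)).2
  · exact (w.continuous.comp (continuous_circleMap 0 r)).measurable
  · intro t
    rw [← circleAverage_eq_angle (fun ζ => w.eval ζ * (Pker z ζ (circleMap 0 r t) : ℂ))]
    exact (Pker_left hz hr (hnorm t) hw hh).2.2.symm

end Contr

/-- [C5] Contr.lean: the Neumann-Poincare operator is a contraction in `L²` of the equilibrium
measure. -/
theorem contraction {K : Set ℂ} {z : ℂ → ℂ} {c : ℂ} (hz : GoodMap K z c) {w h : ℂ[X]} {h0 : ℂ}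
    (hw : w.coeff 0 = 0)
    (hh : Tendsto (fun ζ => h.eval (z ζ) - w.eval ζ - h0) (Bornology.cobounded ℂ) (𝓝 0))
    {r : ℝ} (hr : 1 < r) :
    circleAverage (fun ζ => ‖h.eval (z ζ) - w.eval ζ - h0‖ ^ 2) 0 r ≤
      circleAverage (fun ζ => ‖w.eval ζ‖ ^ 2) 0 r :=
  Contr.main hz hw hh hr

end Vale.Agent.P123
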