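import Vale.Agent.P123.Near

/-!
# P123: the convexity inequality by the minimum principle
-/

open Metric Set Filter
open scoped Topology ComplexConjugate

namespace Vale.Agent.P123

variable {K : Set ℂ} {z₀ : ℂ} {f φ : ℂ → ℂ}

/-- the quotient `ζ z'(ζ) / (z(ζ) - z(λ ζ))` in the variable `η`, without singularity at `0` -/
noncomputable def qq (φ : ℂ → ℂ) (l η : ℂ) : ℂ :=
  deriv φ η * dslope φ 0 (η / l) /
    (dslope φ 0 η * (dslope φ 0 (η / l) - l * dslope φ 0 η))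

lemma PhiData.eq_mul_dslope (h : PhiData K z₀ f φ) (η : ℂ) : φ η = η * dslope φ 0 η := by
  have h1 := sub_smul_dslope φ 0 η
  rw [h.phi0, sub_zero, sub_zero, smul_eq_mul] at h1
  exact h1.symm

lemma PhiData.dslope_ne (h : PhiData K z₀ f φ) {η : ℂ} (hη : η ∈ ball (0 : ℂ) 1) :
    dslope φ 0 η ≠ 0 := by
  by_cases h0 : η = 0
  · subst h0
    rw [dslope_same]
    exact h.deriv_ne hη
  · intro h1
    have h2 := h.eq_mul_dslope η
    rw [h1, mul_zero] at h2
    exact h.phi_ne hη h0 h2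

lemma div_mem_ball {l η : ℂ} (hη : ‖η‖ < ‖l‖) : η / l ∈ ball (0 : ℂ) 1 := by
  rw [mem_ball_zero_iff, norm_div]
  have : 0 < ‖l‖ := lt_of_le_of_lt (norm_nonneg _) hη
  rwa [div_lt_one this]

lemma PhiData.den2_ne (h : PhiData K z₀ f φ) {l η : ℂ} (hl : ‖l‖ < 1) (hη : ‖η‖ < ‖l‖) :
    dslope φ 0 (η / l) - l * dslope φ 0 η ≠ 0 := by
  have hηb : η ∈ ball (0 : ℂ) 1 := mem_ball_zero_iff.mpr (hη.trans hl)
  have hl0 : l ≠ 0 := by
    rintro rfl
    rw [norm_zero] at hη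
    exact absurd hη (not_lt.mpr (norm_nonneg _))
  intro hcon
  by_cases h0 : η = 0
  · subst h0
    rw [zero_div] at hcon
    have h1 : dslope φ 0 0 * (1 - l) = 0 := by linear_combination hcon
    rcases mul_eq_zero.mp h1 with h2 | h2
    · exact h.dslope_ne hηb h2
    · have h3 : l = 1 := by linear_combination -h2
      rw [h3, norm_one] at hl
      exact lt_irrefl _ hl
  · have h1 : φ (η / l) = φ η := by
      rw [h.eq_mul_dslope (η / l), h.eq_mul_dslope η]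
      have h2 : dslope φ 0 (η / l) = l * dslope φ 0 η := by linear_combination hcon
      rw [h2]
      field_simp
    have h2 := h.inj (div_mem_ball hη) hηb h1
    have h3 : l = 1 := by
      rw [div_eq_iff hl0] at h2
      have h4 : η * (1 - l) = 0 := by linear_combination h2
      rcases mul_eq_zero.mp h4 with h5 | h5
      · exact absurd h5 h0
      · linear_combination -h5
    rw [h3, norm_one] at hl
    exact lt_irrefl _ hl

lemma PhiData.qq_eq (h : PhiData K z₀ f φ) {l η : ℂ} (hl : ‖l‖ < 1) (hη : ‖η‖ < ‖l‖)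
    (h0 : η ≠ 0) : qq φ l η = nn φ η / (zz z₀ φ η - zz z₀ φ (η / l)) := by
  have hηb : η ∈ ball (0 : ℂ) 1 := mem_ball_zero_iff.mpr (hη.trans hl)
  have hl0 : l ≠ 0 := by
    rintro rfl
    rw [norm_zero] at hη
    exact absurd hη (not_lt.mpr (norm_nonneg _))
  have h1 := h.dslope_ne hηb
  have h2 := h.dslope_ne (div_mem_ball hη)
  have h3 := h.den2_ne hl hη
  rw [qq, nn, zz, zz, h.eq_mul_dslope η, h.eq_mul_dslope (η / l)]
  have h4 : z₀ + (η * dslope φ 0 η)⁻¹ - (z₀ + (η / l * dslope φ 0 (η / l))⁻¹)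
      = (dslope φ 0 (η / l) - l * dslope φ 0 η) / (η * dslope φ 0 η * dslope φ 0 (η / l)) := by
    field_simp
    ring
  rw [h4]
  field_simp

lemma PhiData.differentiableOn_dslope (h : PhiData K z₀ f φ) :
    DifferentiableOn ℂ (dslope φ 0) (ball 0 1) :=
  (Complex.differentiableOn_dslope (isOpen_ball.mem_nhds (mem_ball_self one_pos))).mpr h.hφ

lemma PhiData.differentiableOn_qq (h : PhiData K z₀ f φ) {l : ℂ} (hl : ‖l‖ < 1) :
    DifferentiableOn ℂ (qq φ l) (ball 0 ‖l‖) := by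
  have hd := h.differentiableOn_dslope
  have hsub : ball (0 : ℂ) ‖l‖ ⊆ ball 0 1 := ball_subset_ball hl.le
  have h1 : DifferentiableOn ℂ (dslope φ 0) (ball 0 ‖l‖) := hd.mono hsub
  have h2 : DifferentiableOn ℂ (fun η => dslope φ 0 (η / l)) (ball 0 ‖l‖) := by
    refine hd.comp (by fun_prop) ?_
    intro η hη
    exact div_mem_ball (mem_ball_zero_iff.mp hη)
  have h3 : DifferentiableOn ℂ (deriv φ) (ball 0 ‖l‖) :=
    (h.hφ.deriv isOpen_ball).mono hsub
  refine (h3.mul h2).div (h1.mul (h2.sub ((differentiableOn_const _).mul h1))) ?_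
  intro η hη
  exact mul_ne_zero (h.dslope_ne (hsub hη)) (h.den2_ne hl (mem_ball_zero_iff.mp hη))

lemma PhiData.nn_bound (h : PhiData K z₀ f φ) {l : ℝ} (hl0 : 0 < l) (hl : l < 1) :
    ∃ M > 0, ∀ η : ℂ, l / 2 ≤ ‖η‖ → ‖η‖ ≤ l → ‖nn φ η‖ ≤ M := by
  set C : Set ℂ := closedBall 0 l ∩ {w | l / 2 ≤ ‖w‖} with hC
  have hCc : IsCompact C :=
    (isCompact_closedBall 0 l).inter_right (isClosed_le continuous_const continuous_norm)
  have hCb : C ⊆ ball 0 1 := fun w hw => closedBall_subset_ball hl hw.1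
  have hcont : ContinuousOn (nn φ) C := by
    refine ContinuousOn.div (((h.hφ.deriv isOpen_ball).continuousOn.mono hCb).mul
      continuousOn_id) ((h.hφ.continuousOn.mono hCb).pow 2) ?_
    intro w hw
    have hw0 : w ≠ 0 := by
      rintro rfl
      have := hw.2
      simp only [mem_ofPred_eq, norm_zero] at this
      linarith
    exact pow_ne_zero 2 (h.phi_ne (hCb hw) hw0)
  obtain ⟨M, hM⟩ := hCc.exists_bound_of_continuousOn hcont
  exact ⟨max M 1, by positivity, fun η h1 h2 =>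
    (hM η ⟨mem_closedBall_zero_iff.mpr h2, h1⟩).trans (le_max_left _ _)⟩

lemma re_ge_of_close {a b : ℂ} {ε : ℝ} (ha : 0 ≤ a.re) (hab : ‖b - a‖ ≤ ε) : -ε ≤ b.re := by
  have h1 : |(b - a).re| ≤ ‖b - a‖ := Complex.abs_re_le_norm _
  rw [Complex.sub_re] at h1
  have h2 := neg_abs_le (b.re - a.re)
  linarith

/-- boundary estimate -/
lemma PhiData.qq_boundary (h : PhiData K z₀ f φ) {l : ℂ} (hl0 : l ≠ 0) (hl : ‖l‖ < 1) {ε : ℝ}
    (hε : 0 < ε) : ∃ ρ < ‖l‖, 0 ≤ ρ ∧ ∀ η : ℂ, ρ < ‖η‖ → ‖η‖ < ‖l‖ → -ε ≤ (qq φ l η).re := by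
  have hlpos : 0 < ‖l‖ := norm_pos_iff.mpr hl0
  obtain ⟨d, hd, hfar⟩ := h.far hl
  obtain ⟨M, hM, hbound⟩ := h.nn_bound hlpos hl
  set δ := min (d / 2) (ε * d ^ 2 / (2 * M)) with hδ
  have hδ0 : 0 < δ := by positivity
  obtain ⟨ρ₁, hρ₁, hρ₁0, hnear⟩ := h.near hδ0
  refine ⟨max (‖l‖ / 2) (‖l‖ * ρ₁), max_lt (by linarith) (by nlinarith), by positivity,
    fun η h1 h2 => ?_⟩
  have hη1 : ‖l‖ / 2 < ‖η‖ := lt_of_le_of_lt (le_max_left _ _) h1
  have hη2 : ‖l‖ * ρ₁ < ‖η‖ := lt_of_le_of_lt (le_max_right _ _) h1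
  have hηb : η ∈ ball (0 : ℂ) 1 := mem_ball_zero_iff.mpr (h2.trans hl)
  have hη0 : η ≠ 0 := by
    rintro rfl
    rw [norm_zero] at hη1
    linarith
  have hσ1 : ρ₁ < ‖η / l‖ := by
    rw [norm_div, lt_div_iff₀ hlpos]; linarith
  have hσ2 : ‖η / l‖ < 1 := mem_ball_zero_iff.mp (div_mem_ball h2)
  obtain ⟨a, ha, hadist⟩ := (infDist_lt_iff h.nonempty).mp (hnear _ hσ1 hσ2)
  rw [h.qq_eq hl h2 hη0]
  set N := nn φ η with hN
  set Z := zz z₀ φ η with hZ
  set S := zz z₀ φ (η / l) with hS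
  have hZa : d ≤ ‖Z - a‖ := by
    have h3 := (hfar η hη0 h2.le).trans (infDist_le_dist_of_mem ha)
    rwa [dist_eq_norm] at h3
  have hSa : ‖S - a‖ < δ := by rwa [dist_eq_norm] at hadist
  have hZS : d / 2 ≤ ‖Z - S‖ := by
    have h3 : ‖Z - a‖ ≤ ‖Z - S‖ + ‖S - a‖ := by
      have := norm_add_le (Z - S) (S - a)
      rwa [sub_add_sub_cancel] at this
    have h4 : δ ≤ d / 2 := min_le_left _ _
    linarith
  have hZa0 : Z - a ≠ 0 := norm_pos_iff.mp (by linarith)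
  have hZS0 : Z - S ≠ 0 := norm_pos_iff.mp (by linarith [half_pos hd])
  have hstar : 0 ≤ (N / (Z - a)).re := re_div_nonneg_comm (h.star' ha hηb hη0)
  refine re_ge_of_close hstar ?_
  have h5 : N / (Z - S) - N / (Z - a) = N * (S - a) / ((Z - S) * (Z - a)) := by
    field_simp
    ring
  rw [h5, norm_div, norm_mul, norm_mul]
  have hNM : ‖N‖ ≤ M := hbound η hη1.le h2.le
  have h6 : δ ≤ ε * d ^ 2 / (2 * M) := min_le_right _ _
  have h7 : M * δ ≤ ε * (d / 2 * d) := by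
    have : M * δ ≤ M * (ε * d ^ 2 / (2 * M)) := by gcongr
    have h8 : M * (ε * d ^ 2 / (2 * M)) = ε * (d / 2 * d) := by field_simp
    linarith
  have h9 : d / 2 * d ≤ ‖Z - S‖ * ‖Z - a‖ := by gcongr
  have h10 : 0 < ‖Z - S‖ * ‖Z - a‖ := by positivity
  rw [div_le_iff₀ h10]
  calc ‖N‖ * ‖S - a‖ ≤ M * δ := by gcongr
    _ ≤ ε * (d / 2 * d) := h7
    _ ≤ ε * (‖Z - S‖ * ‖Z - a‖) := by gcongr

lemma PhiData.qq_nonneg (h : PhiData K z₀ f φ) {l : ℂ} (hl0 : l ≠ 0) (hl : ‖l‖ < 1) {η : ℂ}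
    (hη : ‖η‖ < ‖l‖) : 0 ≤ (qq φ l η).re := by
  have key : ∀ ε > 0, -ε ≤ (qq φ l η).re := by
    intro ε hε
    obtain ⟨ρ, hρl, hρ0, hρ⟩ := h.qq_boundary hl0 hl hε
    obtain ⟨r, hr1, hr2⟩ := exists_between (max_lt hρl hη)
    have hr0 : 0 < r := lt_of_le_of_lt (hρ0.trans (le_max_left _ _)) hr1
    have hdiff : DiffContOnCl ℂ (fun w => Complex.exp (-(qq φ l w))) (ball 0 r) := by
      have h1 : DifferentiableOn ℂ (fun w => Complex.exp (-(qq φ l w))) (ball 0 ‖l‖) :=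
        (h.differentiableOn_qq hl).neg.cexp
      refine ⟨h1.mono (ball_subset_ball hr2.le), ?_⟩
      rw [closure_ball _ hr0.ne']
      exact h1.continuousOn.mono (closedBall_subset_ball hr2)
    have hbd : ∀ w ∈ frontier (ball (0 : ℂ) r), ‖Complex.exp (-(qq φ l w))‖ ≤ Real.exp ε := by
      intro w hw
      rw [frontier_ball _ hr0.ne', mem_sphere_zero_iff_norm] at hw
      rw [Complex.norm_exp, Real.exp_le_exp, Complex.neg_re]
      have := hρ w (by rw [hw]; exact lt_of_le_of_lt (le_max_left _ _) hr1) (by rw [hw]; exact hr2)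
      linarith
    have hmem : η ∈ closure (ball (0 : ℂ) r) := by
      rw [closure_ball _ hr0.ne', mem_closedBall_zero_iff]
      exact (lt_of_le_of_lt (le_max_right _ _) hr1).le
    have h2 := Complex.norm_le_of_forall_mem_frontier_norm_le isBounded_ball hdiff hbd hmem
    rw [Complex.norm_exp, Real.exp_le_exp, Complex.neg_re] at h2
    linarith
  by_contra hcon
  rw [not_le] at hcon
  have := key (-(qq φ l η).re / 2) (by linarith)
  linarith

/-- the convexity inequality, inner version -/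
lemma PhiData.conv_inner (h : PhiData K z₀ f φ) {l : ℂ} (hl0 : l ≠ 0) (hl : ‖l‖ < 1) {η : ℂ}
    (h0 : η ≠ 0) (hη : ‖η‖ < ‖l‖) :
    0 ≤ (nn φ η * conj (zz z₀ φ η - zz z₀ φ (η / l))).re := by
  apply re_mul_conj_nonneg_of_div
  rw [← h.qq_eq hl hη h0]
  exact h.qq_nonneg hl0 hl hη

/-- the convexity inequality on a level curve -/
lemma PhiData.conv_level (h : PhiData K z₀ f φ) {u : ℂ} (hu : ‖u‖ = 1) {η : ℂ}
    (h0 : η ≠ 0) (hη : ‖η‖ < 1) :
    0 ≤ (nn φ η * conj (zz z₀ φ η - zz z₀ φ (η / u))).re := by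
  have hu0 : u ≠ 0 := by
    rintro rfl
    rw [norm_zero] at hu
    exact zero_ne_one hu
  have hηu : η / u ∈ ball (0 : ℂ) 1 := by
    rw [mem_ball_zero_iff, norm_div, hu, div_one]; exact hη
  have hηu0 : η / u ≠ 0 := div_ne_zero h0 hu0
  have hcont : Tendsto (fun s : ℝ => (nn φ η * conj (zz z₀ φ η - zz z₀ φ (η / (s * u)))).re)
      (𝓝[<] 1) (𝓝 (nn φ η * conj (zz z₀ φ η - zz z₀ φ (η / u))).re) := by
    have h1 : ContinuousAt (fun s : ℝ => η / ((s : ℂ) * u)) 1 := by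
      refine ContinuousAt.div continuousAt_const (by fun_prop) ?_
      simpa using hu0
    have h2 : ContinuousAt (zz z₀ φ) (η / u) := by
      have h3 : ContinuousAt φ (η / u) := (h.hasDerivAt hηu).continuousAt
      exact continuousAt_const.add (h3.inv₀ (h.phi_ne hηu hηu0))
    have h4 : ContinuousAt (fun s : ℝ => zz z₀ φ (η / ((s : ℂ) * u))) 1 := by
      refine ContinuousAt.comp (g := zz z₀ φ) ?_ h1
      simpa using h2
    have h5 : ContinuousAt
        (fun s : ℝ => (nn φ η * conj (zz z₀ φ η - zz z₀ φ (η / (s * u)))).re) 1 := by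
      refine Complex.continuous_re.continuousAt.comp ?_
      refine continuousAt_const.mul ?_
      exact Complex.continuous_conj.continuousAt.comp (continuousAt_const.sub h4)
    have h6 := h5.tendsto
    simp only [Complex.ofReal_one, one_mul] at h6
    exact h6.mono_left nhdsWithin_le_nhds
  refine ge_of_tendsto hcont ?_
  have h7 : ∀ᶠ s : ℝ in 𝓝[<] 1, ‖η‖ < s :=
    (lt_mem_nhds hη).filter_mono nhdsWithin_le_nhds
  filter_upwards [h7, self_mem_nhdsWithin] with s hs1 hs2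
  have hs0 : 0 < s := lt_of_le_of_lt (norm_nonneg _) hs1
  have hnorm : ‖(s : ℂ) * u‖ = s := by
    rw [norm_mul, hu, mul_one, Complex.norm_real, Real.norm_of_nonneg hs0.le]
  refine h.conv_inner ?_ ?_ h0 ?_
  · rw [← norm_pos_iff, hnorm]; exact hs0
  · rw [hnorm]; exact hs2
  · rw [hnorm]; exact hs1

end Vale.Agent.P123
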