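import Vale.Agent.P123.Key

open Complex Metric Set Filter Polynomial Real
open scoped Topology ComplexConjugate InnerProductSpace

namespace Vale.Agent.P123

/-! ## The perturbation argument -/

lemma norm_perturb_le {v ε : ℂ} (hv : ‖v‖ ≤ 1) (hε : ‖ε‖ ≤ 1 / 2) :
    ‖v - ε + conj ε * v ^ 2‖ ≤ 1 + 4 * ‖ε‖ ^ 2 := by
  have hn : ∀ w : ℂ, ‖w‖ ^ 2 = w.re ^ 2 + w.im ^ 2 := fun w => by
    rw [← Complex.normSq_eq_norm_sq, Complex.normSq_apply]; ring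
  have hε0 := norm_nonneg ε
  have hv0 := norm_nonneg v
  have h1 : ‖v - ε‖ ≤ ‖1 - conj ε * v‖ := by
    have h2 : ‖1 - conj ε * v‖ ^ 2 - ‖v - ε‖ ^ 2 = (1 - ‖v‖ ^ 2) * (1 - ‖ε‖ ^ 2) := by
      rw [hn, hn, hn, hn]
      simp only [Complex.sub_re, Complex.sub_im, Complex.one_re, Complex.one_im, Complex.mul_re,
        Complex.mul_im, Complex.conj_re, Complex.conj_im]
      ring
    have h3 : 0 ≤ (1 - ‖v‖ ^ 2) * (1 - ‖ε‖ ^ 2) :=
      mul_nonneg (by nlinarith) (by nlinarith)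
    exact abs_le_of_sq_le_sq' (by linarith) (norm_nonneg _) |>.2
  have h4 : 1 / 2 ≤ ‖1 - conj ε * v‖ := by
    have h5 : ‖(1 : ℂ)‖ ≤ ‖1 - conj ε * v‖ + ‖conj ε * v‖ := by
      calc ‖(1 : ℂ)‖ = ‖(1 - conj ε * v) + conj ε * v‖ := by congr 1; ring
        _ ≤ _ := norm_add_le _ _
    rw [norm_one, norm_mul, Complex.norm_conj] at h5
    nlinarith [mul_le_mul hε hv hv0 (by norm_num : (0 : ℝ) ≤ 1 / 2)]
  have h6 : (1 - conj ε * v) * (v - ε + conj ε * v ^ 2) =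
      (v - ε) + (conj ε * ε * v - conj ε ^ 2 * v ^ 3) := by ring
  have h7 : ‖1 - conj ε * v‖ * ‖v - ε + conj ε * v ^ 2‖ ≤
      ‖1 - conj ε * v‖ + 2 * ‖ε‖ ^ 2 := by
    rw [← norm_mul, h6]
    calc _ ≤ ‖v - ε‖ + ‖conj ε * ε * v - conj ε ^ 2 * v ^ 3‖ := norm_add_le _ _
      _ ≤ ‖1 - conj ε * v‖ + (‖conj ε * ε * v‖ + ‖conj ε ^ 2 * v ^ 3‖) :=
          add_le_add h1 (norm_sub_le _ _)
      _ ≤ ‖1 - conj ε * v‖ + 2 * ‖ε‖ ^ 2 := by
          simp only [norm_mul, norm_pow, Complex.norm_conj]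
          have h8 : ‖ε‖ * ‖ε‖ * ‖v‖ ≤ ‖ε‖ ^ 2 := by
            nlinarith [mul_nonneg hε0 hε0]
          have h9 : ‖ε‖ ^ 2 * ‖v‖ ^ 3 ≤ ‖ε‖ ^ 2 := by
            have : ‖v‖ ^ 3 ≤ 1 := pow_le_one₀ hv0 hv
            nlinarith [mul_nonneg hε0 hε0]
          linarith
  have h10 : 0 < ‖1 - conj ε * v‖ := by linarith
  have h11 : 2 * ‖ε‖ ^ 2 ≤ ‖1 - conj ε * v‖ * (4 * ‖ε‖ ^ 2) := by
    nlinarith [sq_nonneg ‖ε‖]
  have h12 : ‖1 - conj ε * v‖ * ‖v - ε + conj ε * v ^ 2‖ ≤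
      ‖1 - conj ε * v‖ * (1 + 4 * ‖ε‖ ^ 2) := by linarith
  exact le_of_mul_le_mul_left h12 h10

variable {V : Type*} [NormedAddCommGroup V] [InnerProductSpace ℂ V] [FiniteDimensional ℂ V]

/-- singular vectors for the norm -/
lemma exists_singular (T : V →L[ℂ] V) (hT : 0 < ‖T‖) :
    ∃ x y : V, ‖x‖ = 1 ∧ ‖y‖ = 1 ∧ T x = (‖T‖ : ℂ) • y ∧
      ContinuousLinearMap.adjoint T y = (‖T‖ : ℂ) • x := by
  have hnt : Nontrivial V := by
    by_contra h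
    rw [not_nontrivial_iff_subsingleton] at h
    have : T = 0 := Subsingleton.elim _ _
    simp [this] at hT
  have hprop : ProperSpace V := FiniteDimensional.proper ℂ V
  obtain ⟨x, hx, hmax⟩ := (isCompact_sphere (0 : V) 1).exists_isMaxOn
    (NormedSpace.sphere_nonempty.mpr zero_le_one) (T.continuous.norm.continuousOn)
  have hx1 : ‖x‖ = 1 := by simpa using hx
  have hTx : ‖T x‖ = ‖T‖ := by
    apply le_antisymm
    · simpa [hx1] using T.le_opNorm x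
    · apply T.opNorm_le_bound (norm_nonneg _)
      intro v
      rcases eq_or_ne v 0 with rfl | hv
      · simp
      · have hv' : ‖v‖ ≠ 0 := norm_ne_zero_iff.mpr hv
        have h1 : ((‖v‖ : ℂ)⁻¹ • v) ∈ sphere (0 : V) 1 := by
          simp [norm_smul, hv']
        have h2 : ‖T ((‖v‖ : ℂ)⁻¹ • v)‖ ≤ ‖T x‖ := hmax h1
        rw [map_smul, norm_smul, norm_inv, Complex.norm_real, norm_norm,
          inv_mul_le_iff₀ (by positivity)] at h2
        linarith [mul_comm ‖v‖ ‖T x‖]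
  set κ : ℝ := ‖T‖ with hκ
  have hκ' : (κ : ℂ) ≠ 0 := by exact_mod_cast hT.ne'
  have hadj : ContinuousLinearMap.adjoint T (T x) = ((κ ^ 2 : ℝ) : ℂ) • x := by
    rw [← sub_eq_zero, ← norm_eq_zero, ← sq_eq_zero_iff]
    apply le_antisymm _ (sq_nonneg _)
    have h1 : ‖ContinuousLinearMap.adjoint T (T x)‖ ≤ κ * κ := by
      calc _ ≤ ‖ContinuousLinearMap.adjoint T‖ * ‖T x‖ := ContinuousLinearMap.le_opNorm _ _
        _ = κ * κ := by rw [hTx, LinearIsometryEquiv.norm_map]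
    have h2 : RCLike.re ⟪ContinuousLinearMap.adjoint T (T x), ((κ ^ 2 : ℝ) : ℂ) • x⟫_ℂ =
        κ ^ 2 * κ ^ 2 := by
      rw [inner_smul_right, ContinuousLinearMap.adjoint_inner_left, inner_self_eq_norm_sq_to_K,
        hTx]
      simp [← Complex.ofReal_pow, ← Complex.ofReal_mul]
    rw [@norm_sub_sq ℂ, h2, norm_smul, Complex.norm_real, hx1]
    have h3 : ‖κ ^ 2‖ = κ ^ 2 := by simp
    rw [h3]
    have h4 : 0 ≤ ‖ContinuousLinearMap.adjoint T (T x)‖ := norm_nonneg _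
    nlinarith [mul_le_mul h1 h1 h4 (by positivity)]
  refine ⟨x, (κ : ℂ)⁻¹ • T x, hx1, ?_, ?_, ?_⟩
  · rw [norm_smul, norm_inv, Complex.norm_real, hTx, Real.norm_of_nonneg hT.le]
    exact inv_mul_cancel₀ hT.ne'
  · rw [smul_smul, mul_inv_cancel₀ hκ', one_smul]
  · rw [map_smul, hadj, smul_smul]
    congr 1
    push_cast
    field_simp

/-- Crouzeix's inequality on the level curves of the exterior map. -/
theorem core {K : Set ℂ} {z : ℂ → ℂ} {c : ℂ} (hz : GoodMap K z c)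
    (B : V →L[ℂ] V) (hB : numRange B ⊆ K) {r : ℝ} (hr : 1 < r) {f : ℂ[X]}
    (hf : ∀ ζ : ℂ, ‖ζ‖ = r → ‖f.eval (z ζ)‖ ≤ 1) :
    ‖aeval B f‖ ≤ 2 := by
  set F : Set ℂ[X] := {f | ∀ ζ : ℂ, ‖ζ‖ = r → ‖f.eval (z ζ)‖ ≤ 1} with hF
  -- the key inequality
  have key : ∀ f ∈ F, 0 < ‖aeval B f‖ → ∃ x y : V, ‖x‖ = 1 ∧ ‖y‖ = 1 ∧
      aeval B f x = (‖aeval B f‖ : ℂ) • y ∧
      ContinuousLinearMap.adjoint (aeval B f) y = (‖aeval B f‖ : ℂ) • x ∧
      ‖aeval B f‖ ≤ 2 + ‖⟪x, y⟫_ℂ‖ ^ 2 / 4 := by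
    intro f hf hpos
    obtain ⟨x, y, hx, hy, hxy, hyx⟩ := exists_singular _ hpos
    exact ⟨x, y, hx, hy, hxy, hyx, key_sq hz B hB hr hf hpos hx hxy hyx⟩
  have hs1 : ∀ x y : V, ‖x‖ = 1 → ‖y‖ = 1 → ‖⟪x, y⟫_ℂ‖ ≤ 1 := by
    intro x y hx hy
    simpa [hx, hy] using norm_inner_le_norm (𝕜 := ℂ) x y
  have hbd : ∀ f ∈ F, ‖aeval B f‖ ≤ 9 / 4 := by
    intro f hf
    rcases (norm_nonneg (aeval B f)).eq_or_lt with h0 | hpos
    · rw [← h0]; norm_num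
    · obtain ⟨x, y, hx, hy, -, -, h⟩ := key f hf hpos
      have := hs1 x y hx hy
      nlinarith [norm_nonneg ⟪x, y⟫_ℂ]
  set S : Set ℝ := (fun f : ℂ[X] => ‖aeval B f‖) '' F with hS
  have hSb : BddAbove S := ⟨9 / 4, by rintro _ ⟨f, hf, rfl⟩; exact hbd f hf⟩
  have hSn : S.Nonempty := ⟨_, 0, by simp [hF], rfl⟩
  set M : ℝ := sSup S with hM
  have hfM : ∀ f ∈ F, ‖aeval B f‖ ≤ M := fun f hf => le_csSup hSb ⟨f, hf, rfl⟩
  have hM94 : M ≤ 9 / 4 := csSup_le hSn (by rintro _ ⟨f, hf, rfl⟩; exact hbd f hf)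
  suffices hM2 : M ≤ 2 from (hfM f hf).trans hM2
  by_contra hM2
  push Not at hM2
  set η : ℝ := (M - 2) / 8 with hη
  have hη0 : 0 < η := by positivity
  have hη1 : η ≤ 1 / 32 := by rw [hη]; linarith
  obtain ⟨_, ⟨g, hgF, rfl⟩, hg⟩ := exists_lt_of_lt_csSup hSn
    (show M - η ^ 2 < sSup S by rw [← hM]; nlinarith)
  simp only at hg
  set κ : ℝ := ‖aeval B g‖ with hκ
  have hκ2 : 2 < κ := by nlinarith
  obtain ⟨x, y, hx, hy, hxy, hyx, hkey⟩ := key g hgF (by linarith)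
  rw [← hκ] at hxy hyx hkey
  set p : ℂ := ⟪x, y⟫_ℂ with hp
  have hp1 : ‖p‖ ≤ 1 := hs1 x y hx hy
  -- the perturbation
  obtain ⟨ε, hε, hεp⟩ : ∃ ε : ℂ, ‖ε‖ ≤ η ∧ (conj ε * p).re = η * ‖p‖ := by
    rcases eq_or_ne p 0 with h0 | h0
    · exact ⟨0, by simp [hη0.le], by simp [h0]⟩
    · have h1 : (‖p‖ : ℂ) ≠ 0 := by exact_mod_cast norm_ne_zero_iff.mpr h0
      refine ⟨η * p / ‖p‖, ?_, ?_⟩
      · rw [norm_div, norm_mul, Complex.norm_real, Complex.norm_real, norm_norm,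
          mul_div_cancel_right₀ _ (norm_ne_zero_iff.mpr h0), Real.norm_of_nonneg hη0.le]
      · have h2 : conj ((η : ℂ) * p / ‖p‖) * p = ((η * ‖p‖ : ℝ) : ℂ) := by
          rw [map_div₀, map_mul, Complex.conj_ofReal, Complex.conj_ofReal]
          have h3 : conj p * p = (‖p‖ : ℂ) ^ 2 := by
            rw [mul_comm, Complex.mul_conj, Complex.normSq_eq_norm_sq]; push_cast; ring
          field_simp
          rw [mul_assoc, h3]
          push_cast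
          ring
        rw [h2, Complex.ofReal_re]
  have hε2 : ‖ε‖ ≤ 1 / 2 := by linarith
  set g' : ℂ[X] := g - C ε + C (conj ε) * g ^ 2 with hg'
  set m : ℝ := 1 + 4 * η ^ 2 with hm
  have hm0 : 0 < m := by positivity
  have hg'F : C ((m : ℂ)⁻¹) * g' ∈ F := by
    intro ζ hζ
    have h1 := norm_perturb_le (hgF ζ hζ) hε2
    simp only [hg', Polynomial.eval_mul, Polynomial.eval_C, Polynomial.eval_add,
      Polynomial.eval_sub, Polynomial.eval_pow]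
    rw [norm_mul, norm_inv, Complex.norm_real, Real.norm_of_nonneg hm0.le,
      inv_mul_le_iff₀ hm0, mul_one]
    refine h1.trans ?_
    rw [hm]
    have : ‖ε‖ ^ 2 ≤ η ^ 2 := by gcongr
    linarith
  have hle : ‖aeval B g'‖ ≤ m * M := by
    have h1 := hfM _ hg'F
    rw [map_mul, aeval_C, ← Algebra.smul_def, norm_smul, norm_inv, Complex.norm_real,
      Real.norm_of_nonneg hm0.le, inv_mul_le_iff₀ hm0] at h1
    exact h1
  have hcalc : ⟪y, aeval B g' x⟫_ℂ = κ - ε * conj p + conj ε * (κ ^ 2 * p) := by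
    have h1 : aeval B g' x = (κ : ℂ) • y - ε • x + conj ε • ((κ : ℂ) • aeval B g y) := by
      rw [hg', map_add, map_sub, map_mul, aeval_C, aeval_C, map_pow, ← Algebra.smul_def,
        Algebra.algebraMap_eq_smul_one, pow_two]
      simp only [add_apply, sub_apply,
        smul_apply, mul_apply_eq_comp,
        one_apply_eq_self, hxy, map_smul]
    have h2 : ⟪y, aeval B g y⟫_ℂ = κ * p := by
      rw [← ContinuousLinearMap.adjoint_inner_left, hyx, inner_smul_left, Complex.conj_ofReal]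
    have h3 : ⟪y, x⟫_ℂ = conj p := (inner_conj_symm y x).symm
    have h4 : ⟪y, y⟫_ℂ = 1 := by simp [inner_self_eq_norm_sq_to_K, hy]
    rw [h1, inner_add_right, inner_sub_right, inner_smul_right, inner_smul_right,
      inner_smul_right, inner_smul_right, h2, h3, h4]
    ring
  have hre : (⟪y, aeval B g' x⟫_ℂ).re = κ + (κ ^ 2 - 1) * (η * ‖p‖) := by
    rw [hcalc, ← hεp]
    have h1 : (ε * conj p).re = (conj ε * p).re := by
      simp [Complex.mul_re]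
    have h2 : (conj ε * ((κ : ℂ) ^ 2 * p)).re = κ ^ 2 * (conj ε * p).re := by
      have : conj ε * ((κ : ℂ) ^ 2 * p) = ((κ ^ 2 : ℝ) : ℂ) * (conj ε * p) := by
        push_cast; ring
      rw [this, Complex.re_ofReal_mul]
    rw [Complex.add_re, Complex.sub_re, h1, h2, Complex.ofReal_re]
    ring
  have hub : (⟪y, aeval B g' x⟫_ℂ).re ≤ m * M := by
    calc _ ≤ ‖⟪y, aeval B g' x⟫_ℂ‖ := Complex.re_le_norm _
      _ ≤ ‖y‖ * ‖aeval B g' x‖ := norm_inner_le_norm _ _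
      _ ≤ ‖y‖ * (‖aeval B g'‖ * ‖x‖) := by gcongr; exact ContinuousLinearMap.le_opNorm _ _
      _ ≤ m * M := by rw [hx, hy]; linarith
  rw [hre] at hub
  have hκM : κ ≤ M := hfM g hgF
  have hp0 : 0 ≤ ‖p‖ := norm_nonneg p
  have h3 : 3 * (η * ‖p‖) ≤ (κ ^ 2 - 1) * (η * ‖p‖) := by
    have : 3 ≤ κ ^ 2 - 1 := by nlinarith
    have h4 : 0 ≤ η * ‖p‖ := by positivity
    nlinarith
  have h4 : κ - 2 ≤ ‖p‖ := by nlinarith
  have h5 : 3 * (η * (κ - 2)) ≤ 3 * (η * ‖p‖) := by gcongr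
  have h6 : M - 2 = 8 * η := by rw [hη]; ring
  have h7 : κ - 2 ≥ 8 * η - η ^ 2 := by linarith
  have h8 : 3 * (η * (8 * η - η ^ 2)) ≤ 3 * (η * (κ - 2)) := by gcongr
  have h9 : m * M - κ ≤ η ^ 2 + 9 * η ^ 2 := by
    rw [hm]; nlinarith [sq_nonneg η]
  nlinarith [sq_nonneg η, mul_pos hη0 hη0]

end Vale.Agent.P123
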