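import Mathlib

/-!
# P123, definitions
-/

open Complex Metric Set Filter Polynomial
open scoped Topology ComplexConjugate InnerProductSpace

universe u

namespace Vale.Agent.P123

/-- The numerical range `W(A)` of a bounded operator. Mathlib's inner product is linear in the
second argument, so `⟪x, A x⟫` is the number `⟨A x, x⟩` of the problem file. -/
def numRange {H : Type*} [NormedAddCommGroup H] [InnerProductSpace ℂ H] (A : H →L[ℂ] H) :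
    Set ℂ :=
  {z | ∃ x : H, ‖x‖ = 1 ∧ ⟪x, A x⟫_ℂ = z}

/-- `C` is an admissible constant in Crouzeix's problem: `‖P(A)‖ ≤ C sup_{W(A)} |P|` for every
nonzero complex Hilbert space (in the universe `u`), every bounded operator `A` on it and every
polynomial `P`. -/
def IsCrouzeixBound (C : ℝ) : Prop :=
  ∀ (H : Type u) [NormedAddCommGroup H] [InnerProductSpace ℂ H] [CompleteSpace H] [Nontrivial H]
    (A : H →L[ℂ] H) (P : ℂ[X]),
    ‖aeval A P‖ ≤ C * sSup ((fun z : ℂ => ‖P.eval z‖) '' numRange A)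

/-- Exterior of the closed disc of radius `r`. -/
def Ext (r : ℝ) : Set ℂ := {ζ | r < ‖ζ‖}

/-- What the core argument needs from the exterior conformal map `z` of the convex compact set
`K`. -/
structure GoodMap (K : Set ℂ) (z : ℂ → ℂ) (c : ℂ) : Prop where
  c_ne : c ≠ 0
  diff : DifferentiableOn ℂ z (Ext 1)
  inj : InjOn z (Ext 1)
  avoid : ∀ ζ ∈ Ext 1, z ζ ∉ K
  lim : Tendsto (fun ζ => z ζ / ζ) (Bornology.cobounded ℂ) (𝓝 c)
  conv : ∀ ζ ∈ Ext 1, ∀ ξ : ℂ, ‖ξ‖ = ‖ζ‖ → 0 ≤ (ζ * deriv z ζ * conj (z ζ - z ξ)).re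
  star : ∀ ζ ∈ Ext 1, ∀ a ∈ K, 0 ≤ (ζ * deriv z ζ * conj (z ζ - a)).re
  near : ∀ ε > 0, ∃ r > 1, ∀ ζ : ℂ, ‖ζ‖ = r → infDist (z ζ) K ≤ ε

/-- The exterior conformal map `z` of `K` and its inverse `φ`. -/
structure ExtPair (K : Set ℂ) (z φ : ℂ → ℂ) (c : ℂ) : Prop where
  c_ne : c ≠ 0
  zdiff : DifferentiableOn ℂ z (Ext 1)
  phidiff : DifferentiableOn ℂ φ Kᶜ
  zmem : ∀ ζ ∈ Ext 1, z ζ ∉ K
  phimem : ∀ p ∉ K, φ p ∈ Ext 1
  phiz : ∀ ζ ∈ Ext 1, φ (z ζ) = ζ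
  zphi : ∀ p ∉ K, z (φ p) = p
  lim : Tendsto (fun ζ => z ζ / ζ) (Bornology.cobounded ℂ) (𝓝 c)
  limphi : Tendsto (fun p => φ p / p) (Bornology.cobounded ℂ) (𝓝 c⁻¹)
  near : ∀ ε > 0, ∃ r > 1, ∀ p ∉ K, ‖φ p‖ ≤ r → infDist p K ≤ ε
  near' : ∀ r > 1, ∃ ε > 0, ∀ p ∉ K, infDist p K ≤ ε → ‖φ p‖ ≤ r

/-- The operator kernel `ζ z'(ζ) (z(ζ) - B)⁻¹`. -/
noncomputable def ker {V : Type*} [NormedAddCommGroup V] [InnerProductSpace ℂ V]
    (z : ℂ → ℂ) (B : V →L[ℂ] V) (ζ : ℂ) : V →L[ℂ] V :=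
  (ζ * deriv z ζ) • resolvent B (z ζ)

end Vale.Agent.P123
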