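import Vale.Agent.P123.RMT
import Vale.Agent.P123.DerivInj

/-!
# P123: the exterior map of a compact convex set, in the variable `η = 1/ζ`
-/

open Metric Set Filter
open scoped Topology ComplexConjugate

namespace Vale.Agent.P123

/-! ### the inverted domain -/

/-- `{0} ∪ 1 / (Kᶜ - z₀)` -/
def invDom (K : Set ℂ) (z₀ : ℂ) : Set ℂ := {w | w = 0 ∨ z₀ + w⁻¹ ∉ K}

lemma mem_invDom_zero (K : Set ℂ) (z₀ : ℂ) : (0 : ℂ) ∈ invDom K z₀ := Or.inl rfl

lemma isOpen_invDom {K : Set ℂ} (hK : IsCompact K) (z₀ : ℂ) : IsOpen (invDom K z₀) := by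
  rw [isOpen_iff_mem_nhds]
  rintro w (rfl | hw)
  · obtain ⟨R, hR⟩ := hK.isBounded.subset_ball z₀
    rw [Metric.mem_nhds_iff]
    refine ⟨(|R| + 1)⁻¹, by positivity, ?_⟩
    intro w hw
    by_cases h0 : w = 0
    · exact Or.inl h0
    · right
      intro hmem
      have h1 := hR hmem
      rw [mem_ball, dist_eq_norm, add_sub_cancel_left, norm_inv] at h1
      rw [mem_ball_zero_iff] at hw
      have hw0 : 0 < ‖w‖ := norm_pos_iff.mpr h0
      have h2 : |R| + 1 < ‖w‖⁻¹ := by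
        rw [lt_inv_comm₀ (by positivity) hw0]; exact hw
      have h3 := le_abs_self R
      linarith
  · by_cases h0 : w = 0
    · subst h0
      obtain ⟨R, hR⟩ := hK.isBounded.subset_ball z₀
      rw [Metric.mem_nhds_iff]
      refine ⟨(|R| + 1)⁻¹, by positivity, ?_⟩
      intro w hw
      by_cases h0 : w = 0
      · exact Or.inl h0
      · right
        intro hmem
        have h1 := hR hmem
        rw [mem_ball, dist_eq_norm, add_sub_cancel_left, norm_inv] at h1
        rw [mem_ball_zero_iff] at hw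
        have hw0 : 0 < ‖w‖ := norm_pos_iff.mpr h0
        have h2 : |R| + 1 < ‖w‖⁻¹ := by
          rw [lt_inv_comm₀ (by positivity) hw0]; exact hw
        have h3 := le_abs_self R
        linarith
    · have hc : ContinuousAt (fun w : ℂ => z₀ + w⁻¹) w := by fun_prop (disch := exact h0)
      have h1 : (fun w : ℂ => z₀ + w⁻¹) ⁻¹' Kᶜ ∈ 𝓝 w :=
        hc.preimage_mem_nhds (hK.isClosed.isOpen_compl.mem_nhds hw)
      exact mem_of_superset h1 fun y hy => Or.inr hy

lemma starConvex_invDom {K : Set ℂ} (hK : Convex ℝ K) {z₀ : ℂ} (hz₀ : z₀ ∈ K) :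
    StarConvex ℝ 0 (invDom K z₀) := by
  rw [starConvex_zero_iff]
  intro w hw t ht0 ht1
  by_cases h0 : t • w = 0
  · exact Or.inl h0
  have ht : t ≠ 0 := by rintro rfl; simp at h0
  have hw0 : w ≠ 0 := by rintro rfl; simp at h0
  have htpos : 0 < t := lt_of_le_of_ne ht0 (Ne.symm ht)
  refine Or.inr fun hmem => ?_
  have hwK : z₀ + w⁻¹ ∉ K := hw.resolve_left hw0
  apply hwK
  have h1 := hK hz₀ hmem (by linarith : 0 ≤ 1 - t) ht0 (by ring)
  have h2 : (1 - t) • z₀ + t • (z₀ + (t • w)⁻¹) = z₀ + w⁻¹ := by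
    simp only [Complex.real_smul]
    have htc : (t : ℂ) ≠ 0 := by exact_mod_cast ht
    push_cast
    field_simp
    ring
  rwa [h2] at h1

lemma isSimplyConnected_invDom {K : Set ℂ} (hK : Convex ℝ K) {z₀ : ℂ} (hz₀ : z₀ ∈ K) :
    IsSimplyConnected (invDom K z₀) := by
  have h1 : ContractibleSpace (invDom K z₀) :=
    (starConvex_invDom hK hz₀).contractibleSpace ⟨0, mem_invDom_zero K z₀⟩
  exact SimplyConnectedSpace.ofContractible _

lemma invDom_ne_univ {K : Set ℂ} {z₀ : ℂ} (hz₀ : z₀ ∈ interior K) : invDom K z₀ ≠ univ := by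
  obtain ⟨ε, hε, hεK⟩ := Metric.isOpen_iff.mp isOpen_interior z₀ hz₀
  intro h
  have h1 : (((2 / ε : ℝ) : ℂ)) ∈ invDom K z₀ := by rw [h]; trivial
  rcases h1 with h1 | h1
  · have : (2 / ε : ℝ) = 0 := by exact_mod_cast h1
    have h2 : 0 < 2 / ε := by positivity
    linarith
  · apply h1
    apply interior_subset
    apply hεK
    rw [mem_ball, dist_eq_norm, add_sub_cancel_left, norm_inv, Complex.norm_real,
      Real.norm_of_nonneg (by positivity), inv_div]
    linarith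

/-- the conformal map of the unit disc onto the inverted domain -/
theorem exists_phi {K : Set ℂ} (hK : Convex ℝ K) (hKc : IsCompact K) {z₀ : ℂ}
    (hz₀ : z₀ ∈ interior K) :
    ∃ f φ : ℂ → ℂ, DifferentiableOn ℂ f (invDom K z₀) ∧ DifferentiableOn ℂ φ (ball 0 1) ∧
      InjOn φ (ball 0 1) ∧ φ '' ball 0 1 = invDom K z₀ ∧ φ 0 = 0 ∧ f 0 = 0 ∧
      (∀ w ∈ invDom K z₀, f w ∈ ball (0 : ℂ) 1 ∧ φ (f w) = w) ∧
      (∀ η ∈ ball (0 : ℂ) 1, f (φ η) = η) := by
  have hzK : z₀ ∈ K := interior_subset hz₀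
  obtain ⟨f, hf, hinj, him, hf0⟩ := riemann_mapping (isOpen_invDom hKc z₀)
    (isSimplyConnected_invDom hK hzK) (invDom_ne_univ hz₀) (mem_invDom_zero K z₀)
  set φ := Function.invFunOn f (invDom K z₀) with hφ
  have hleft : ∀ w ∈ invDom K z₀, φ (f w) = w := fun w hw => hinj.leftInvOn_invFunOn hw
  have hright : ∀ η ∈ ball (0 : ℂ) 1, f (φ η) = η ∧ φ η ∈ invDom K z₀ := by
    intro η hη
    rw [← him] at hη
    exact ⟨Function.invFunOn_eq hη, Function.invFunOn_mem hη⟩
  refine ⟨f, φ, hf, ?_, ?_, ?_, ?_, hf0, ?_, fun η hη => (hright η hη).1⟩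
  · intro η hη
    rw [← him] at hη
    obtain ⟨w, hw, rfl⟩ := hη
    exact (hasDerivAt_invFunOn (isOpen_invDom hKc z₀) hf hinj
      hw).differentiableAt.differentiableWithinAt
  · intro a ha b hb hab
    rw [← (hright a ha).1, ← (hright b hb).1, hab]
  · apply Subset.antisymm
    · rintro _ ⟨η, hη, rfl⟩
      exact (hright η hη).2
    · intro w hw
      exact ⟨f w, by rw [← him]; exact ⟨w, hw, rfl⟩, hleft w hw⟩
  · have := hleft 0 (mem_invDom_zero K z₀)
    rwa [hf0] at this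
  · intro w hw
    exact ⟨by rw [← him]; exact ⟨w, hw, rfl⟩, hleft w hw⟩

end Vale.Agent.P123
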