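import Vale.Agent.P123.Defs
import Vale.Agent.P123.ConvIneq

/-!
# P123: existence of the good map (exterior conformal map of a convex compact set)
-/

open Complex Metric Set Filter
open scoped Topology ComplexConjugate

namespace Vale.Agent.P123

variable {K : Set ℂ} {z₀ : ℂ} {f φ : ℂ → ℂ}

lemma inv_mem_ball {ζ : ℂ} (hζ : ζ ∈ Ext 1) : ζ⁻¹ ∈ ball (0 : ℂ) 1 ∧ ζ⁻¹ ≠ 0 ∧ ζ ≠ 0 := by
  have h1 : 1 < ‖ζ‖ := hζ
  have h2 : ζ ≠ 0 := norm_pos_iff.mp (by linarith)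
  refine ⟨?_, inv_ne_zero h2, h2⟩
  rw [mem_ball_zero_iff, norm_inv]
  exact inv_lt_one_of_one_lt₀ h1

lemma PhiData.hasDerivAt_z (h : PhiData K z₀ f φ) {ζ : ℂ} (hζ : ζ ∈ Ext 1) :
    HasDerivAt (fun ζ : ℂ => zz z₀ φ ζ⁻¹) (nn φ ζ⁻¹ / ζ) ζ := by
  obtain ⟨h1, h2, h3⟩ := inv_mem_ball hζ
  have h4 : HasDerivAt (fun ζ : ℂ => φ ζ⁻¹) (deriv φ ζ⁻¹ * -(ζ ^ 2)⁻¹) ζ :=
    (h.hasDerivAt h1).comp ζ (hasDerivAt_inv h3)
  have h5 := (h4.fun_inv (h.phi_ne h1 h2)).const_add z₀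
  refine h5.congr_deriv ?_
  rw [nn]
  have := h.phi_ne h1 h2
  field_simp

theorem PhiData.goodMap (h : PhiData K z₀ f φ) :
    GoodMap K (fun ζ : ℂ => zz z₀ φ ζ⁻¹) (deriv φ 0)⁻¹ := by
  have h0b : (0 : ℂ) ∈ ball (0 : ℂ) 1 := mem_ball_self one_pos
  have hd0 : deriv φ 0 ≠ 0 := h.deriv_ne h0b
  have hderiv : ∀ ζ ∈ Ext 1, ζ * deriv (fun ζ : ℂ => zz z₀ φ ζ⁻¹) ζ = nn φ ζ⁻¹ := by
    intro ζ hζ
    obtain ⟨h1, h2, h3⟩ := inv_mem_ball hζ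
    rw [(h.hasDerivAt_z hζ).deriv]
    field_simp
  refine ⟨inv_ne_zero hd0, ?_, ?_, ?_, ?_, ?_, ?_, ?_⟩
  · intro ζ hζ
    exact (h.hasDerivAt_z hζ).differentiableAt.differentiableWithinAt
  · intro a ha b hb hab
    obtain ⟨h1, h2, h3⟩ := inv_mem_ball ha
    obtain ⟨g1, g2, g3⟩ := inv_mem_ball hb
    simp only [zz, add_right_inj, inv_inj] at hab
    exact inv_injective (h.inj h1 g1 hab)
  · intro ζ hζ
    obtain ⟨h1, h2, h3⟩ := inv_mem_ball hζ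
    exact h.zz_notMem h1 h2
  · -- the limit
    have h1 : Tendsto (fun ζ : ℂ => ζ⁻¹) (Bornology.cobounded ℂ) (𝓝[≠] 0) :=
      Filter.tendsto_inv₀_cobounded'
    have h2 : Tendsto (dslope φ 0) (𝓝 0) (𝓝 (deriv φ 0)) := by
      have h3 : ContinuousAt (dslope φ 0) 0 :=
        continuousAt_dslope_same.mpr (h.hasDerivAt h0b).differentiableAt
      have := h3.tendsto
      rwa [dslope_same] at this
    have h3 : Tendsto (fun ζ : ℂ => z₀ * ζ⁻¹ + (dslope φ 0 ζ⁻¹)⁻¹) (Bornology.cobounded ℂ)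
        (𝓝 (z₀ * 0 + (deriv φ 0)⁻¹)) := by
      have h4 : Tendsto (fun ζ : ℂ => ζ⁻¹) (Bornology.cobounded ℂ) (𝓝 0) :=
        h1.mono_right nhdsWithin_le_nhds
      exact (tendsto_const_nhds.mul h4).add ((h2.comp h4).inv₀ hd0)
    rw [mul_zero, zero_add] at h3
    refine h3.congr' ?_
    filter_upwards [Bornology.eventually_ne_cobounded (0 : ℂ)] with ζ hζ
    simp only [zz]
    rw [h.eq_mul_dslope ζ⁻¹, mul_inv, inv_inv]
    field_simp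
  · intro ζ hζ ξ hξ
    obtain ⟨h1, h2, h3⟩ := inv_mem_ball hζ
    rw [hderiv ζ hζ]
    have hu : ‖ξ / ζ‖ = 1 := by
      rw [norm_div, hξ, div_self (norm_ne_zero_iff.mpr h3)]
    have h4 := h.conv_level hu h2 (mem_ball_zero_iff.mp h1)
    have hξ0 : ξ ≠ 0 := by
      rw [← norm_pos_iff, hξ, norm_pos_iff]; exact h3
    have h5 : ζ⁻¹ / (ξ / ζ) = ξ⁻¹ := by field_simp
    rwa [h5] at h4
  · intro ζ hζ a ha
    obtain ⟨h1, h2, h3⟩ := inv_mem_ball hζ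
    rw [hderiv ζ hζ]
    exact re_mul_conj_nonneg_of_div (re_div_nonneg_comm (h.star' ha h1 h2))
  · intro ε hε
    obtain ⟨ρ, hρ1, hρ0, hρ⟩ := h.near hε
    obtain ⟨s, hs1, hs2⟩ := exists_between hρ1
    have hs0 : 0 < s := lt_of_le_of_lt hρ0 hs1
    refine ⟨s⁻¹, (one_lt_inv₀ hs0).mpr hs2, fun ζ hζ => ?_⟩
    have hnorm : ‖ζ⁻¹‖ = s := by rw [norm_inv, hζ, inv_inv]
    exact (hρ ζ⁻¹ (by rw [hnorm]; exact hs1) (by rw [hnorm]; exact hs2)).le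

/-- [B4] existence of the good map -/
theorem exists_goodMap {K : Set ℂ} (hK : IsCompact K) (hc : Convex ℝ K)
    (hne : (interior K).Nonempty) : ∃ (z : ℂ → ℂ) (c : ℂ), GoodMap K z c := by
  obtain ⟨z₀, hz₀⟩ := hne
  obtain ⟨f, φ, h⟩ := exists_phiData hc hK hz₀
  exact ⟨_, _, h.goodMap⟩

end Vale.Agent.P123
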