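import Vale.Agent.P123.TH
import Vale.Agent.P123.Core
import Vale.Agent.P123.Good

/-!
# P123, piece E1 : the finite-dimensional bound
-/

open Complex Metric Set Filter Polynomial
open scoped Topology ComplexConjugate InnerProductSpace

namespace Vale.Agent.P123

namespace FinDimAux

variable {V : Type*} [NormedAddCommGroup V] [InnerProductSpace ℂ V] [FiniteDimensional ℂ V]

theorem isCompact_numRange (B : V →L[ℂ] V) : IsCompact (numRange B) := by
  have : ProperSpace V := FiniteDimensional.proper ℂ V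
  have h : numRange B = (fun x : V => ⟪x, B x⟫_ℂ) '' sphere (0 : V) 1 := by
    ext z
    simp only [numRange, mem_image, mem_sphere_iff_norm, sub_zero]
    rfl
  rw [h]
  exact (isCompact_sphere (0 : V) 1).image (by fun_prop)

omit [FiniteDimensional ℂ V] in
theorem numRange_nonempty [Nontrivial V] (B : V →L[ℂ] V) : (numRange B).Nonempty := by
  obtain ⟨x, hx⟩ := exists_norm_eq V zero_le_one
  exact ⟨_, x, hx, rfl⟩

theorem near_bound [Nontrivial V] (B : V →L[ℂ] V) (P : ℂ[X]) {η : ℝ} (hη : 0 < η) :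
    ∃ δ > 0, ∀ w ∈ cthickening δ (numRange B),
      ‖P.eval w‖ ≤ sSup ((fun w : ℂ => ‖P.eval w‖) '' numRange B) + η := by
  have hcont : Continuous fun w : ℂ => ‖P.eval w‖ := P.continuous.norm
  set m := sSup ((fun w : ℂ => ‖P.eval w‖) '' numRange B) with hm
  have hbdd : BddAbove ((fun w : ℂ => ‖P.eval w‖) '' numRange B) :=
    ((isCompact_numRange B).image hcont).bddAbove
  have hopen : IsOpen {w : ℂ | ‖P.eval w‖ < m + η} := isOpen_lt hcont continuous_const
  have hsub : numRange B ⊆ {w : ℂ | ‖P.eval w‖ < m + η} := by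
    intro w hw
    have h1 : ‖P.eval w‖ ≤ m := le_csSup hbdd (mem_image_of_mem _ hw)
    show ‖P.eval w‖ < m + η
    linarith
  obtain ⟨δ, hδ, hsub'⟩ := (isCompact_numRange B).exists_cthickening_subset_open hopen hsub
  exact ⟨δ, hδ, fun w hw => le_of_lt (hsub' hw)⟩

end FinDimAux

open FinDimAux

variable {V : Type*} [NormedAddCommGroup V] [InnerProductSpace ℂ V] [FiniteDimensional ℂ V]

/-- [E1] FinDim.lean -/
theorem fin_dim_bound [Nontrivial V] (B : V →L[ℂ] V) (P : ℂ[X]) :
    ‖aeval B P‖ ≤ 2 * sSup ((fun w : ℂ => ‖P.eval w‖) '' numRange B) := by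
  set m := sSup ((fun w : ℂ => ‖P.eval w‖) '' numRange B) with hm
  have hm0 : 0 ≤ m := by
    refine Real.sSup_nonneg ?_
    rintro _ ⟨w, _, rfl⟩
    exact norm_nonneg _
  refine le_of_forall_pos_le_add fun η' hη' => ?_
  set η := η' / 2 with hη
  have hη0 : 0 < η := by positivity
  obtain ⟨δ, hδ, hbd⟩ := near_bound B P hη0
  have hδ2 : 0 < δ / 2 := by positivity
  set K := cthickening (δ / 2) (numRange B) with hK
  have hKc : IsCompact K := (isCompact_numRange B).cthickening
  have hKconv : Convex ℝ K := (convex_numRange B).cthickening _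
  have hKne : (interior K).Nonempty := by
    refine Set.Nonempty.mono (thickening_subset_interior_cthickening _ _) ?_
    exact (numRange_nonempty B).mono (self_subset_thickening hδ2 _)
  obtain ⟨z, c, hz⟩ := exists_goodMap hKc hKconv hKne
  obtain ⟨r, hr, hnear⟩ := hz.near (δ / 2) hδ2
  have hmη : 0 < m + η := by positivity
  set f : ℂ[X] := C (((m + η)⁻¹ : ℝ) : ℂ) * P with hf
  have hf1 : ∀ ζ : ℂ, ‖ζ‖ = r → ‖f.eval (z ζ)‖ ≤ 1 := by
    intro ζ hζ
    have h1 : z ζ ∈ cthickening δ (numRange B) := by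
      have h2 : infDist (z ζ) K ≤ δ / 2 := hnear ζ hζ
      have hKne' : K.Nonempty := hKne.mono interior_subset
      have h3 : z ζ ∈ cthickening (δ / 2) K := by
        rw [mem_cthickening_iff]
        rw [← ENNReal.ofReal_toReal (infEDist_ne_top hKne')]
        exact ENNReal.ofReal_le_ofReal h2
      have h4 := cthickening_cthickening_subset hδ2.le hδ2.le (numRange B) h3
      rwa [add_halves] at h4
    have h5 := hbd _ h1
    rw [hf, eval_mul, eval_C, norm_mul, Complex.norm_real, Real.norm_of_nonneg (by positivity),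
      inv_mul_le_iff₀ hmη, mul_one]
    exact h5
  have hB : numRange B ⊆ K := self_subset_cthickening _
  have h6 := core hz B hB hr hf1
  rw [hf, map_mul, aeval_C] at h6
  have h7 : ‖(algebraMap ℂ (V →L[ℂ] V) (((m + η)⁻¹ : ℝ) : ℂ)) * aeval B P‖ =
      (m + η)⁻¹ * ‖aeval B P‖ := by
    rw [← Algebra.smul_def, norm_smul, Complex.norm_real, Real.norm_of_nonneg (by positivity)]
  rw [h7, inv_mul_le_iff₀ hmη] at h6
  linarith

end Vale.Agent.P123
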