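import Vale.Agent.P123.Defs

/-!
# P123 [C1], [C2], [C3]: polynomial parts at infinity and Faber polynomials
-/

open Complex Metric Set Filter Polynomial Real
open scoped Topology ComplexConjugate InnerProductSpace

namespace Vale.Agent.P123

namespace PolyPart

theorem ev_iff {P : ℂ → Prop} : (∀ᶠ ζ in Bornology.cobounded ℂ, P ζ) ↔
    ∃ R : ℝ, ∀ ζ : ℂ, R ≤ ‖ζ‖ → P ζ := by
  rw [hasBasis_cobounded_norm.eventually_iff]
  simp

theorem ev_norm (R : ℝ) : ∀ᶠ ζ : ℂ in Bornology.cobounded ℂ, R < ‖ζ‖ :=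
  ev_iff.2 ⟨R + 1, fun ζ h => by linarith⟩

theorem tendsto_div_norm (C : ℝ) :
    Tendsto (fun ζ : ℂ => C / ‖ζ‖) (Bornology.cobounded ℂ) (𝓝 0) :=
  tendsto_const_nhds.div_atTop tendsto_norm_cobounded_atTop

theorem bounded_limit {F : ℂ → ℂ} (hF : DifferentiableOn ℂ F (Ext 1)) {C : ℝ}
    (hC : ∀ᶠ ζ in Bornology.cobounded ℂ, ‖F ζ‖ ≤ C) :
    ∃ (L : ℂ) (C' : ℝ), ∀ᶠ ζ : ℂ in Bornology.cobounded ℂ, ‖F ζ - L‖ ≤ C' / ‖ζ‖ := by
  obtain ⟨R, hR⟩ := ev_iff.1 hC
  set R' := max R 1 + 1 with hR'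
  have hR1 : 1 < R' := by have := le_max_right R 1; linarith
  have hR2 : R ≤ R' := by have := le_max_left R 1; linarith
  have hs : ball (0 : ℂ) R'⁻¹ ∈ 𝓝 (0 : ℂ) := ball_mem_nhds _ (by positivity)
  have hinv : ∀ u ∈ ball (0 : ℂ) R'⁻¹ \ {0}, R' ≤ ‖u⁻¹‖ := by
    rintro u ⟨hu, hu0⟩
    rw [mem_ball_zero_iff] at hu
    rw [norm_inv]
    have hu1 : 0 < ‖u‖ := norm_pos_iff.2 hu0
    rw [le_inv_comm₀ (by positivity) hu1]
    exact hu.le
  have hd : DifferentiableOn ℂ (fun u => F u⁻¹) (ball (0 : ℂ) R'⁻¹ \ {0}) := by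
    refine hF.comp (fun u hu => ?_) fun u hu => ?_
    · exact (differentiableAt_inv hu.2).differentiableWithinAt
    · have := hinv u hu
      exact lt_of_lt_of_le hR1 this
  have hb : BddAbove (norm ∘ (fun u => F u⁻¹) '' (ball (0 : ℂ) R'⁻¹ \ {0})) := by
    refine ⟨C, ?_⟩
    rintro _ ⟨u, hu, rfl⟩
    exact hR _ (hR2.trans (hinv u hu))
  have hH := differentiableOn_update_limUnder_of_bddAbove hs hd hb
  set H := Function.update (fun u => F u⁻¹) 0 (limUnder (𝓝[≠] 0) (fun u => F u⁻¹)) with hHdef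
  have hH0 : DifferentiableAt ℂ H 0 := hH.differentiableAt hs
  obtain ⟨C', hC'⟩ := (hH0.isBigO_sub).bound
  refine ⟨H 0, C', ?_⟩
  have ht : Tendsto (fun ζ : ℂ => ζ⁻¹) (Bornology.cobounded ℂ) (𝓝 0) := tendsto_inv₀_cobounded
  filter_upwards [ht.eventually hC', ev_norm 0] with ζ h1 h2
  have h3 : H ζ⁻¹ = F ζ := by
    rw [hHdef, Function.update_of_ne, inv_inv]
    exact inv_ne_zero (norm_pos_iff.1 h2)
  rw [h3, sub_zero, norm_inv] at h1
  exact h1

end PolyPart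

open PolyPart

/-- [C1] -/
theorem exists_polynomial_part {F : ℂ → ℂ} (hF : DifferentiableOn ℂ F (Ext 1)) (d : ℕ) {C : ℝ}
    (hC : ∀ᶠ ζ in Bornology.cobounded ℂ, ‖F ζ‖ ≤ C * ‖ζ‖ ^ d) :
    ∃ p : ℂ[X], p.natDegree ≤ d ∧
      Tendsto (fun ζ => F ζ - p.eval ζ) (Bornology.cobounded ℂ) (𝓝 0) := by
  induction d generalizing F C with
  | zero =>
    obtain ⟨L, C', h⟩ := bounded_limit hF (C := C) (by simpa using hC)
    refine ⟨Polynomial.C L, by simp, ?_⟩
    refine squeeze_zero_norm' ?_ (tendsto_div_norm C')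
    simpa using h
  | succ d ih =>
    have hne : ∀ ζ ∈ Ext 1, ζ ≠ 0 := by
      intro ζ hζ h0
      rw [h0] at hζ
      have : (1 : ℝ) < ‖(0 : ℂ)‖ := hζ
      simp at this
      linarith
    have hF1 : DifferentiableOn ℂ (fun ζ => F ζ / ζ ^ (d + 1)) (Ext 1) :=
      hF.div (differentiableOn_id.pow _) fun ζ hζ => pow_ne_zero _ (hne ζ hζ)
    obtain ⟨L, C', h⟩ := bounded_limit hF1 (C := C) (by
      filter_upwards [hC, ev_norm 0] with ζ h1 h2
      rw [norm_div, norm_pow, div_le_iff₀ (by positivity)]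
      exact h1)
    have hF2 : DifferentiableOn ℂ (fun ζ => F ζ - L * ζ ^ (d + 1)) (Ext 1) :=
      hF.sub ((differentiableOn_const _).mul (differentiableOn_id.pow _))
    obtain ⟨p, hp1, hp2⟩ := ih hF2 (C := C') (by
      filter_upwards [h, ev_norm 0] with ζ h1 h2
      have h0 : ζ ≠ 0 := norm_pos_iff.1 h2
      have h3 : F ζ - L * ζ ^ (d + 1) = ζ ^ (d + 1) * (F ζ / ζ ^ (d + 1) - L) := by
        field_simp
      rw [h3, norm_mul, norm_pow]
      calc ‖ζ‖ ^ (d + 1) * ‖F ζ / ζ ^ (d + 1) - L‖ ≤ ‖ζ‖ ^ (d + 1) * (C' / ‖ζ‖) :=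
            mul_le_mul_of_nonneg_left h1 (by positivity)
        _ = C' * ‖ζ‖ ^ d := by
            field_simp
            ring)
    refine ⟨p + Polynomial.C L * X ^ (d + 1), ?_, ?_⟩
    · refine (natDegree_add_le _ _).trans (max_le (by omega) ?_)
      exact natDegree_C_mul_X_pow_le _ _
    · refine hp2.congr fun ζ => ?_
      simp only [eval_add, eval_mul, eval_C, eval_pow, eval_X]
      ring

namespace PolyPart

theorem eval_bound (g : ℂ[X]) {B : ℝ} (hB : 1 ≤ B) {p ζ : ℂ} (hζ : 1 ≤ ‖ζ‖)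
    (h : ‖p‖ ≤ B * ‖ζ‖) : ‖g.eval p‖ ≤
      (∑ k ∈ Finset.range (g.natDegree + 1), ‖g.coeff k‖) * B ^ g.natDegree *
        ‖ζ‖ ^ g.natDegree := by
  rw [eval_eq_sum_range, mul_assoc, Finset.sum_mul]
  refine (norm_sum_le _ _).trans (Finset.sum_le_sum fun k hk => ?_)
  rw [norm_mul, norm_pow]
  refine mul_le_mul_of_nonneg_left ?_ (norm_nonneg _)
  rw [← mul_pow]
  have h1 : ‖p‖ ^ k ≤ (B * ‖ζ‖) ^ k := pow_le_pow_left₀ (norm_nonneg _) h _
  refine h1.trans (pow_le_pow_right₀ ?_ (by rw [Finset.mem_range] at hk; omega))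
  nlinarith

theorem z_bound {z : ℂ → ℂ} {c : ℂ}
    (hlim : Tendsto (fun ζ => z ζ / ζ) (Bornology.cobounded ℂ) (𝓝 c)) :
    ∀ᶠ ζ : ℂ in Bornology.cobounded ℂ, ‖z ζ‖ ≤ (‖c‖ + 1) * ‖ζ‖ := by
  have h1 := hlim.norm.eventually_lt_const (lt_add_one ‖c‖)
  filter_upwards [h1, ev_norm 0] with ζ h2 h3
  rw [norm_div, div_lt_iff₀ h3] at h2
  exact h2.le

theorem eval_z_part {z : ℂ → ℂ} {c : ℂ} (hz : DifferentiableOn ℂ z (Ext 1))
    (hlim : Tendsto (fun ζ => z ζ / ζ) (Bornology.cobounded ℂ) (𝓝 c)) (g : ℂ[X]) :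
    ∃ p : ℂ[X], p.natDegree ≤ g.natDegree ∧
      Tendsto (fun ζ => g.eval (z ζ) - p.eval ζ) (Bornology.cobounded ℂ) (𝓝 0) := by
  refine exists_polynomial_part (F := fun ζ => g.eval (z ζ))
    (g.differentiable.comp_differentiableOn hz) g.natDegree
    (C := (∑ k ∈ Finset.range (g.natDegree + 1), ‖g.coeff k‖) * (‖c‖ + 1) ^ g.natDegree) ?_
  filter_upwards [z_bound hlim, ev_norm 1] with ζ h1 h2
  exact eval_bound g (by linarith [norm_nonneg c]) h2.le h1

/-- the coefficient at infinity -/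
theorem coeff_lim (p : ℂ[X]) {d : ℕ} (hp : p.natDegree ≤ d) :
    Tendsto (fun ζ : ℂ => p.eval ζ / ζ ^ d) (Bornology.cobounded ℂ) (𝓝 (p.coeff d)) := by
  have h1 : ∀ k ∈ Finset.range (d + 1), Tendsto (fun ζ : ℂ => p.coeff k * ζ ^ k / ζ ^ d)
      (Bornology.cobounded ℂ) (𝓝 (if k = d then p.coeff d else 0)) := by
    intro k hk
    rw [Finset.mem_range] at hk
    by_cases hkd : k = d
    · subst hkd
      rw [if_pos rfl]
      refine tendsto_const_nhds.congr' ?_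
      filter_upwards [ev_norm 0] with ζ h2
      have h0 : ζ ≠ 0 := norm_pos_iff.1 h2
      field_simp
    · rw [if_neg hkd]
      refine squeeze_zero_norm' ?_ (tendsto_div_norm ‖p.coeff k‖)
      filter_upwards [ev_norm 1] with ζ h2
      have h0 : 0 < ‖ζ‖ := by linarith
      rw [norm_div, norm_mul, norm_pow, norm_pow, div_le_div_iff₀ (by positivity) h0, mul_assoc,
        ← pow_succ]
      refine mul_le_mul_of_nonneg_left ?_ (norm_nonneg _)
      exact pow_le_pow_right₀ h2.le (by omega)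
  have h2 := tendsto_finsetSum _ h1
  have h3 : ∑ k ∈ Finset.range (d + 1), (if k = d then p.coeff d else 0) = p.coeff d := by
    rw [Finset.sum_ite_eq' ]
    simp
  rw [h3] at h2
  refine h2.congr fun ζ => ?_
  rw [eval_eq_sum_range' (n := d + 1) (by omega), Finset.sum_div]

end PolyPart

/-- [C2] -/
theorem exists_decomp {z : ℂ → ℂ} {c : ℂ} (hz : DifferentiableOn ℂ z (Ext 1))
    (hlim : Tendsto (fun ζ => z ζ / ζ) (Bornology.cobounded ℂ) (𝓝 c)) (g : ℂ[X]) :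
    ∃ (w : ℂ[X]) (g0 : ℂ), w.coeff 0 = 0 ∧
      Tendsto (fun ζ => g.eval (z ζ) - w.eval ζ - g0) (Bornology.cobounded ℂ) (𝓝 0) := by
  obtain ⟨p, -, hp⟩ := eval_z_part hz hlim g
  refine ⟨p - Polynomial.C (p.coeff 0), p.coeff 0, by simp, ?_⟩
  refine hp.congr fun ζ => ?_
  simp only [eval_sub, eval_C]
  ring

/-- [C3] -/
theorem exists_faber {z : ℂ → ℂ} {c : ℂ} (hc : c ≠ 0) (hz : DifferentiableOn ℂ z (Ext 1))
    (hlim : Tendsto (fun ζ => z ζ / ζ) (Bornology.cobounded ℂ) (𝓝 c)) (w : ℂ[X]) :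
    ∃ h : ℂ[X],
      Tendsto (fun ζ => h.eval (z ζ) - w.eval ζ) (Bornology.cobounded ℂ) (𝓝 0) := by
  obtain ⟨n, hn⟩ : ∃ n, w.natDegree ≤ n := ⟨_, le_rfl⟩
  induction n generalizing w with
  | zero =>
    refine ⟨Polynomial.C (w.coeff 0), ?_⟩
    have h1 : w = Polynomial.C (w.coeff 0) := eq_C_of_natDegree_le_zero hn
    rw [h1]
    simp
  | succ n ih =>
    obtain ⟨P, hP1, hP2⟩ := eval_z_part hz hlim (X ^ (n + 1))
    rw [natDegree_X_pow] at hP1
    simp only [eval_pow, eval_X] at hP2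
    have hco : P.coeff (n + 1) = c ^ (n + 1) := by
      have h1 := coeff_lim P hP1
      have h2 : Tendsto (fun ζ : ℂ => (z ζ / ζ) ^ (n + 1)) (Bornology.cobounded ℂ)
          (𝓝 (c ^ (n + 1))) := hlim.pow _
      have h3 : Tendsto (fun ζ : ℂ => (z ζ ^ (n + 1) - P.eval ζ) / ζ ^ (n + 1))
          (Bornology.cobounded ℂ) (𝓝 0) := by
        have hP3 : Tendsto (fun ζ => ‖z ζ ^ (n + 1) - P.eval ζ‖) (Bornology.cobounded ℂ) (𝓝 0) := by
          simpa using hP2.norm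
        refine squeeze_zero_norm' ?_ hP3
        filter_upwards [ev_norm 1] with ζ h4
        rw [norm_div, norm_pow]
        exact div_le_self (norm_nonneg _) (one_le_pow₀ h4.le)
      have h5 := h2.sub h3
      rw [sub_zero] at h5
      refine tendsto_nhds_unique h1 (h5.congr fun ζ => ?_)
      rw [div_pow]
      ring
    set a := w.coeff (n + 1) / c ^ (n + 1) with ha
    have hdeg : (w - Polynomial.C a * P).natDegree ≤ n := by
      rw [natDegree_le_iff_coeff_eq_zero]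
      intro k hk
      rw [coeff_sub, coeff_C_mul]
      rcases Nat.lt_or_ge (n + 1) k with h | h
      · rw [coeff_eq_zero_of_natDegree_lt (lt_of_le_of_lt hn h),
          coeff_eq_zero_of_natDegree_lt (lt_of_le_of_lt hP1 h)]
        ring
      · have : k = n + 1 := by omega
        subst this
        rw [hco, ha]
        field_simp
        ring
    obtain ⟨h', hh'⟩ := ih _ hdeg
    refine ⟨h' + Polynomial.C a * X ^ (n + 1), ?_⟩
    have h6 := hh'.add (hP2.const_mul a)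
    rw [mul_zero, add_zero] at h6
    refine h6.congr fun ζ => ?_
    simp only [eval_add, eval_sub, eval_mul, eval_C, eval_pow, eval_X]
    ring

end Vale.Agent.P123
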