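import Vale.Agent.P123.Kernel

/-!
# P123, pieces [D4], [D4']: positivity of the kernel
-/

open Complex Metric Set Filter Polynomial Real
open scoped Topology ComplexConjugate InnerProductSpace

universe u

namespace Vale.Agent.P123

variable {V : Type*} [NormedAddCommGroup V] [InnerProductSpace ℂ V] [FiniteDimensional ℂ V]

omit [FiniteDimensional ℂ V] in
theorem pos_exists_numRange {K : Set ℂ} (B : V →L[ℂ] V) (hB : numRange B ⊆ K) {u : V}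
    (hu : u ≠ 0) : ∃ a ∈ K, ⟪u, B u⟫_ℂ = ((‖u‖ ^ 2 : ℝ) : ℂ) * a := by
  have hnx : (0 : ℝ) < ‖u‖ := norm_pos_iff.mpr hu
  have hnx' : ((‖u‖ : ℝ) : ℂ) ≠ 0 := by exact_mod_cast hnx.ne'
  refine ⟨⟪((‖u‖⁻¹ : ℝ) : ℂ) • u, B (((‖u‖⁻¹ : ℝ) : ℂ) • u)⟫_ℂ, hB ⟨_, ?_, rfl⟩, ?_⟩
  · rw [norm_smul]
    simp [hnx.ne']
  · rw [map_smul, inner_smul_left, inner_smul_right, Complex.conj_ofReal, Complex.ofReal_inv,
      Complex.ofReal_pow]
    field_simp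

/-- the value of the quadratic form of the kernel -/
theorem pos_inner_ker {K : Set ℂ} {z : ℂ → ℂ} {c : ℂ} (hz : GoodMap K z c)
    (B : V →L[ℂ] V) (hB : numRange B ⊆ K) {ζ : ℂ} (hζ : ζ ∈ Ext 1) (x : V) :
    ∃ (t : ℝ) (a : ℂ), 0 ≤ t ∧ (t = 0 ∨ a ∈ K) ∧
      ⟪x, ker z B ζ x⟫_ℂ = (t : ℂ) * (ζ * deriv z ζ * conj (z ζ - a)) := by
  have h1 := kn_sub_resolvent_apply B hB (hz.avoid ζ hζ) x
  set u := resolvent B (z ζ) x with hu
  have hker : ker z B ζ x = (ζ * deriv z ζ) • u := rfl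
  by_cases hu0 : u = 0
  · refine ⟨0, 0, le_refl _, Or.inl rfl, ?_⟩
    rw [hker, hu0]
    simp
  · obtain ⟨a, ha, hBa⟩ := pos_exists_numRange B hB hu0
    refine ⟨‖u‖ ^ 2, a, by positivity, Or.inr ha, ?_⟩
    rw [hker, inner_smul_right]
    have h2 : ⟪x, u⟫_ℂ = conj (z ζ) * ((‖u‖ ^ 2 : ℝ) : ℂ) - conj (⟪u, B u⟫_ℂ) := by
      conv_lhs => rw [← h1]
      rw [inner_sub_left, inner_smul_left, inner_self_eq_norm_sq_to_K, inner_conj_symm]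
      norm_cast
    rw [h2, hBa, map_mul, Complex.conj_ofReal, map_sub]
    ring

/-- [D4] Positive.lean -/
theorem ker_re_nonneg {K : Set ℂ} {z : ℂ → ℂ} {c : ℂ} (hz : GoodMap K z c)
    (B : V →L[ℂ] V) (hB : numRange B ⊆ K) {ζ : ℂ} (hζ : ζ ∈ Ext 1) (x : V) :
    0 ≤ (⟪x, ker z B ζ x⟫_ℂ).re := by
  obtain ⟨t, a, ht, ha, h⟩ := pos_inner_ker hz B hB hζ x
  rw [h, Complex.re_ofReal_mul]
  rcases ha with h0 | ha
  · rw [h0, zero_mul]
  · exact mul_nonneg ht (hz.star ζ hζ a ha)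

omit [FiniteDimensional ℂ V] in
/-- Cauchy-Schwarz for the hermitian part of an operator with nonnegative real part -/
theorem pos_cauchy_schwarz (T : V →L[ℂ] V) (hT : ∀ x : V, 0 ≤ (⟪x, T x⟫_ℂ).re) (x y : V) :
    ‖⟪y, T x⟫_ℂ + ⟪T y, x⟫_ℂ‖ ≤ 2 * (√(⟪x, T x⟫_ℂ).re * √(⟪y, T y⟫_ℂ).re) := by
  set S : ℂ := ⟪y, T x⟫_ℂ + ⟪T y, x⟫_ℂ with hS
  -- a unimodular number with `w * S = |S|`
  obtain ⟨w, hw1, hw⟩ : ∃ w : ℂ, ‖w‖ = 1 ∧ w * S = ((‖S‖ : ℝ) : ℂ) := by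
    by_cases hS0 : S = 0
    · exact ⟨1, by simp, by rw [hS0]; simp⟩
    · have hn : ((‖S‖ : ℝ) : ℂ) ≠ 0 := by
        exact_mod_cast (norm_pos_iff.mpr hS0).ne'
      refine ⟨conj S / ((‖S‖ : ℝ) : ℂ), ?_, ?_⟩
      · rw [norm_div, RCLike.norm_conj, Complex.norm_real, norm_norm,
          div_self (norm_pos_iff.mpr hS0).ne']
      · rw [div_mul_eq_mul_div, mul_comm, Complex.mul_conj, Complex.normSq_eq_norm_sq]
        push_cast
        field_simp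
  have hquad : ∀ t : ℝ, 0 ≤ (⟪y, T y⟫_ℂ).re * (t * t) + ‖S‖ * t + (⟪x, T x⟫_ℂ).re := by
    intro t
    have h := hT (x + ((t : ℂ) * conj w) • y)
    have hww : conj w * w = 1 := by
      rw [mul_comm, Complex.mul_conj, Complex.normSq_eq_norm_sq, hw1]
      simp
    have e1 : ⟪x + ((t : ℂ) * conj w) • y, T (x + ((t : ℂ) * conj w) • y)⟫_ℂ =
        ⟪x, T x⟫_ℂ + (t : ℂ) * (w * ⟪y, T x⟫_ℂ + conj w * ⟪x, T y⟫_ℂ)
          + ((t * t : ℝ) : ℂ) * ⟪y, T y⟫_ℂ := by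
      rw [map_add, map_smul, inner_add_left, inner_add_right, inner_add_right, inner_smul_left,
        inner_smul_right, inner_smul_left, inner_smul_right, map_mul, Complex.conj_ofReal,
        Complex.conj_conj]
      push_cast
      linear_combination ((t : ℂ) * (t : ℂ)) * ⟪y, T y⟫_ℂ * hww
    have e2 : (w * ⟪y, T x⟫_ℂ + conj w * ⟪x, T y⟫_ℂ).re = ‖S‖ := by
      have e3 : (conj w * ⟪x, T y⟫_ℂ).re = (w * ⟪T y, x⟫_ℂ).re := by
        rw [← Complex.conj_re, map_mul, Complex.conj_conj, inner_conj_symm]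
      rw [Complex.add_re, e3, ← Complex.add_re, ← mul_add, ← hS, hw, Complex.ofReal_re]
    rw [e1, Complex.add_re, Complex.add_re, Complex.re_ofReal_mul, e2, Complex.re_ofReal_mul] at h
    nlinarith [h]
  have hd := discrim_le_zero hquad
  rw [discrim] at hd
  have hx := hT x
  have hy := hT y
  rw [← Real.sqrt_mul hx]
  apply abs_le_of_sq_le_sq' _ (by positivity) |>.2
  rw [mul_pow, Real.sq_sqrt (mul_nonneg hx hy)]
  linarith

/-- [D4'] Positive.lean -/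
theorem ker_cauchy_schwarz {K : Set ℂ} {z : ℂ → ℂ} {c : ℂ} (hz : GoodMap K z c)
    (B : V →L[ℂ] V) (hB : numRange B ⊆ K) {ζ : ℂ} (hζ : ζ ∈ Ext 1) (x y : V) :
    ‖⟪y, ker z B ζ x⟫_ℂ + ⟪ker z B ζ y, x⟫_ℂ‖ ≤
      2 * (√(⟪x, ker z B ζ x⟫_ℂ).re * √(⟪y, ker z B ζ y⟫_ℂ).re) :=
  pos_cauchy_schwarz (ker z B ζ) (fun x => ker_re_nonneg hz B hB hζ x) x y

end Vale.Agent.P123
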