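import Vale.Agent.P123.Avg
import Vale.Agent.P123.PolyPart
import Vale.Agent.P123.Orth
import Vale.Agent.P123.Contr
import Vale.Agent.P123.Approx
import Vale.Agent.P123.Kernel
import Vale.Agent.P123.Calculus
import Vale.Agent.P123.Positive

open Complex Metric Set Filter Polynomial Real
open scoped Topology ComplexConjugate InnerProductSpace

universe u

namespace Vale.Agent.P123

section avg

variable {r : ℝ}

lemma norm_avg_le {f : ℂ → ℂ} :
    ‖circleAverage f 0 r‖ ≤ circleAverage (fun ζ => ‖f ζ‖) 0 r := by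
  unfold circleAverage
  rw [norm_smul, Real.norm_of_nonneg (by positivity), smul_eq_mul]
  gcongr
  exact intervalIntegral.norm_integral_le_integral_norm (by positivity)

lemma avg_mono (hr : 0 ≤ r) {f g : ℂ → ℝ} (hf : ContinuousOn f (sphere 0 r))
    (hg : ContinuousOn g (sphere 0 r)) (h : ∀ ζ : ℂ, ‖ζ‖ = r → f ζ ≤ g ζ) :
    circleAverage f 0 r ≤ circleAverage g 0 r := by
  apply circleAverage_mono (hf.circleIntegrable hr) (hg.circleIntegrable hr)
  intro x hx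
  apply h
  simpa [abs_of_nonneg hr] using hx

lemma avg_add (hr : 0 ≤ r) {E : Type*} [NormedAddCommGroup E] [NormedSpace ℝ E] {f g : ℂ → E}
    (hf : ContinuousOn f (sphere 0 r)) (hg : ContinuousOn g (sphere 0 r)) :
    circleAverage (fun ζ => f ζ + g ζ) 0 r = circleAverage f 0 r + circleAverage g 0 r :=
  circleAverage_fun_add (hf.circleIntegrable hr) (hg.circleIntegrable hr)

lemma avg_sub (hr : 0 ≤ r) {E : Type*} [NormedAddCommGroup E] [NormedSpace ℝ E] {f g : ℂ → E}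
    (hf : ContinuousOn f (sphere 0 r)) (hg : ContinuousOn g (sphere 0 r)) :
    circleAverage (fun ζ => f ζ - g ζ) 0 r = circleAverage f 0 r - circleAverage g 0 r :=
  circleAverage_fun_sub (hf.circleIntegrable hr) (hg.circleIntegrable hr)

lemma avg_mul_left (a : ℝ) (f : ℂ → ℝ) :
    circleAverage (fun ζ => a * f ζ) 0 r = a * circleAverage f 0 r := by
  simpa using circleAverage_fun_smul (a := a) (f := f) (c := 0) (R := r)

lemma avg_congr (hr : 0 ≤ r) {E : Type*} [NormedAddCommGroup E] [NormedSpace ℝ E] {f g : ℂ → E}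
    (h : ∀ ζ : ℂ, ‖ζ‖ = r → f ζ = g ζ) : circleAverage f 0 r = circleAverage g 0 r := by
  apply circleAverage_congr_sphere
  intro x hx
  apply h
  simpa [abs_of_nonneg hr] using hx

lemma avg_re (hr : 0 ≤ r) {f : ℂ → ℂ} (hf : ContinuousOn f (sphere 0 r)) :
    (circleAverage f 0 r).re = circleAverage (fun ζ => (f ζ).re) 0 r := by
  have := ContinuousLinearMap.circleAverage_comp_comm Complex.reCLM (hf.circleIntegrable hr)
  simpa [Function.comp_def] using this.symm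

lemma avg_const (a : ℝ) : circleAverage (fun _ : ℂ => a) 0 r = a := circleAverage_const a 0 r

end avg

variable {V : Type*} [NormedAddCommGroup V] [InnerProductSpace ℂ V]

/-- matrix element functional -/
noncomputable def matEl (y x : V) : (V →L[ℂ] V) →L[ℂ] ℂ :=
  (innerSL ℂ y).comp (ContinuousLinearMap.apply ℂ V x)

@[simp] lemma matEl_apply (y x : V) (T : V →L[ℂ] V) : matEl y x T = ⟪y, T x⟫_ℂ := rfl

lemma commute_resolvent (B : V →L[ℂ] V) (g : ℂ[X]) (p : ℂ) :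
    Commute (aeval B g) (resolvent B p) := by
  have h : Commute (aeval B g) (algebraMap ℂ (V →L[ℂ] V) p - B) := by
    have h1 : Commute (aeval B g) B := by
      have := (Commute.all g X).map (aeval B)
      simpa using this
    exact (Algebra.commute_algebraMap_right p _).sub_right h1
  unfold resolvent
  by_cases hu : IsUnit (algebraMap ℂ (V →L[ℂ] V) p - B)
  · obtain ⟨w, hw⟩ := hu
    rw [← hw, Ring.inverse_unit]
    rw [← hw] at h
    exact h.units_inv_right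
  · rw [Ring.inverse_non_unit _ hu]
    exact Commute.zero_right _

lemma commute_ker (z : ℂ → ℂ) (B : V →L[ℂ] V) (g : ℂ[X]) (ζ : ℂ) :
    Commute (aeval B g) (ker z B ζ) := by
  unfold ker
  exact (commute_resolvent B g _).smul_right _

/-- matrix elements agree at the two singular vectors -/
lemma inner_eq_of_commute [FiniteDimensional ℂ V] {T K : V →L[ℂ] V} (hTK : Commute T K) {κ : ℝ}
    (hκ : 0 < κ) {x y : V}
    (hxy : T x = (κ : ℂ) • y) (hyx : ContinuousLinearMap.adjoint T y = (κ : ℂ) • x) :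
    ⟪y, K y⟫_ℂ = ⟪x, K x⟫_ℂ := by
  have hκ' : (κ : ℂ) ≠ 0 := by exact_mod_cast hκ.ne'
  have h1 : ⟪y, K (T x)⟫_ℂ = κ * ⟪y, K y⟫_ℂ := by
    rw [hxy, map_smul, inner_smul_right]
  have h2 : ⟪y, T (K x)⟫_ℂ = κ * ⟪x, K x⟫_ℂ := by
    rw [← ContinuousLinearMap.adjoint_inner_left, hyx, inner_smul_left, Complex.conj_ofReal]
  have h3 : T (K x) = K (T x) := by
    have := congrArg (fun S : V →L[ℂ] V => S x) hTK.eq
    simpa using this
  rw [h3, h1] at h2
  exact mul_left_cancel₀ hκ' h2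



lemma sphere_subset_Ext {r : ℝ} (hr : 1 < r) : sphere (0 : ℂ) r ⊆ Ext 1 := by
  intro ζ hζ
  simp only [mem_sphere_iff_norm, sub_zero] at hζ
  simp [Ext, hζ, hr]

lemma mem_Ext_of_norm {r : ℝ} (hr : 1 < r) {ζ : ℂ} (h : ‖ζ‖ = r) : ζ ∈ Ext 1 := by
  simp [Ext, h, hr]

/-- square average of the density -/
lemma avg_density_sq {r : ℝ} (hr : 1 < r) {k : ℂ → ℂ} (hkd : DifferentiableOn ℂ k (Ext 1))
    (hkl : Tendsto k (Bornology.cobounded ℂ) (𝓝 1)) :
    circleAverage (fun ζ => (k ζ).re) 0 r = 1 ∧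
    circleAverage (fun ζ => (k ζ).re ^ 2) 0 r =
      1 + circleAverage (fun ζ => ‖k ζ - 1‖ ^ 2) 0 r / 2 := by
  have hr0 : 0 ≤ r := by linarith
  have hS := sphere_subset_Ext hr
  have hkc : ContinuousOn k (sphere 0 r) := hkd.continuousOn.mono hS
  have hA : circleAverage k 0 r = 1 := circleAverage_eq_of_tendsto zero_le_one hr hkd hkl
  have h1 : circleAverage (fun ζ => (k ζ).re) 0 r = 1 := by
    rw [← avg_re hr0 hkc, hA, Complex.one_re]
  refine ⟨h1, ?_⟩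
  have hed : DifferentiableOn ℂ (fun ζ => (k ζ - 1) ^ 2) (Ext 1) :=
    (hkd.sub (differentiableOn_const _)).pow 2
  have hel : Tendsto (fun ζ => (k ζ - 1) ^ 2) (Bornology.cobounded ℂ) (𝓝 0) := by
    have := (hkl.sub_const 1).pow 2
    simpa using this
  have hA2 : circleAverage (fun ζ => (k ζ - 1) ^ 2) 0 r = 0 :=
    circleAverage_eq_of_tendsto zero_le_one hr hed hel
  have hec : ContinuousOn (fun ζ => (k ζ - 1) ^ 2) (sphere 0 r) := hed.continuousOn.mono hS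
  have h2 : circleAverage (fun ζ => ((k ζ - 1) ^ 2).re) 0 r = 0 := by
    rw [← avg_re hr0 hec, hA2, Complex.zero_re]
  have hkrc : ContinuousOn (fun ζ => (k ζ).re) (sphere 0 r) :=
    Complex.continuous_re.comp_continuousOn hkc
  have hnc : ContinuousOn (fun ζ => ‖k ζ - 1‖ ^ 2) (sphere 0 r) :=
    ((hkc.sub continuousOn_const).norm).pow 2
  have hrc : ContinuousOn (fun ζ => ((k ζ - 1) ^ 2).re) (sphere 0 r) :=
    Complex.continuous_re.comp_continuousOn hec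
  have h3 : circleAverage (fun ζ => (k ζ).re ^ 2) 0 r =
      circleAverage (fun ζ => (2 * (k ζ).re - 1) + (2⁻¹ * ‖k ζ - 1‖ ^ 2 + 2⁻¹ * ((k ζ - 1) ^ 2).re))
        0 r := by
    apply avg_congr hr0
    intro ζ _
    have : ‖k ζ - 1‖ ^ 2 = (k ζ - 1).re ^ 2 + (k ζ - 1).im ^ 2 := by
      rw [← Complex.normSq_eq_norm_sq, Complex.normSq_apply]; ring
    rw [this]
    simp only [sq, Complex.mul_re, Complex.sub_re, Complex.one_re, Complex.sub_im, Complex.one_im]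
    ring
  have c1 : ContinuousOn (fun ζ => 2 * (k ζ).re) (sphere 0 r) := continuousOn_const.mul hkrc
  have c2 : ContinuousOn (fun ζ => 2 * (k ζ).re - 1) (sphere 0 r) := c1.sub continuousOn_const
  have c3 : ContinuousOn (fun ζ => 2⁻¹ * ‖k ζ - 1‖ ^ 2) (sphere 0 r) := continuousOn_const.mul hnc
  have c4 : ContinuousOn (fun ζ => 2⁻¹ * ((k ζ - 1) ^ 2).re) (sphere 0 r) :=
    continuousOn_const.mul hrc
  have c5 : ContinuousOn (fun ζ => 2⁻¹ * ‖k ζ - 1‖ ^ 2 + 2⁻¹ * ((k ζ - 1) ^ 2).re)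
    (sphere 0 r) := c3.add c4
  have c6 : ContinuousOn (fun _ : ℂ => (1 : ℝ)) (sphere 0 r) := continuousOn_const
  rw [h3, avg_add hr0 c2 c5, avg_sub hr0 c1 c6, avg_add hr0 c3 c4, avg_mul_left, avg_mul_left,
    avg_mul_left, h1, h2, avg_const]
  ring

variable [FiniteDimensional ℂ V]

theorem key_step {K : Set ℂ} {z : ℂ → ℂ} {c : ℂ} (hz : GoodMap K z c)
    (B : V →L[ℂ] V) (hB : numRange B ⊆ K) {r : ℝ} (hr : 1 < r) {f : ℂ[X]}
    (hf : ∀ ζ : ℂ, ‖ζ‖ = r → ‖f.eval (z ζ)‖ ≤ 1) {κ : ℝ} (hκ : 0 < κ) {x y : V}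
    (hx : ‖x‖ = 1) (hxy : aeval B f x = (κ : ℂ) • y)
    (hyx : ContinuousLinearMap.adjoint (aeval B f) y = (κ : ℂ) • x) {R E1 δ : ℝ}
    (hR : R = circleAverage (fun ζ => (⟪x, ker z B ζ x⟫_ℂ).re ^ 2) 0 r)
    (hE1 : E1 = circleAverage (fun ζ => ‖⟪x, ker z B ζ x⟫_ℂ - 1‖) 0 r) (hδ : 0 < δ) :
    κ * (R - 2 * δ) ≤ 2 * R + δ * (2 * E1 + 2 * δ) + ‖⟪x, y⟫_ℂ‖ ^ 2 / 4 := by
  have hr0 : 0 ≤ r := by linarith
  have hS := sphere_subset_Ext hr
  have hzc : ContinuousOn z (sphere 0 r) := hz.diff.continuousOn.mono hS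
  have hker := ker_differentiableOn hz B hB
  set k : ℂ → ℂ := fun ζ => ⟪x, ker z B ζ x⟫_ℂ with hk
  have hkd : DifferentiableOn ℂ k (Ext 1) := (matEl x x).differentiable.comp_differentiableOn hker
  have hkc : ContinuousOn k (sphere 0 r) := hkd.continuousOn.mono hS
  have hkl : Tendsto k (Bornology.cobounded ℂ) (𝓝 1) := by
    have h := ((matEl x x).continuous.tendsto 1).comp (ker_tendsto hz B)
    have h1 : matEl x x 1 = 1 := by
      simp [matEl_apply, inner_self_eq_norm_sq_to_K, hx]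
    rw [h1] at h
    exact h
  have hρ0 : ∀ ζ : ℂ, ‖ζ‖ = r → 0 ≤ (k ζ).re := fun ζ hζ =>
    ker_re_nonneg hz B hB (mem_Ext_of_norm hr hζ) x
  obtain ⟨hA1, hA2⟩ := avg_density_sq hr hkd hkl
  rw [← hR] at hA2
  set E2 : ℝ := circleAverage (fun ζ => ‖k ζ - 1‖ ^ 2) 0 r with hE2
  have hE2n : 0 ≤ E2 := circleAverage_nonneg_of_nonneg fun _ _ => by positivity
  -- the polynomial `w`
  have hed : DifferentiableOn ℂ (fun ζ => (k ζ - 1) / 2) (Ext 1) :=
    (hkd.sub (differentiableOn_const _)).div_const 2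
  have hel : Tendsto (fun ζ => (k ζ - 1) / 2) (Bornology.cobounded ℂ) (𝓝 0) := by
    have := (hkl.sub_const 1).div_const 2
    simpa using this
  obtain ⟨w, hw0, hw⟩ := exists_approx_conj hed hel hr hδ
  obtain ⟨h, hh⟩ := exists_faber hz.c_ne hz.diff hz.lim (w + C 1)
  have hh' : Tendsto (fun ζ => h.eval (z ζ) - w.eval ζ - 1) (Bornology.cobounded ℂ) (𝓝 0) := by
    refine hh.congr fun ζ => ?_
    simp; ring
  have hwc : Continuous fun ζ : ℂ => w.eval ζ := w.continuous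
  have hhc : ContinuousOn (fun ζ => h.eval (z ζ)) (sphere 0 r) :=
    h.continuous.comp_continuousOn hzc
  -- norm of `h`
  set v : ℂ → ℂ := fun ζ => h.eval (z ζ) - w.eval ζ - 1 with hv
  have hvd : DifferentiableOn ℂ v (Ext 1) :=
    ((h.differentiable.comp_differentiableOn hz.diff).sub
      w.differentiable.differentiableOn).sub (differentiableOn_const _)
  have hN : circleAverage (fun ζ => ‖h.eval (z ζ)‖ ^ 2) 0 r ≤
      1 + 2 * circleAverage (fun ζ => ‖w.eval ζ‖ ^ 2) 0 r := by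
    have h1 := avg_pythagoras hw0 1 hvd hh' hr
    have h2 := contraction hz hw0 hh' hr
    have h3 : circleAverage (fun ζ => ‖h.eval (z ζ)‖ ^ 2) 0 r =
        circleAverage (fun ζ => ‖w.eval ζ + 1 + v ζ‖ ^ 2) 0 r := by
      apply avg_congr hr0
      intro ζ _
      congr 2
      simp [hv]
    rw [h3, h1]
    simp only [norm_one, one_pow]
    linarith
  have hkn : ContinuousOn (fun ζ => ‖k ζ - 1‖) (sphere 0 r) :=
    (hkc.sub continuousOn_const).norm
  have hW : circleAverage (fun ζ => ‖w.eval ζ‖ ^ 2) 0 r ≤ E2 / 4 + δ * E1 + δ ^ 2 := by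
    have c1 : ContinuousOn (fun ζ => 4⁻¹ * ‖k ζ - 1‖ ^ 2) (sphere 0 r) :=
      continuousOn_const.mul (hkn.pow 2)
    have c2 : ContinuousOn (fun ζ => δ * ‖k ζ - 1‖) (sphere 0 r) := continuousOn_const.mul hkn
    have c3 : ContinuousOn (fun _ : ℂ => δ ^ 2) (sphere 0 r) := continuousOn_const
    have c12 : ContinuousOn (fun ζ => 4⁻¹ * ‖k ζ - 1‖ ^ 2 + δ * ‖k ζ - 1‖) (sphere 0 r) :=
      c1.add c2
    have h1 : circleAverage (fun ζ => ‖w.eval ζ‖ ^ 2) 0 r ≤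
        circleAverage (fun ζ => 4⁻¹ * ‖k ζ - 1‖ ^ 2 + δ * ‖k ζ - 1‖ + δ ^ 2) 0 r := by
      apply avg_mono hr0 (hwc.norm.pow 2).continuousOn ((c1.add c2).add c3)
      intro ζ hζ
      have h2 := hw ζ hζ
      have h3 : ‖w.eval ζ‖ ≤ ‖k ζ - 1‖ / 2 + δ := by
        calc ‖w.eval ζ‖ = ‖conj ((k ζ - 1) / 2) + (w.eval ζ - conj ((k ζ - 1) / 2))‖ := by
              congr 1; ring
          _ ≤ ‖conj ((k ζ - 1) / 2)‖ + ‖w.eval ζ - conj ((k ζ - 1) / 2)‖ := norm_add_le _ _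
          _ ≤ ‖k ζ - 1‖ / 2 + δ := by
              gcongr
              rw [Complex.norm_conj, norm_div]
              simp
      have h4 : 0 ≤ ‖w.eval ζ‖ := norm_nonneg _
      calc ‖w.eval ζ‖ ^ 2 ≤ (‖k ζ - 1‖ / 2 + δ) ^ 2 := by gcongr
        _ = 4⁻¹ * ‖k ζ - 1‖ ^ 2 + δ * ‖k ζ - 1‖ + δ ^ 2 := by ring
    rw [avg_add hr0 c12 c3, avg_add hr0 c1 c2, avg_mul_left, avg_mul_left,
      avg_const, ← hE1, ← hE2] at h1
    linarith
  -- the number `a`
  set a : ℂ := ⟪x, aeval B h x⟫_ℂ with ha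
  have hay : ⟪y, aeval B h y⟫_ℂ = a :=
    inner_eq_of_commute ((Commute.all f h).map (aeval B)) hκ hxy hyx
  have hρc : ContinuousOn (fun ζ => (k ζ).re) (sphere 0 r) :=
    Complex.continuous_re.comp_continuousOn hkc
  have haR : R - 2 * δ ≤ a.re := by
    have h1 := avg_w_ker hz B hB hw0 hh' hr x x
    have h2 : circleAverage (fun ζ => w.eval ζ * (⟪x, ker z B ζ x⟫_ℂ + ⟪ker z B ζ x, x⟫_ℂ)) 0 r =
        circleAverage (fun ζ => w.eval ζ * ((2 * (k ζ).re : ℝ) : ℂ)) 0 r := by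
      apply avg_congr hr0
      intro ζ _
      congr 1
      rw [← inner_conj_symm (ker z B ζ x) x, Complex.add_conj]
    have cw : ContinuousOn (fun ζ => w.eval ζ * ((2 * (k ζ).re : ℝ) : ℂ)) (sphere 0 r) :=
      hwc.continuousOn.mul (Complex.continuous_ofReal.comp_continuousOn
        (continuousOn_const.mul hρc))
    have hxx : ⟪x, x⟫_ℂ = 1 := by simp [inner_self_eq_norm_sq_to_K, hx]
    rw [h2, ← ha, hxx, mul_one] at h1
    have h3 : a.re - 1 =
        circleAverage (fun ζ => (w.eval ζ * ((2 * (k ζ).re : ℝ) : ℂ)).re) 0 r := by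
      rw [← avg_re hr0 cw, h1]
      simp
    have c1 : ContinuousOn (fun ζ => (k ζ).re ^ 2) (sphere 0 r) := hρc.pow 2
    have c2 : ContinuousOn (fun ζ => (1 + 2 * δ) * (k ζ).re) (sphere 0 r) :=
      continuousOn_const.mul hρc
    have h4 : circleAverage (fun ζ => (k ζ).re ^ 2 - (1 + 2 * δ) * (k ζ).re) 0 r ≤
        circleAverage (fun ζ => (w.eval ζ * ((2 * (k ζ).re : ℝ) : ℂ)).re) 0 r := by
      apply avg_mono hr0 (c1.sub c2) (Complex.continuous_re.comp_continuousOn cw)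
      intro ζ hζ
      simp only [Pi.sub_apply, Function.comp_apply]
      have h5 := (Complex.abs_re_le_norm _).trans (hw ζ hζ)
      rw [Complex.sub_re, Complex.conj_re, abs_le] at h5
      have h6 := hρ0 ζ hζ
      have h7 : ((k ζ - 1) / 2).re = ((k ζ).re - 1) / 2 := by
        rw [show (2 : ℂ) = ((2 : ℝ) : ℂ) by norm_num, Complex.div_ofReal_re]
        simp
      rw [h7] at h5
      rw [Complex.re_mul_ofReal]
      nlinarith [h5.1, mul_nonneg h6 (show 0 ≤ (w.eval ζ).re - (((k ζ).re - 1) / 2) + δ by linarith [h5.1])]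
    rw [avg_sub hr0 c1 c2, avg_mul_left, hA1, ← hR] at h4
    linarith
  -- the function `g = f h`
  obtain ⟨w', g0, hw'0, hg⟩ := exists_decomp hz.diff hz.lim (f * h)
  set v' : ℂ → ℂ := fun ζ => (f * h).eval (z ζ) - w'.eval ζ - g0 with hv'
  have hvd' : DifferentiableOn ℂ v' (Ext 1) :=
    (((f * h).differentiable.comp_differentiableOn hz.diff).sub
      w'.differentiable.differentiableOn).sub (differentiableOn_const _)
  have hwc' : Continuous fun ζ : ℂ => w'.eval ζ := w'.continuous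
  have hg2 : circleAverage (fun ζ => ‖w'.eval ζ‖ ^ 2) 0 r + ‖g0‖ ^ 2 ≤
      circleAverage (fun ζ => ‖h.eval (z ζ)‖ ^ 2) 0 r := by
    have h1 := avg_pythagoras hw'0 g0 hvd' hg hr
    have h2 : 0 ≤ circleAverage (fun ζ => ‖v' ζ‖ ^ 2) 0 r :=
      circleAverage_nonneg_of_nonneg fun _ _ => by positivity
    have h3 : circleAverage (fun ζ => ‖w'.eval ζ + g0 + v' ζ‖ ^ 2) 0 r ≤
        circleAverage (fun ζ => ‖h.eval (z ζ)‖ ^ 2) 0 r := by
      have h4 : circleAverage (fun ζ => ‖w'.eval ζ + g0 + v' ζ‖ ^ 2) 0 r =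
          circleAverage (fun ζ => ‖(f * h).eval (z ζ)‖ ^ 2) 0 r := by
        apply avg_congr hr0
        intro ζ _
        congr 2
        simp only [hv']
        ring
      rw [h4]
      apply avg_mono hr0
        (((f * h).continuous.comp_continuousOn hzc).norm.pow 2) (hhc.norm.pow 2)
      intro ζ hζ
      simp only [Pi.pow_apply, Function.comp_apply]
      have h5 := hf ζ hζ
      rw [Polynomial.eval_mul, norm_mul, mul_pow]
      have h6 : ‖f.eval (z ζ)‖ ^ 2 ≤ 1 := pow_le_one₀ (norm_nonneg _) h5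
      exact mul_le_of_le_one_left (by positivity) h6
    linarith
  -- the pairing
  have hpair := avg_w_ker hz B hB hw'0 hg hr x y
  have hkap : ⟪y, aeval B (f * h) x⟫_ℂ = κ * a := by
    rw [mul_comm f h, map_mul, mul_apply_eq_comp, hxy, map_smul, inner_smul_right,
      hay]
  rw [hkap] at hpair
  set q : ℂ → ℂ := fun ζ => ⟪y, ker z B ζ x⟫_ℂ + ⟪ker z B ζ y, x⟫_ℂ with hq
  have hqb : ∀ ζ : ℂ, ‖ζ‖ = r → ‖q ζ‖ ≤ 2 * (k ζ).re := by
    intro ζ hζ
    have h1 := ker_cauchy_schwarz hz B hB (mem_Ext_of_norm hr hζ) x y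
    have h2 : ⟪y, ker z B ζ y⟫_ℂ = k ζ :=
      inner_eq_of_commute (commute_ker z B f ζ) hκ hxy hyx
    rw [h2, Real.mul_self_sqrt (hρ0 ζ hζ)] at h1
    exact h1
  have hqc : ContinuousOn q (sphere 0 r) := by
    have h1 : ContinuousOn (fun ζ => ⟪y, ker z B ζ x⟫_ℂ) (sphere 0 r) :=
      ((matEl y x).continuous.comp_continuousOn hker.continuousOn).mono hS
    have h2 : ContinuousOn (fun ζ => ⟪ker z B ζ y, x⟫_ℂ) (sphere 0 r) := by
      have h3 : ContinuousOn (fun ζ => conj ⟪x, ker z B ζ y⟫_ℂ) (sphere 0 r) :=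
        Complex.continuous_conj.comp_continuousOn
          (((matEl x y).continuous.comp_continuousOn hker.continuousOn).mono hS)
      refine h3.congr fun ζ _ => ?_
      exact (inner_conj_symm (ker z B ζ y) x).symm
    exact h1.add h2
  have hbound : ‖circleAverage (fun ζ => w'.eval ζ * q ζ) 0 r‖ ≤
      circleAverage (fun ζ => ‖w'.eval ζ‖ ^ 2) 0 r + R := by
    refine norm_avg_le.trans ?_
    have c1 : ContinuousOn (fun ζ => ‖w'.eval ζ‖ ^ 2) (sphere 0 r) :=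
      (hwc'.norm.pow 2).continuousOn
    have c2 : ContinuousOn (fun ζ => (k ζ).re ^ 2) (sphere 0 r) := hρc.pow 2
    rw [hR, ← avg_add hr0 c1 c2]
    apply avg_mono hr0 ((hwc'.continuousOn.mul hqc).norm) (c1.add c2)
    intro ζ hζ
    simp only [Pi.mul_apply, Pi.add_apply]
    rw [norm_mul]
    have h1 := hqb ζ hζ
    have h2 : 0 ≤ ‖w'.eval ζ‖ := norm_nonneg _
    nlinarith [sq_nonneg (‖w'.eval ζ‖ - (k ζ).re), mul_le_mul_of_nonneg_left h1 h2]
  have hfin : κ * a.re ≤ ‖(κ : ℂ) * a - g0 * ⟪y, x⟫_ℂ‖ + ‖g0‖ * ‖⟪x, y⟫_ℂ‖ := by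
    have h1 : κ * a.re = ((κ : ℂ) * a).re := by rw [Complex.re_ofReal_mul]
    have h2 : ‖(κ : ℂ) * a‖ ≤ ‖(κ : ℂ) * a - g0 * ⟪y, x⟫_ℂ‖ + ‖g0 * ⟪y, x⟫_ℂ‖ := by
      calc ‖(κ : ℂ) * a‖ = ‖((κ : ℂ) * a - g0 * ⟪y, x⟫_ℂ) + g0 * ⟪y, x⟫_ℂ‖ := by
            congr 1; ring
        _ ≤ _ := norm_add_le _ _
    rw [norm_mul g0, norm_inner_symm y x] at h2
    rw [h1]
    exact (Complex.re_le_norm _).trans h2
  rw [← hpair] at hfin
  have hfin2 : ‖g0‖ * ‖⟪x, y⟫_ℂ‖ ≤ ‖g0‖ ^ 2 + ‖⟪x, y⟫_ℂ‖ ^ 2 / 4 := by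
    nlinarith [sq_nonneg (‖g0‖ - ‖⟪x, y⟫_ℂ‖ / 2)]
  have hfin3 : κ * (R - 2 * δ) ≤ κ * a.re := by gcongr
  have : κ * (R - 2 * δ) ≤ (1 + 2 * (E2 / 4 + δ * E1 + δ ^ 2)) + R + ‖⟪x, y⟫_ℂ‖ ^ 2 / 4 := by
    linarith
  nlinarith


/-- the key inequality: `κ ≤ 2 + |⟨x, y⟩|² / 4` -/
theorem key_sq {K : Set ℂ} {z : ℂ → ℂ} {c : ℂ} (hz : GoodMap K z c)
    (B : V →L[ℂ] V) (hB : numRange B ⊆ K) {r : ℝ} (hr : 1 < r) {f : ℂ[X]}
    (hf : ∀ ζ : ℂ, ‖ζ‖ = r → ‖f.eval (z ζ)‖ ≤ 1) {κ : ℝ} (hκ : 0 < κ) {x y : V}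
    (hx : ‖x‖ = 1) (hxy : aeval B f x = (κ : ℂ) • y)
    (hyx : ContinuousLinearMap.adjoint (aeval B f) y = (κ : ℂ) • x) :
    κ ≤ 2 + ‖⟪x, y⟫_ℂ‖ ^ 2 / 4 := by
  set R : ℝ := circleAverage (fun ζ => (⟪x, ker z B ζ x⟫_ℂ).re ^ 2) 0 r with hR
  set E1 : ℝ := circleAverage (fun ζ => ‖⟪x, ker z B ζ x⟫_ℂ - 1‖) 0 r with hE1
  have hker := ker_differentiableOn hz B hB
  have hkd : DifferentiableOn ℂ (fun ζ => ⟪x, ker z B ζ x⟫_ℂ) (Ext 1) :=
    (matEl x x).differentiable.comp_differentiableOn hker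
  have hkl : Tendsto (fun ζ => ⟪x, ker z B ζ x⟫_ℂ) (Bornology.cobounded ℂ) (𝓝 1) := by
    have h := ((matEl x x).continuous.tendsto 1).comp (ker_tendsto hz B)
    have h1 : matEl x x 1 = 1 := by
      simp [matEl_apply, inner_self_eq_norm_sq_to_K, hx]
    rw [h1] at h
    exact h
  have hR1 : 1 ≤ R := by
    rw [hR, (avg_density_sq hr hkd hkl).2]
    have : 0 ≤ circleAverage (fun ζ => ‖⟪x, ker z B ζ x⟫_ℂ - 1‖ ^ 2) 0 r :=
      circleAverage_nonneg_of_nonneg fun _ _ => by positivity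
    linarith
  have hlim : κ * R ≤ 2 * R + ‖⟪x, y⟫_ℂ‖ ^ 2 / 4 := by
    have h1 : Tendsto (fun δ : ℝ => κ * (R - 2 * δ)) (𝓝[>] 0) (𝓝 (κ * (R - 2 * 0))) :=
      ((by fun_prop : Continuous fun δ : ℝ => κ * (R - 2 * δ)).tendsto 0).mono_left
        nhdsWithin_le_nhds
    have h2 : Tendsto (fun δ : ℝ => 2 * R + δ * (2 * E1 + 2 * δ) + ‖⟪x, y⟫_ℂ‖ ^ 2 / 4) (𝓝[>] 0)
        (𝓝 (2 * R + 0 * (2 * E1 + 2 * 0) + ‖⟪x, y⟫_ℂ‖ ^ 2 / 4)) :=
      ((by fun_prop : Continuous fun δ : ℝ =>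
        2 * R + δ * (2 * E1 + 2 * δ) + ‖⟪x, y⟫_ℂ‖ ^ 2 / 4).tendsto 0).mono_left
        nhdsWithin_le_nhds
    have h3 := le_of_tendsto_of_tendsto h1 h2 (by
      filter_upwards [self_mem_nhdsWithin] with δ hδ
      exact key_step hz B hB hr hf hκ hx hxy hyx hR hE1 hδ)
    simpa using h3
  have h4 : 0 ≤ ‖⟪x, y⟫_ℂ‖ ^ 2 / 4 := by positivity
  by_contra hcon
  push Not at hcon
  nlinarith [mul_le_mul_of_nonneg_right hR1 h4]

end Vale.Agent.P123
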