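import Mathlib

/-!
# P123: the disc automorphisms `(z - a) / (1 - conj a * z)`
-/

open Metric Set Filter
open scoped Topology ComplexConjugate

namespace Vale.Agent.P123

/-- the disc automorphism -/
noncomputable def mob (a z : ℂ) : ℂ := (z - a) / (1 - conj a * z)

lemma mob_den_ne {a z : ℂ} (ha : ‖a‖ < 1) (hz : ‖z‖ < 1) : 1 - conj a * z ≠ 0 := by
  intro h
  have h1 : conj a * z = 1 := by linear_combination -h
  have h2 : ‖conj a * z‖ < 1 := by
    rw [norm_mul, Complex.norm_conj]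
    nlinarith [norm_nonneg a, norm_nonneg z]
  rw [h1] at h2
  simp at h2

lemma mob_self (a : ℂ) : mob a a = 0 := by simp [mob]

lemma mob_zero (a : ℂ) : mob a 0 = -a := by simp [mob]

lemma norm_sq_identity (a z : ℂ) :
    ‖1 - conj a * z‖ ^ 2 - ‖z - a‖ ^ 2 = (1 - ‖a‖ ^ 2) * (1 - ‖z‖ ^ 2) := by
  have h : ∀ w : ℂ, ‖w‖ ^ 2 = Complex.normSq w := fun w => (Complex.normSq_eq_norm_sq w).symm
  rw [h, h, h, h]
  simp only [Complex.normSq_apply, Complex.sub_re, Complex.sub_im, Complex.mul_re, Complex.mul_im,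
    Complex.conj_re, Complex.conj_im, Complex.one_re, Complex.one_im]
  ring

lemma norm_mob_lt {a z : ℂ} (ha : ‖a‖ < 1) (hz : ‖z‖ < 1) : ‖mob a z‖ < 1 := by
  have hd := mob_den_ne ha hz
  rw [mob, norm_div, div_lt_one (norm_pos_iff.mpr hd)]
  have h1 := norm_sq_identity a z
  have h2 : 0 < (1 - ‖a‖ ^ 2) * (1 - ‖z‖ ^ 2) := by
    apply mul_pos <;> nlinarith [norm_nonneg a, norm_nonneg z]
  have h3 : ‖z - a‖ ^ 2 < ‖1 - conj a * z‖ ^ 2 := by linarith
  exact lt_of_pow_lt_pow_left₀ 2 (norm_nonneg _) h3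

lemma mob_injOn {a : ℂ} (ha : ‖a‖ < 1) : InjOn (mob a) (ball 0 1) := by
  intro z hz w hw h
  rw [mem_ball_zero_iff] at hz hw
  have hdz := mob_den_ne ha hz
  have hdw := mob_den_ne ha hw
  rw [mob, mob, div_eq_div_iff hdz hdw] at h
  have h1 : (z - w) * (1 - conj a * a) = 0 := by linear_combination h
  have h2 : 1 - conj a * a ≠ 0 := mob_den_ne ha ha
  have h3 := (mul_eq_zero.mp h1).resolve_right h2
  linear_combination h3

lemma hasDerivAt_mob {a z : ℂ} (ha : ‖a‖ < 1) (hz : ‖z‖ < 1) :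
    HasDerivAt (mob a) ((1 - conj a * a) / (1 - conj a * z) ^ 2) z := by
  have hd := mob_den_ne ha hz
  have h1 : HasDerivAt (fun z : ℂ => z - a) 1 z := (hasDerivAt_id z).sub_const a
  have h2 : HasDerivAt (fun z : ℂ => 1 - conj a * z) (-(conj a)) z := by
    have := ((hasDerivAt_id z).const_mul (conj a)).const_sub 1
    simpa using this
  have h3 := h1.fun_div h2 hd
  refine h3.congr_deriv ?_
  congr 1
  ring

lemma differentiableOn_mob {a : ℂ} (ha : ‖a‖ < 1) : DifferentiableOn ℂ (mob a) (ball 0 1) :=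
  fun _ hz => (hasDerivAt_mob ha (mem_ball_zero_iff.mp hz)).differentiableAt.differentiableWithinAt

lemma mapsTo_mob {a : ℂ} (ha : ‖a‖ < 1) : MapsTo (mob a) (ball 0 1) (ball 0 1) := fun _ hz =>
  mem_ball_zero_iff.mpr (norm_mob_lt ha (mem_ball_zero_iff.mp hz))

end Vale.Agent.P123
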