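import Vale.Agent.P123.Star

/-!
# P123: boundary behaviour of the exterior map and the convexity inequality
-/

open Metric Set Filter
open scoped Topology ComplexConjugate

namespace Vale.Agent.P123

variable {K : Set ℂ} {z₀ : ℂ} {f φ : ℂ → ℂ}

lemma PhiData.phi_ne (h : PhiData K z₀ f φ) {η : ℂ} (hη : η ∈ ball (0 : ℂ) 1) (h0 : η ≠ 0) :
    φ η ≠ 0 := by
  intro h1
  apply h0
  apply h.inj hη (mem_ball_self one_pos)
  rw [h1, h.phi0]

/-- the exterior map in the variable `η` -/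
noncomputable def zz (z₀ : ℂ) (φ : ℂ → ℂ) (η : ℂ) : ℂ := z₀ + (φ η)⁻¹

/-- `ζ z'(ζ)` in the variable `η` -/
noncomputable def nn (φ : ℂ → ℂ) (η : ℂ) : ℂ := deriv φ η * η / φ η ^ 2

lemma PhiData.zz_notMem (h : PhiData K z₀ f φ) {η : ℂ} (hη : η ∈ ball (0 : ℂ) 1) (h0 : η ≠ 0) :
    zz z₀ φ η ∉ K := (h.maps η hη).resolve_left (h.phi_ne hη h0)

lemma PhiData.nn_ne (h : PhiData K z₀ f φ) {η : ℂ} (hη : η ∈ ball (0 : ℂ) 1) (h0 : η ≠ 0) :
    nn φ η ≠ 0 :=
  div_ne_zero (mul_ne_zero (h.deriv_ne hη) h0) (pow_ne_zero 2 (h.phi_ne hη h0))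

/-- starlikeness, product form -/
lemma PhiData.star' (h : PhiData K z₀ f φ) {a : ℂ} (ha : a ∈ K) {η : ℂ}
    (hη : η ∈ ball (0 : ℂ) 1) (h0 : η ≠ 0) :
    0 ≤ ((zz z₀ φ η - a) / nn φ η).re := by
  have h1 := h.star ha hη
  have hφ := h.phi_ne hη h0
  have hd := h.deriv_ne hη
  have h2 : conj η * ((φ η - (a - z₀) * φ η ^ 2) / deriv φ η)
      = ((Complex.normSq η : ℝ) : ℂ) * ((zz z₀ φ η - a) / nn φ η) := by
    rw [Complex.normSq_eq_conj_mul_self, zz, nn]
    field_simp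
    ring
  rw [h2, Complex.re_ofReal_mul] at h1
  have h3 : 0 < Complex.normSq η := Complex.normSq_pos.mpr h0
  exact nonneg_of_mul_nonneg_right h1 h3

lemma re_div_nonneg_comm {p q : ℂ} (h : 0 ≤ (p / q).re) : 0 ≤ (q / p).re := by
  have h1 : q / p = (p / q)⁻¹ := by rw [inv_div]
  rw [h1, Complex.inv_re]
  exact div_nonneg h (Complex.normSq_nonneg _)

lemma re_mul_conj_nonneg_of_div {p q : ℂ} (h : 0 ≤ (p / q).re) : 0 ≤ (p * conj q).re := by
  by_cases hq : q = 0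
  · simp [hq]
  have h1 : p * conj q = ((Complex.normSq q : ℝ) : ℂ) * (p / q) := by
    rw [Complex.normSq_eq_conj_mul_self]
    field_simp
  rw [h1, Complex.re_ofReal_mul]
  exact mul_nonneg (Complex.normSq_nonneg _) h

lemma re_div_nonneg_of_mul_conj {p q : ℂ} (h : 0 ≤ (p * conj q).re) : 0 ≤ (p / q).re := by
  by_cases hq : q = 0
  · simp [hq]
  have h1 : p * conj q = ((Complex.normSq q : ℝ) : ℂ) * (p / q) := by
    rw [Complex.normSq_eq_conj_mul_self]
    field_simp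
  rw [h1, Complex.re_ofReal_mul] at h
  exact nonneg_of_mul_nonneg_right h (Complex.normSq_pos.mpr hq)

lemma exists_subset_ball (h : PhiData K z₀ f φ) : ∃ R > 0, K ⊆ ball z₀ R := by
  obtain ⟨R, hR⟩ := h.comp.isBounded.subset_ball z₀
  exact ⟨max R 1, by positivity, hR.trans (ball_subset_ball (le_max_left _ _))⟩

lemma PhiData.nonempty (h : PhiData K z₀ f φ) : K.Nonempty := ⟨z₀, h.z₀_mem⟩

lemma continuousAt_gg {w : ℂ} (hw : w ≠ 0) :
    ContinuousAt (fun w : ℂ => infDist (z₀ + w⁻¹) K) w := by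
  have h1 : ContinuousAt (fun w : ℂ => z₀ + w⁻¹) w := by fun_prop (disch := exact hw)
  exact (continuous_infDist_pt K).continuousAt.comp h1

/-- away from the unit circle the exterior map stays away from `K` -/
lemma PhiData.far (h : PhiData K z₀ f φ) {ρ : ℝ} (hρ : ρ < 1) :
    ∃ d > 0, ∀ η : ℂ, η ≠ 0 → ‖η‖ ≤ ρ → d ≤ infDist (zz z₀ φ η) K := by
  obtain ⟨R, hR0, hR⟩ := exists_subset_ball h
  have hsub : closedBall (0 : ℂ) ρ ⊆ ball 0 1 := closedBall_subset_ball hρ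
  have hC2 : IsCompact (φ '' closedBall 0 ρ) :=
    (isCompact_closedBall 0 ρ).image_of_continuousOn (h.hφ.continuousOn.mono hsub)
  set C3 : Set ℂ := φ '' closedBall 0 ρ ∩ {w | 1 / (R + 1) ≤ ‖w‖} with hC3
  have hC3c : IsCompact C3 := hC2.inter_right (isClosed_le continuous_const continuous_norm)
  have hne0 : ∀ w ∈ C3, w ≠ 0 := by
    rintro w ⟨_, hw⟩ rfl
    simp only [mem_ofPred_eq, norm_zero] at hw
    have : 0 < 1 / (R + 1) := by positivity
    linarith
  have hpos : ∀ w ∈ C3, 0 < infDist (z₀ + w⁻¹) K := by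
    intro w hw
    obtain ⟨η, hη, hηw⟩ := hw.1
    have h1 : z₀ + w⁻¹ ∉ K := by
      rw [← hηw]
      have hηb := hsub hη
      have hη0 : η ≠ 0 := by
        rintro rfl
        exact hne0 w hw (by rw [← hηw, h.phi0])
      exact h.zz_notMem hηb hη0
    exact (h.comp.isClosed.notMem_iff_infDist_pos h.nonempty).mp h1
  have hsmall : ∀ w : ℂ, w ≠ 0 → ‖w‖ < 1 / (R + 1) → 1 ≤ infDist (z₀ + w⁻¹) K := by
    intro w hw0 hw
    rw [le_infDist h.nonempty]
    intro y hy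
    have h1 : R + 1 < ‖w⁻¹‖ := by
      rw [norm_inv, lt_inv_comm₀ (by positivity) (norm_pos_iff.mpr hw0)]
      simpa using hw
    have h2 : dist y z₀ < R := mem_ball.mp (hR hy)
    have h3 : dist (z₀ + w⁻¹) z₀ = ‖w⁻¹‖ := by simp [dist_eq_norm]
    have h4 := dist_triangle (z₀ + w⁻¹) y z₀
    linarith
  rcases C3.eq_empty_or_nonempty with hemp | hne
  · refine ⟨1, one_pos, fun η hη0 hη => ?_⟩
    have hηb : η ∈ ball (0 : ℂ) 1 := hsub (mem_closedBall_zero_iff.mpr hη)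
    apply hsmall _ (h.phi_ne hηb hη0)
    by_contra hcon
    have : φ η ∈ C3 := ⟨⟨η, mem_closedBall_zero_iff.mpr hη, rfl⟩, not_lt.mp hcon⟩
    rw [hemp] at this
    exact this
  · have hcont : ContinuousOn (fun w : ℂ => infDist (z₀ + w⁻¹) K) C3 := fun w hw =>
      (continuousAt_gg (hne0 w hw)).continuousWithinAt
    obtain ⟨w₁, hw₁, hmin⟩ := hC3c.exists_isMinOn hne hcont
    refine ⟨min 1 (infDist (z₀ + w₁⁻¹) K), lt_min one_pos (hpos w₁ hw₁), fun η hη0 hη => ?_⟩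
    have hηb : η ∈ ball (0 : ℂ) 1 := hsub (mem_closedBall_zero_iff.mpr hη)
    by_cases hcon : ‖φ η‖ < 1 / (R + 1)
    · exact (min_le_left _ _).trans (hsmall _ (h.phi_ne hηb hη0) hcon)
    · exact (min_le_right _ _).trans
        (hmin ⟨⟨η, mem_closedBall_zero_iff.mpr hη, rfl⟩, not_lt.mp hcon⟩)

/-- near the unit circle the exterior map is close to `K` -/
lemma PhiData.near (h : PhiData K z₀ f φ) {ε : ℝ} (hε : 0 < ε) :
    ∃ ρ < 1, 0 ≤ ρ ∧ ∀ η : ℂ, ρ < ‖η‖ → ‖η‖ < 1 → infDist (zz z₀ φ η) K < ε := by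
  set C : Set ℂ := {w | w = 0 ∨ ε ≤ infDist (z₀ + w⁻¹) K} with hC
  have hCD : C ⊆ invDom K z₀ := by
    rintro w (hw | hw)
    · exact Or.inl hw
    · refine Or.inr fun hmem => ?_
      rw [infDist_zero_of_mem hmem] at hw
      linarith
  have hclosed : IsClosed C := by
    rw [← isOpen_compl_iff, isOpen_iff_mem_nhds]
    intro w hw
    rw [hC, mem_compl_iff, mem_ofPred_eq, not_or, not_le] at hw
    filter_upwards [isOpen_ne.mem_nhds hw.1, (continuousAt_gg (K := K) (z₀ := z₀) hw.1).eventually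
      (gt_mem_nhds hw.2)] with y hy1 hy2
    rw [hC, mem_compl_iff, mem_ofPred_eq, not_or, not_le]
    exact ⟨hy1, hy2⟩
  obtain ⟨ε', hε', hball⟩ := Metric.isOpen_iff.mp isOpen_interior z₀ h.mem
  have hbdd : C ⊆ closedBall 0 (1 / ε') := by
    intro w hw
    rw [mem_closedBall_zero_iff]
    rcases hCD hw with rfl | hw'
    · rw [norm_zero]; positivity
    · by_contra hcon
      apply hw'
      apply interior_subset
      apply hball
      rw [mem_ball, dist_eq_norm, add_sub_cancel_left, norm_inv]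
      rw [not_le] at hcon
      have h1 : 0 < ‖w‖ := lt_trans (by positivity) hcon
      rw [inv_lt_comm₀ h1 hε']
      simpa using hcon
  have hcomp : IsCompact C := (isCompact_closedBall 0 (1 / ε')).of_isClosed_subset hclosed hbdd
  have hcomp2 : IsCompact (f '' C) := hcomp.image_of_continuousOn (h.hf.continuousOn.mono hCD)
  have hne : (f '' C).Nonempty := ⟨f 0, 0, Or.inl rfl, rfl⟩
  obtain ⟨y, ⟨w, hw, rfl⟩, hmax⟩ := hcomp2.exists_isMaxOn hne continuous_norm.continuousOn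
  refine ⟨‖f w‖, mem_ball_zero_iff.mp (h.fmem w (hCD hw)), norm_nonneg _, fun η h1 h2 => ?_⟩
  have hηb : η ∈ ball (0 : ℂ) 1 := mem_ball_zero_iff.mpr h2
  have hη : φ η ∉ C := by
    intro hmem
    have h3 : ‖f (φ η)‖ ≤ ‖f w‖ := hmax ⟨φ η, hmem, rfl⟩
    rw [h.fphi η hηb] at h3
    linarith
  rw [hC, mem_ofPred_eq, not_or, not_le] at hη
  exact hη.2

end Vale.Agent.P123
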