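import Mathlib

/-!
# P123: Riemann mapping theorem, steps 1 and 2

These two lemmas are copied from Mathlib (file `Mathlib/Analysis/Complex/RiemannMapping.lean`,
Copyright (c) 2026 Yury Kudryashov, Apache 2.0 license), where they are private to their module.
-/

open Function Filter Metric Set
open scoped Pointwise Topology
open Complex

namespace Vale.Agent.P123

/-- Proof of the Riemann Mapping Theorem, step 1.

If `U` is an open simply connected subset of `ℂ` that is not the whole `ℂ`,
then there exists a function `f : ℂ → ℂ` such that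

- `f` is injective;
- the image `f '' U` isn't dense in `ℂ`;
- `f` is complex differentiable on `U` with nonzero derivative.

E.g., one can choose `a ∉ U`, then take `f z` to be the square root of `z - a`.
-/
theorem exists_injective_not_dense_image_deriv_ne_zero {U : Set ℂ} (hUo : IsOpen U)
    (hUc : IsSimplyConnected U) (hU : U ≠ univ) :
    ∃ f : ℂ → ℂ, Injective f ∧ ¬Dense (f '' U) ∧ ∀ z ∈ U, deriv f z ≠ 0 := by
  -- WLOG, `0 ∉ U`, otherwise we choose `a ∉ U` and replace `U` with `-a +ᵥ U`
  wlog hU₀ : 0 ∉ U
  · rw [ne_univ_iff_exists_notMem] at hU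
    rcases hU with ⟨a, ha⟩
    specialize this (hUo.vadd (-a)) (by simpa) (by simp [hU])
      (by simpa [mem_vadd_set_iff_neg_vadd_mem])
    rcases this with ⟨f, hf_inj, hf_dense, hdf⟩
    refine ⟨f ∘ (-a + ·), hf_inj.comp (add_right_injective (-a)), ?_, fun z hz ↦ ?_⟩
    · simpa only [← image_vadd, Set.image_image] using! hf_dense
    · simpa [Function.comp_def, deriv_comp_const_add] using hdf (-a + z) (mapsTo_image _ _ hz)
  -- Choose a continuous branch of `√z` on `U`.
  -- This is the function we're looking for.
  rcases exists_continuousOn_pow_eq hUc hUo continuousOn_id (by rwa [image_id]) two_ne_zero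
    with ⟨f, hfc, hf_inv⟩
  replace hf_inv : LeftInverse (· ^ 2) f := hf_inv
  -- Then `0 ∉ f '' U`
  have hf₀ : ∀ z ∈ U, f z ≠ 0 := by
    intro z hz hfz
    simpa [hfz, (ne_of_mem_of_not_mem hz hU₀).symm] using hf_inv z
  -- Note that `f` is strictly differentiable at every point of `U`
  -- with derivative `1 / (2 * f z)`.
  have hdf : ∀ z ∈ U, HasStrictDerivAt f (2 * f z)⁻¹ z := by
    intro z hz
    apply HasStrictDerivAt.of_local_left_inverse
    · exact hfc.continuousAt <| hUo.mem_nhds hz
    · simpa using hasStrictDerivAt_pow 2 (f z)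
    · simpa using hf₀ z hz
    · exact .of_forall hf_inv
  -- `f` has a left inverse, so it's injective. Let's show that `f '' U` isn't dense in `ℂ`.
  refine ⟨f, hf_inv.injective, ?_, fun z hz ↦ ?_⟩
  · -- Take a point `x ∈ U`.
    simp only [Dense, not_forall, mem_closure_iff_frequently, not_frequently]
    rcases hUc.nonempty with ⟨x, hx⟩
    -- Show that `-f x` has a neighborhood disjoint with `f '' U`.
    use -f x
    -- Since `f` is strictly differentiable at `x` with nonzero derivative,
    -- `f '' U` is a neighborhood of `f x`.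
    have : f '' U ∈ 𝓝 (f x) := by
      rw [← (hdf x hx).map_nhds_eq (by simpa using hf₀ x hx)]
      exact Filter.image_mem_map <| hUo.mem_nhds hx
    -- Then `-f '' U` is a neighborhood of `-f x`.
    rw [nhds_neg, eventually_neg]
    -- This neighborhood has to be disjoint with `f '' U`,
    -- because `f a = - f b` implies `a = (f a) ^ 2 = (- f b) ^ 2 = b`, hence `f a = f b = 0`,
    -- which is impossible.
    filter_upwards [this]
    rintro _ ⟨a, ha, rfl⟩ ⟨b, hb, hab⟩
    obtain rfl : a = b := by
      rw [← hf_inv b, hab]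
      simp [hf_inv a]
    refine hf₀ a ha ?_
    linear_combination hab / 2
  · simpa [(hdf z hz).hasDerivAt.deriv] using hf₀ z hz

/-- Proof of the Riemann Mapping Theorem, step 2.

If `U` is an open simply connected subset of `ℂ` which is not the whole field,
then there exists a map `f : ℂ → ℂ` such that

- `f` maps `U` to the unit disk;
- `f` is injective on `U`;
- `f` is differentiable on `U` with nonzero derivative.

Once the proof of the Riemann Mapping Theorem gets merged into Mathlib,
this lemma will be made private.
-/
lemma exists_mapsTo_unitBall_injOn_deriv_ne_zero {U : Set ℂ} (hUo : IsOpen U)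
    (hUc : IsSimplyConnected U) (hU : U ≠ univ) :
    ∃ f : ℂ → ℂ, MapsTo f U (ball 0 1) ∧ InjOn f U ∧ ∀ z ∈ U, deriv f z ≠ 0 := by
  -- Take a continuous branch of the square root on `U`.
  -- It is injective, differentiable function on `U`, and `f '' U` isn't dense in `ℂ`.
  rcases exists_injective_not_dense_image_deriv_ne_zero hUo hUc hU with ⟨f, hf_inj, hfd, hdf⟩
  -- Choose a closed ball `Metric.closedBall x ε`, `ε > 0`, that is disjoint with `f '' U`.
  obtain ⟨x, ε, hε₀, hε⟩ : ∃ (x : ℂ) (ε : ℝ), 0 < ε ∧ ∀ a ∈ U, ε < dist (f a) x := by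
    simpa [Dense, mem_closure_iff_nhds_basis Metric.nhds_basis_closedBall] using hfd
  have hfx : ∀ z ∈ U, f z ≠ x := fun z hz ↦ by simpa using hε₀.trans (hε z hz)
  -- Then `z ↦ ε / (f z - x)` satisfies all the assertions.
  use fun z ↦ ε / (f z - x)
  refine ⟨?mapsTo, ?injOn, ?deriv⟩
  case mapsTo =>
    intro z hz
    rw [mem_ball_zero_iff, norm_div, norm_real, Real.norm_of_nonneg hε₀.le, div_lt_one₀]
    · simpa [dist_eq_norm] using hε z hz
    · simpa [sub_eq_zero] using hfx z hz
  case injOn =>
    intro z hz w hw heq
    simpa [div_eq_mul_inv, hε₀.ne', hf_inj.eq_iff] using heq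
  case deriv =>
    intro z hz
    have hdz : DifferentiableAt ℂ f z := differentiableAt_of_deriv_ne_zero (hdf z hz)
    rw [(hasDerivAt_const _ _).fun_div (hdz.hasDerivAt.sub_const _) _ |>.deriv] <;>
      simp [*, ne_of_gt, sub_eq_zero]

end Vale.Agent.P123
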