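import Vale.Agent.P123.Mobius
import Vale.Agent.P123.RMTStep

/-!
# P123: the Riemann mapping theorem
-/

open Metric Set Filter
open scoped Topology ComplexConjugate

namespace Vale.Agent.P123

/-- the extremal family -/
def Fam (U : Set ℂ) (z₀ : ℂ) : Set (ℂ → ℂ) :=
  {f | DifferentiableOn ℂ f U ∧ InjOn f U ∧ MapsTo f U (ball 0 1) ∧ f z₀ = 0}

lemma equicont {U : Set ℂ} {f : ℂ → ℂ} (hf : DifferentiableOn ℂ f U)
    (hm : MapsTo f U (closedBall 0 1)) {z : ℂ} {r : ℝ} (hr : 0 < r) (hU : ball z r ⊆ U) {w : ℂ}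
    (hw : w ∈ ball z r) : dist (f w) (f z) ≤ 2 / r * dist w z := by
  apply Complex.dist_le_div_mul_dist_of_mapsTo_ball (hf.mono hU) _ hw
  intro y hy
  have h1 := hm (hU hy)
  have h2 := hm (hU (mem_ball_self hr))
  rw [mem_closedBall] at *
  linarith [dist_triangle_right (f y) (f z) 0]

lemma tendstoLocallyUniformlyOn_of_pointwise {ι : Type*} {φ : Filter ι} [φ.NeBot] {U : Set ℂ}
    (hU : IsOpen U) {F : ι → ℂ → ℂ} {f : ℂ → ℂ} (hF : ∀ i, DifferentiableOn ℂ (F i) U)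
    (hm : ∀ i, MapsTo (F i) U (closedBall 0 1))
    (hlim : ∀ z ∈ U, Tendsto (fun i => F i z) φ (𝓝 (f z))) :
    TendstoLocallyUniformlyOn F f φ U := by
  rw [Metric.tendstoLocallyUniformlyOn_iff]
  intro ε hε x hx
  obtain ⟨r, hr, hrU⟩ := Metric.isOpen_iff.mp hU x hx
  have hfx : ∀ w ∈ ball x r, dist (f w) (f x) ≤ 2 / r * dist w x := by
    intro w hw
    refine le_of_tendsto ((hlim w (hrU hw)).dist (hlim x hx)) (Eventually.of_forall fun i => ?_)
    exact equicont (hF i) (hm i) hr hrU hw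
  set δ := min r (r * ε / 8) with hδ
  have hδ0 : 0 < δ := lt_min hr (by positivity)
  refine ⟨ball x δ, mem_nhdsWithin_of_mem_nhds (ball_mem_nhds x hδ0), ?_⟩
  have h1 : ∀ᶠ i in φ, dist (F i x) (f x) < ε / 4 := (Metric.tendsto_nhds.mp (hlim x hx)) _ (by positivity)
  filter_upwards [h1] with i hi y hy
  have hyr : y ∈ ball x r := ball_subset_ball (min_le_left _ _) hy
  have h2 := hfx y hyr
  have h3 := equicont (hF i) (hm i) hr hrU hyr
  have h4 : dist y x < r * ε / 8 := lt_of_lt_of_le (mem_ball.mp hy) (min_le_right _ _)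
  have h5 : 2 / r * dist y x ≤ ε / 4 := by
    calc 2 / r * dist y x ≤ 2 / r * (r * ε / 8) := by gcongr
      _ = ε / 4 := by field_simp; ring
  calc dist (f y) (F i y) ≤ dist (f y) (f x) + dist (f x) (F i x) + dist (F i x) (F i y) :=
        dist_triangle4 _ _ _ _
    _ = dist (f y) (f x) + dist (F i x) (f x) + dist (F i y) (F i x) := by
        rw [dist_comm (f x) (F i x), dist_comm (F i x) (F i y)]
    _ < ε := by linarith

/-- Montel: pointwise limit along an ultrafilter -/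
lemma exists_ultra_limit {U : Set ℂ} (hU : IsOpen U) {F : ℕ → ℂ → ℂ}
    (hF : ∀ i, DifferentiableOn ℂ (F i) U) (hm : ∀ i, MapsTo (F i) U (closedBall 0 1)) :
    ∃ f : ℂ → ℂ, TendstoLocallyUniformlyOn F f (hyperfilter ℕ : Filter ℕ) U := by
  have h : ∀ z : ℂ, ∃ w : ℂ, z ∈ U → Tendsto (fun i => F i z) (hyperfilter ℕ : Filter ℕ) (𝓝 w) := by
    intro z
    by_cases hz : z ∈ U
    · have hc : IsCompact (closedBall (0 : ℂ) 1) := isCompact_closedBall 0 1
      have h1 : ((hyperfilter ℕ).map (fun i => F i z) : Ultrafilter ℂ) ≤ 𝓟 (closedBall (0 : ℂ) 1) := by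
        rw [le_principal_iff, Ultrafilter.coe_map, mem_map]
        exact Filter.univ_mem' fun i => hm i hz
      obtain ⟨w, _, hw⟩ := hc.ultrafilter_le_nhds _ h1
      exact ⟨w, fun _ => hw⟩
    · exact ⟨0, fun h => absurd h hz⟩
  choose f hf using h
  exact ⟨f, tendstoLocallyUniformlyOn_of_pointwise hU hF hm fun z hz => hf z hz⟩

/-- Hurwitz: a nonconstant locally uniform limit of injective maps is injective (local part) -/
lemma hurwitz_aux {ι : Type*} {φ : Filter ι} {U : Set ℂ} (hU : IsOpen U)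
    {F : ι → ℂ → ℂ} {f : ℂ → ℂ} (hF : ∀ i, DifferentiableOn ℂ (F i) U)
    (hinj : ∀ i, InjOn (F i) U) (hlim : TendstoLocallyUniformlyOn F f φ U)
    (hf : DifferentiableOn ℂ f U) {a : ℂ} (ha : a ∈ U)
    (hne : ∀ᶠ z in 𝓝[≠] a, f z ≠ f a) {ρ : ℝ} (hρ : 0 < ρ) :
    ∀ᶠ i in φ, ∃ z ∈ U, dist z a < ρ ∧ F i z = f a := by
  obtain ⟨r₁, hr₁, hr₁U⟩ := Metric.isOpen_iff.mp hU a ha
  rw [eventually_nhdsWithin_iff, Metric.eventually_nhds_iff] at hne
  obtain ⟨r₂, hr₂, hne⟩ := hne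
  set r := min (min r₁ r₂) ρ / 2 with hrdef
  have hr : 0 < r := by positivity
  have hrr₁ : r < r₁ := by
    have : min (min r₁ r₂) ρ ≤ r₁ := (min_le_left _ _).trans (min_le_left _ _)
    have h0 : 0 < min (min r₁ r₂) ρ := by positivity
    rw [hrdef]; linarith
  have hrr₂ : r < r₂ := by
    have : min (min r₁ r₂) ρ ≤ r₂ := (min_le_left _ _).trans (min_le_right _ _)
    have h0 : 0 < min (min r₁ r₂) ρ := by positivity
    rw [hrdef]; linarith
  have hrρ : r < ρ := by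
    have : min (min r₁ r₂) ρ ≤ ρ := min_le_right _ _
    have h0 : 0 < min (min r₁ r₂) ρ := by positivity
    rw [hrdef]; linarith
  have hcb : closedBall a r ⊆ U := fun z hz => hr₁U (lt_of_le_of_lt (mem_closedBall.mp hz) hrr₁)
  have hsph : sphere a r ⊆ U := sphere_subset_closedBall.trans hcb
  have hcont : ContinuousOn (fun z => ‖f z - f a‖) (sphere a r) :=
    ((hf.continuousOn.mono hsph).sub continuousOn_const).norm
  have hne' : (sphere a r).Nonempty := NormedSpace.sphere_nonempty.mpr hr.le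
  obtain ⟨y, hy, hymin⟩ := (isCompact_sphere a r).exists_isMinOn hne' hcont
  set ε := ‖f y - f a‖ with hε
  have hε0 : 0 < ε := by
    rw [hε, norm_pos_iff, sub_ne_zero]
    apply hne
    · rw [mem_sphere.mp hy]; exact hrr₂
    · exact ne_of_mem_sphere hy hr.ne'
  have hunif : TendstoUniformlyOn F f φ (closedBall a r) :=
    (tendstoLocallyUniformlyOn_iff_forall_isCompact hU).mp hlim _ hcb (isCompact_closedBall a r)
  have h8 : ∀ᶠ i in φ, ∀ z ∈ closedBall a r, dist (f z) (F i z) < ε / 8 :=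
    Metric.tendstoUniformlyOn_iff.mp hunif _ (by positivity)
  filter_upwards [h8] with i hi
  have hdiff : DiffContOnCl ℂ (F i) (ball a r) := by
    refine ⟨(hF i).mono (ball_subset_closedBall.trans hcb), ?_⟩
    rw [closure_ball a hr.ne']
    exact (hF i).continuousOn.mono hcb
  have haa := hi a (mem_closedBall_self hr.le)
  have hbound : ∀ z ∈ sphere a r, 3 * ε / 4 ≤ ‖F i z - F i a‖ := by
    intro z hz
    have h1 : ε ≤ ‖f z - f a‖ := hymin hz
    have h2 := hi z (sphere_subset_closedBall hz)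
    have h3 : dist (f z) (f a) ≤ dist (f z) (F i z) + dist (F i z) (F i a) + dist (F i a) (f a) :=
      dist_triangle4 _ _ _ _
    rw [dist_comm (F i a) (f a), dist_eq_norm (f z) (f a), dist_eq_norm (F i z) (F i a)] at h3
    linarith
  have hfreq : ∃ᶠ z in 𝓝 a, F i z ≠ F i a := by
    have h1 : ∀ᶠ z in 𝓝[≠] a, F i z ≠ F i a := by
      rw [eventually_nhdsWithin_iff]
      filter_upwards [hU.mem_nhds ha] with z hz hza h
      exact hza (hinj i hz ha h)
    exact (h1.frequently).filter_mono nhdsWithin_le_nhds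
  have hsub := hdiff.ball_subset_image_closedBall hr hbound hfreq
  have hmem : f a ∈ ball (F i a) (3 * ε / 4 / 2) := by
    rw [mem_ball]; linarith
  obtain ⟨z, hz, hz2⟩ := hsub hmem
  exact ⟨z, hcb hz, lt_of_le_of_lt (mem_closedBall.mp hz) hrρ, hz2⟩

lemma hurwitz {ι : Type*} {φ : Filter ι} [φ.NeBot] {U : Set ℂ} (hU : IsOpen U)
    (hUc : IsPreconnected U)
    {F : ι → ℂ → ℂ} {f : ℂ → ℂ} (hF : ∀ i, DifferentiableOn ℂ (F i) U)
    (hinj : ∀ i, InjOn (F i) U) (hlim : TendstoLocallyUniformlyOn F f φ U)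
    {z₀ : ℂ} (hz₀ : z₀ ∈ U) (hd : deriv f z₀ ≠ 0) : InjOn f U := by
  have hf : DifferentiableOn ℂ f U := hlim.differentiableOn (Eventually.of_forall hF) hU
  have hfa : AnalyticOnNhd ℂ f U := hf.analyticOnNhd hU
  have hnc : ∀ a ∈ U, ∀ᶠ z in 𝓝[≠] a, f z ≠ f a := by
    intro a ha
    rcases (hfa a ha).eventually_eq_or_eventually_ne (analyticAt_const (v := f a)) with h | h
    · exfalso
      have h1 : EqOn f (fun _ => f a) U :=
        hfa.eqOn_of_preconnected_of_eventuallyEq analyticOnNhd_const hUc ha h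
      apply hd
      have h2 : f =ᶠ[𝓝 z₀] fun _ => f a := by
        filter_upwards [hU.mem_nhds hz₀] with z hz using h1 hz
      rw [h2.deriv_eq]
      simp
    · exact h
  intro a ha b hb hab
  by_contra hne
  have hpos : 0 < dist a b / 2 := by
    have := dist_pos.mpr hne
    positivity
  have h1 := hurwitz_aux hU hF hinj hlim hf ha (hnc a ha) hpos
  have h2 := hurwitz_aux hU hF hinj hlim hf hb (hnc b hb) hpos
  obtain ⟨i, ⟨z, hz, hza, hzf⟩, ⟨w, hw, hwb, hwf⟩⟩ := (h1.and h2).exists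
  have h3 : z = w := hinj i hz hw (by rw [hzf, hwf, hab])
  subst h3
  have := dist_triangle_left a b z
  linarith

/-- the family is nonempty, with nonzero derivative -/
lemma exists_fam {U : Set ℂ} (hUo : IsOpen U) (hUc : IsSimplyConnected U) (hU : U ≠ univ)
    {z₀ : ℂ} (hz₀ : z₀ ∈ U) : ∃ f ∈ Fam U z₀, deriv f z₀ ≠ 0 := by
  obtain ⟨g, hgm, hgi, hgd⟩ := exists_mapsTo_unitBall_injOn_deriv_ne_zero hUo hUc hU
  have ha : ‖g z₀‖ < 1 := mem_ball_zero_iff.mp (hgm hz₀)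
  have hgdiff : ∀ z ∈ U, DifferentiableAt ℂ g z := fun z hz =>
    differentiableAt_of_deriv_ne_zero (hgd z hz)
  refine ⟨mob (g z₀) ∘ g, ⟨?_, ?_, ?_, ?_⟩, ?_⟩
  · exact (differentiableOn_mob ha).comp (fun z hz => (hgdiff z hz).differentiableWithinAt) hgm
  · exact (mob_injOn ha).comp hgi hgm
  · exact (mapsTo_mob ha).comp hgm
  · simp [mob_self]
  · have h1 := (hasDerivAt_mob ha ha).comp z₀ (hgdiff z₀ hz₀).hasDerivAt
    rw [h1.deriv]
    have h2 := mob_den_ne ha ha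
    refine mul_ne_zero (div_ne_zero h2 (pow_ne_zero 2 h2)) (hgd z₀ hz₀)

/-- the square root trick: if `f` in the family omits a value then some `h` in the family has a
larger derivative at `z₀` -/
lemma exists_larger {U : Set ℂ} (hUo : IsOpen U) (hUc : IsSimplyConnected U)
    {z₀ : ℂ} (hz₀ : z₀ ∈ U) {f : ℂ → ℂ} (hf : f ∈ Fam U z₀) (hfd : deriv f z₀ ≠ 0)
    {w : ℂ} (hw : w ∈ ball (0 : ℂ) 1) (hwU : w ∉ f '' U) :
    ∃ h ∈ Fam U z₀, ‖deriv f z₀‖ < ‖deriv h z₀‖ := by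
  obtain ⟨hfdiff, hfinj, hfmaps, hfz⟩ := hf
  have hw1 : ‖w‖ < 1 := mem_ball_zero_iff.mp hw
  have hw0 : w ≠ 0 := by
    rintro rfl
    exact hwU ⟨z₀, hz₀, hfz⟩
  set p : ℂ → ℂ := mob w ∘ f with hp
  have hpdiff : DifferentiableOn ℂ p U := (differentiableOn_mob hw1).comp hfdiff hfmaps
  have hpmaps : MapsTo p U (ball 0 1) := (mapsTo_mob hw1).comp hfmaps
  have hpinj : InjOn p U := (mob_injOn hw1).comp hfinj hfmaps
  have hp0 : 0 ∉ p '' U := by
    rintro ⟨z, hz, hz0⟩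
    have h1 : f z = w := by
      apply mob_injOn hw1 (hfmaps hz) hw
      rw [mob_self]; exact hz0
    exact hwU ⟨z, hz, h1⟩
  obtain ⟨g, hgc, hg2⟩ := Complex.exists_continuousOn_pow_eq hUc hUo hpdiff.continuousOn hp0
    two_ne_zero
  have hgne : ∀ z ∈ U, g z ≠ 0 := by
    intro z hz h0
    apply hp0
    refine ⟨z, hz, ?_⟩
    rw [← hg2 z, h0]; simp
  have hpat : ∀ z ∈ U, DifferentiableAt ℂ p z := fun z hz => hpdiff.differentiableAt (hUo.mem_nhds hz)
  -- derivative of the square root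
  have hgd : ∀ z ∈ U, HasDerivAt g (deriv p z / (2 * g z)) z := by
    intro z hz
    have hsq : HasStrictDerivAt (fun y : ℂ => y ^ 2) (2 * g z) (g z) := by
      simpa using hasStrictDerivAt_pow 2 (g z)
    have hne : (2 * g z) ≠ 0 := mul_ne_zero two_ne_zero (hgne z hz)
    have hcont : ContinuousAt g z := hgc.continuousAt (hUo.mem_nhds hz)
    -- local inverse of the square
    have hloc := hsq.to_localInverse hne
    have hleft : ∀ᶠ y in 𝓝 (g z), hsq.localInverse (fun y : ℂ => y ^ 2) (2 * g z) (g z) hne (y ^ 2) = y :=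
      hsq.eventually_left_inverse hne
    have hg_eq : g =ᶠ[𝓝 z] fun y => hsq.localInverse (fun y : ℂ => y ^ 2) (2 * g z) (g z) hne (p y) := by
      filter_upwards [hcont.eventually hleft] with y hy
      rw [← hg2 y, hy]
    have h1 : HasDerivAt (hsq.localInverse (fun y : ℂ => y ^ 2) (2 * g z) (g z) hne) (2 * g z)⁻¹ (p z) := by
      have := hloc.hasDerivAt
      rwa [show (g z) ^ 2 = p z from hg2 z] at this
    have h2 := h1.comp z (hpat z hz).hasDerivAt
    refine (h2.congr_of_eventuallyEq hg_eq).congr_deriv ?_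
    rw [div_eq_mul_inv, mul_comm]
  have hgdiff : DifferentiableOn ℂ g U := fun z hz => (hgd z hz).differentiableAt.differentiableWithinAt
  have hgnorm : ∀ z, ‖g z‖ ^ 2 = ‖p z‖ := fun z => by rw [← norm_pow, hg2]
  have hgmaps : MapsTo g U (ball 0 1) := by
    intro z hz
    rw [mem_ball_zero_iff]
    have h1 := mem_ball_zero_iff.mp (hpmaps hz)
    rw [← hgnorm z] at h1
    by_contra hcon
    push Not at hcon
    nlinarith
  have hginj : InjOn g U := by
    intro a ha b hb hab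
    apply hpinj ha hb
    rw [← hg2 a, ← hg2 b, hab]
  have hc : ‖g z₀‖ < 1 := mem_ball_zero_iff.mp (hgmaps hz₀)
  refine ⟨mob (g z₀) ∘ g, ⟨(differentiableOn_mob hc).comp hgdiff hgmaps,
    (mob_injOn hc).comp hginj hgmaps, (mapsTo_mob hc).comp hgmaps, by simp [mob_self]⟩, ?_⟩
  have hcomp := (hasDerivAt_mob hc hc).comp z₀ (hgd z₀ hz₀)
  have hfat : DifferentiableAt ℂ f z₀ := hfdiff.differentiableAt (hUo.mem_nhds hz₀)
  have hpd : HasDerivAt p ((1 - conj w * w) / (1 - conj w * f z₀) ^ 2 * deriv f z₀) z₀ :=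
    (hasDerivAt_mob hw1 (by rw [hfz]; simp)).comp z₀ hfat.hasDerivAt
  rw [hfz] at hpd
  rw [hcomp.deriv, hpd.deriv]
  have hpz : p z₀ = -w := by simp [hp, hfz, mob_zero]
  have hgz2 : ‖g z₀‖ ^ 2 = ‖w‖ := by rw [hgnorm, hpz, norm_neg]
  set s := ‖g z₀‖ with hs
  have hs0 : 0 < s := norm_pos_iff.mpr (hgne z₀ hz₀)
  have hconj : ∀ a : ℂ, ‖a‖ < 1 → ‖1 - conj a * a‖ = 1 - ‖a‖ ^ 2 := by
    intro a ha
    have h1 : 1 - conj a * a = ((1 - ‖a‖ ^ 2 : ℝ) : ℂ) := by
      rw [mul_comm, Complex.mul_conj, Complex.normSq_eq_norm_sq]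
      push_cast
      ring
    rw [h1, Complex.norm_real, Real.norm_of_nonneg]
    nlinarith [norm_nonneg a]
  simp only [norm_mul, norm_div, norm_pow, mul_zero, sub_zero, one_pow, div_one,
    hconj w hw1, hconj (g z₀) hc, ← hs]
  rw [← hgz2, Complex.norm_ofNat]
  have hfpos : 0 < ‖deriv f z₀‖ := norm_pos_iff.mpr hfd
  have h1s : 0 < 1 - s ^ 2 := by nlinarith
  have key : (1 - s ^ 2) / (1 - s ^ 2) ^ 2 * ((1 - (s ^ 2) ^ 2) * ‖deriv f z₀‖ / (2 * s))
      = (1 + s ^ 2) / (2 * s) * ‖deriv f z₀‖ := by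
    field_simp
    ring
  rw [key]
  have h2 : 1 < (1 + s ^ 2) / (2 * s) := by
    rw [lt_div_iff₀ (by positivity)]
    nlinarith [sq_pos_of_pos (by linarith : 0 < 1 - s)]
  nlinarith

/-- Riemann mapping theorem -/
theorem riemann_mapping {U : Set ℂ} (hUo : IsOpen U) (hUc : IsSimplyConnected U) (hU : U ≠ univ)
    {z₀ : ℂ} (hz₀ : z₀ ∈ U) :
    ∃ f : ℂ → ℂ, DifferentiableOn ℂ f U ∧ InjOn f U ∧ f '' U = ball 0 1 ∧ f z₀ = 0 := by
  obtain ⟨r, hr, hrU⟩ := Metric.isOpen_iff.mp hUo z₀ hz₀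
  set S : Set ℝ := (fun f : ℂ → ℂ => ‖deriv f z₀‖) '' Fam U z₀ with hS
  have hbdd : BddAbove S := by
    refine ⟨1 / r, ?_⟩
    rintro _ ⟨f, hf, rfl⟩
    apply Complex.norm_deriv_le_div_of_mapsTo_ball (hf.1.mono hrU) _ hr
    intro y hy
    rw [hf.2.2.2]
    exact ball_subset_closedBall (hf.2.2.1 (hrU hy))
  obtain ⟨f₀, hf₀, hf₀d⟩ := exists_fam hUo hUc hU hz₀
  have hne : S.Nonempty := ⟨_, f₀, hf₀, rfl⟩
  set M := sSup S with hM
  have hMpos : 0 < M := lt_of_lt_of_le (norm_pos_iff.mpr hf₀d) (le_csSup hbdd ⟨f₀, hf₀, rfl⟩)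
  have hseq : ∃ u : ℕ → ℝ, Monotone u ∧ Tendsto u atTop (𝓝 M) ∧ ∀ n, u n ∈ S :=
    exists_seq_tendsto_sSup hne hbdd
  obtain ⟨u, -, hu, huS⟩ := hseq
  choose F hF hFu using huS
  obtain ⟨f, hf⟩ := exists_ultra_limit hUo (fun i => (hF i).1)
    (fun i => (hF i).2.2.1.mono_right ball_subset_closedBall)
  have hfdiff : DifferentiableOn ℂ f U :=
    hf.differentiableOn (Eventually.of_forall fun i => (hF i).1) hUo
  have hderiv := (hf.deriv (Eventually.of_forall fun i => (hF i).1) hUo).tendsto_at hz₀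
  have hnorm : ‖deriv f z₀‖ = M := by
    have h1 : Tendsto (fun i => ‖deriv (F i) z₀‖) (hyperfilter ℕ : Filter ℕ) (𝓝 ‖deriv f z₀‖) :=
      hderiv.norm
    have h2 : Tendsto (fun i => ‖deriv (F i) z₀‖) (hyperfilter ℕ : Filter ℕ) (𝓝 M) := by
      have h3 : (fun i => ‖deriv (F i) z₀‖) = u := funext fun i => hFu i
      rw [h3]
      exact hu.mono_left Nat.hyperfilter_le_atTop
    exact tendsto_nhds_unique h1 h2
  have hd0 : deriv f z₀ ≠ 0 := by
    rw [← norm_pos_iff, hnorm]; exact hMpos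
  have hUpre : IsPreconnected U := hUc.isPathConnected.isConnected.isPreconnected
  have hinj : InjOn f U := hurwitz hUo hUpre (fun i => (hF i).1) (fun i => (hF i).2.1) hf hz₀ hd0
  have hpt : ∀ z ∈ U, Tendsto (fun i => F i z) (hyperfilter ℕ : Filter ℕ) (𝓝 (f z)) :=
    fun z hz => hf.tendsto_at hz
  have hcl : MapsTo f U (closedBall 0 1) := by
    intro z hz
    refine isClosed_closedBall.mem_of_tendsto (hpt z hz) (Eventually.of_forall fun i => ?_)
    exact ball_subset_closedBall ((hF i).2.2.1 hz)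
  have hopen : ∀ s ⊆ U, IsOpen s → IsOpen (f '' s) := by
    rcases (hfdiff.analyticOnNhd hUo).is_constant_or_isOpen hUpre with ⟨c, hc⟩ | h
    · exfalso
      apply hd0
      have h2 : f =ᶠ[𝓝 z₀] fun _ => c := by
        filter_upwards [hUo.mem_nhds hz₀] with z hz using hc z hz
      rw [h2.deriv_eq]
      simp
    · exact h
  have hmaps : MapsTo f U (ball 0 1) := by
    intro z hz
    have h1 : f '' U ⊆ interior (closedBall 0 1) :=
      interior_maximal (by rintro _ ⟨y, hy, rfl⟩; exact hcl hy) (hopen U subset_rfl hUo)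
    rw [interior_closedBall _ one_ne_zero] at h1
    exact h1 ⟨z, hz, rfl⟩
  have hfz : f z₀ = 0 := by
    have h1 : Tendsto (fun i => F i z₀) (hyperfilter ℕ : Filter ℕ) (𝓝 0) := by
      have : (fun i => F i z₀) = fun _ => 0 := funext fun i => (hF i).2.2.2
      rw [this]
      exact tendsto_const_nhds
    exact tendsto_nhds_unique (hpt z₀ hz₀) h1
  have hfam : f ∈ Fam U z₀ := ⟨hfdiff, hinj, hmaps, hfz⟩
  refine ⟨f, hfdiff, hinj, ?_, hfz⟩
  apply Subset.antisymm
  · rintro _ ⟨z, hz, rfl⟩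
    exact hmaps hz
  · intro w hw
    by_contra hwU
    obtain ⟨h, hh, hlt⟩ := exists_larger hUo hUc hz₀ hfam hd0 hw hwU
    have h1 : ‖deriv h z₀‖ ≤ M := le_csSup hbdd ⟨h, hh, rfl⟩
    linarith

end Vale.Agent.P123
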