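import Vale.Agent.P123.Defs

/-! # P123 [E2]: reduction to finite dimensional spaces -/

open Complex Metric Set Filter Polynomial
open scoped Topology ComplexConjugate InnerProductSpace

namespace Vale.Agent.P123

theorem norm_le_of_mem_numRange {H : Type*} [NormedAddCommGroup H] [InnerProductSpace ℂ H]
    (A : H →L[ℂ] H) {z : ℂ} (hz : z ∈ numRange A) : ‖z‖ ≤ ‖A‖ := by
  obtain ⟨x, hx, rfl⟩ := hz
  calc ‖⟪x, A x⟫_ℂ‖ ≤ ‖x‖ * ‖A x‖ := norm_inner_le_norm _ _
    _ ≤ ‖x‖ * (‖A‖ * ‖x‖) := by gcongr; exact A.le_opNorm x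
    _ = ‖A‖ := by rw [hx]; ring

theorem bddAbove_eval_numRange {H : Type*} [NormedAddCommGroup H] [InnerProductSpace ℂ H]
    (A : H →L[ℂ] H) (P : ℂ[X]) :
    BddAbove ((fun w : ℂ => ‖P.eval w‖) '' numRange A) := by
  have hc : IsCompact (closedBall (0 : ℂ) ‖A‖) := isCompact_closedBall _ _
  have h1 : BddAbove ((fun w : ℂ => ‖P.eval w‖) '' closedBall (0 : ℂ) ‖A‖) :=
    (hc.image (by fun_prop)).bddAbove
  refine h1.mono (image_mono ?_)
  intro z hz
  rw [mem_closedBall_zero_iff]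
  exact norm_le_of_mem_numRange A hz

theorem numRange_nonempty {H : Type*} [NormedAddCommGroup H] [InnerProductSpace ℂ H]
    [Nontrivial H] (A : H →L[ℂ] H) : (numRange A).Nonempty := by
  obtain ⟨x, hx⟩ := exists_ne (0 : H)
  have hxn : ‖x‖ ≠ 0 := norm_ne_zero_iff.2 hx
  refine ⟨_, ((‖x‖⁻¹ : ℝ) : ℂ) • x, ?_, rfl⟩
  rw [norm_smul, Complex.norm_real, norm_inv, norm_norm, inv_mul_cancel₀ hxn]

/-- [E2] Reduce.lean -/
theorem bound_of_finDim {H : Type*} [NormedAddCommGroup H] [InnerProductSpace ℂ H]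
    [Nontrivial H] (A : H →L[ℂ] H) (P : ℂ[X])
    (hfd : ∀ (V : Submodule ℂ H) [FiniteDimensional ℂ V] [Nontrivial V] (B : V →L[ℂ] V),
      ‖aeval B P‖ ≤ 2 * sSup ((fun w : ℂ => ‖P.eval w‖) '' numRange B)) :
    ‖aeval A P‖ ≤ 2 * sSup ((fun w : ℂ => ‖P.eval w‖) '' numRange A) := by
  have hnn : 0 ≤ 2 * sSup ((fun w : ℂ => ‖P.eval w‖) '' numRange A) := by
    refine mul_nonneg (by norm_num) (Real.sSup_nonneg ?_)
    rintro _ ⟨w, _, rfl⟩
    exact norm_nonneg _
  refine ContinuousLinearMap.opNorm_le_bound _ hnn ?_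
  intro x
  by_cases hx0 : x = 0
  · rw [hx0, map_zero, norm_zero, mul_zero]
  set d := P.natDegree with hd
  set V : Submodule ℂ H := Submodule.span ℂ (range fun i : Fin (d + 1) => (A ^ (i : ℕ)) x) with hV
  have : FiniteDimensional ℂ V := FiniteDimensional.span_of_finite ℂ (finite_range _)
  have hmem : ∀ i ≤ d, (A ^ i) x ∈ V := fun i hi =>
    Submodule.subset_span ⟨⟨i, by omega⟩, rfl⟩
  have hxV : x ∈ V := by simpa using hmem 0 (Nat.zero_le _)
  set x' : V := ⟨x, hxV⟩ with hx'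
  have hx'0 : x' ≠ 0 := by
    intro h
    exact hx0 (congrArg Subtype.val h)
  have : Nontrivial V := ⟨⟨x', 0, hx'0⟩⟩
  set B : V →L[ℂ] V := V.orthogonalProjectionOnto ∘L A ∘L V.subtypeL with hB
  have hBapp : ∀ v : V, B v = V.orthogonalProjectionOnto (A (v : H)) := fun v => rfl
  have hpow : ∀ i ≤ d, (((B ^ i) x' : V) : H) = (A ^ i) x := by
    intro i
    induction i with
    | zero => intro _; simp [hx']
    | succ i ih =>
      intro hi
      have h1 := ih (by omega)
      have h2 : (A ^ (i + 1)) x = A ((A ^ i) x) := by rw [pow_succ']; rfl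
      have h3 : (B ^ (i + 1)) x' = B ((B ^ i) x') := by rw [pow_succ']; rfl
      have h4 : A ((A ^ i) x) ∈ V := by rw [← h2]; exact hmem _ hi
      rw [h3, hBapp, h1, h2]
      have := Submodule.orthogonalProjectionOnto_mem_subspace_eq_self (K := V)
        (⟨A ((A ^ i) x), h4⟩ : V)
      exact congrArg Subtype.val this
  have heval : (((aeval B P) x' : V) : H) = (aeval A P) x := by
    rw [aeval_eq_sum_range, aeval_eq_sum_range]
    simp only [sum_apply, smul_apply,
      Submodule.coe_sum, Submodule.coe_smul]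
    refine Finset.sum_congr rfl fun i hi => ?_
    rw [hpow i (by have := Finset.mem_range.1 hi; omega)]
  have hsub : numRange B ⊆ numRange A := by
    rintro z ⟨v, hv, rfl⟩
    refine ⟨(v : H), hv, ?_⟩
    rw [hBapp, Submodule.inner_orthogonalProjectionOnto_eq_of_mem_left]
  calc ‖(aeval A P) x‖ = ‖(aeval B P) x'‖ := by rw [← heval]; rfl
    _ ≤ ‖aeval B P‖ * ‖x'‖ := ContinuousLinearMap.le_opNorm _ _
    _ ≤ (2 * sSup ((fun w : ℂ => ‖P.eval w‖) '' numRange B)) * ‖x'‖ := by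
        gcongr; exact hfd V B
    _ ≤ (2 * sSup ((fun w : ℂ => ‖P.eval w‖) '' numRange A)) * ‖x‖ := by
        have : ‖x'‖ = ‖x‖ := rfl
        rw [this]
        have h5 := csSup_le_csSup (bddAbove_eval_numRange A P)
          ((numRange_nonempty B).image (fun w : ℂ => ‖P.eval w‖)) (image_mono hsub)
        exact mul_le_mul_of_nonneg_right (mul_le_mul_of_nonneg_left h5 (by norm_num))
          (norm_nonneg _)

end Vale.Agent.P123
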