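import Vale.Agent.P123.Defs

/-! # P123 [E3]: the constant 2 is optimal -/

open Complex Metric Set Filter Polynomial
open scoped Topology ComplexConjugate InnerProductSpace

universe u

namespace Vale.Agent.P123

/-- [E3] Sharp.lean: the 2x2 Jordan block on `EuclideanSpace ℂ (ULift.{u} (Fin 2))` -/
theorem two_le {C : ℝ} (hC : IsCrouzeixBound.{u} C) : 2 ≤ C := by
  set e0 : EuclideanSpace ℂ (ULift.{u} (Fin 2)) := EuclideanSpace.single ⟨0⟩ 1 with he0
  set e1 : EuclideanSpace ℂ (ULift.{u} (Fin 2)) := EuclideanSpace.single ⟨1⟩ 1 with he1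
  have : Nontrivial (EuclideanSpace ℂ (ULift.{u} (Fin 2))) := by
    refine ⟨⟨e0, 0, ?_⟩⟩
    intro h
    have := congrArg norm h
    rw [he0, PiLp.norm_single, norm_zero] at this
    simp at this
  have hn0 : ‖e0‖ = 1 := by rw [he0, PiLp.norm_single]; simp
  have hn1 : ‖e1‖ = 1 := by rw [he1, PiLp.norm_single]; simp
  set A : EuclideanSpace ℂ (ULift.{u} (Fin 2)) →L[ℂ] EuclideanSpace ℂ (ULift.{u} (Fin 2)) :=
    (innerSL ℂ e1).smulRight e0 with hA
  have hAapp : ∀ v, A v = ⟪e1, v⟫_ℂ • e0 := fun v => rfl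
  have hAn : 1 ≤ ‖A‖ := by
    have h1 : A e1 = e0 := by
      rw [hAapp, inner_self_eq_norm_sq_to_K, hn1]
      simp
    have h2 := A.le_opNorm e1
    rw [h1, hn0, hn1, mul_one] at h2
    exact h2
  have hN : ∀ z ∈ numRange A, ‖z‖ ≤ 1 / 2 := by
    rintro z ⟨v, hv, rfl⟩
    rw [hAapp, inner_smul_right]
    have h1 : ⟪e1, v⟫_ℂ = v ⟨1⟩ := by
      rw [he1, EuclideanSpace.inner_single_left]; simp
    have h0 : ⟪v, e0⟫_ℂ = conj (v ⟨0⟩) := by
      rw [he0, EuclideanSpace.inner_single_right]; simp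
    rw [h1, h0, norm_mul, RCLike.norm_conj]
    have h2 : ‖v‖ ^ 2 = ‖v ⟨0⟩‖ ^ 2 + ‖v ⟨1⟩‖ ^ 2 := by
      rw [EuclideanSpace.norm_sq_eq]
      rw [← Equiv.sum_comp Equiv.ulift.symm]
      rw [Fin.sum_univ_two]
      rfl
    rw [hv] at h2
    nlinarith [sq_nonneg (‖v ⟨0⟩‖ - ‖v ⟨1⟩‖)]
  have h := hC _ A X
  rw [aeval_X] at h
  simp only [eval_X] at h
  set S := sSup ((fun z : ℂ => ‖z‖) '' numRange A) with hS
  have hS0 : 0 ≤ S := by
    refine Real.sSup_nonneg ?_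
    rintro _ ⟨w, _, rfl⟩
    exact norm_nonneg _
  have hS1 : S ≤ 1 / 2 := by
    refine Real.sSup_le ?_ (by norm_num)
    rintro _ ⟨w, hw, rfl⟩
    exact hN w hw
  have h3 : 1 ≤ C * S := hAn.trans h
  by_contra hlt
  push Not at hlt
  have h4 : 0 < S := by
    rcases hS0.lt_or_eq with h | h
    · exact h
    · rw [← h, mul_zero] at h3; norm_num at h3
  nlinarith

end Vale.Agent.P123
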