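import Vale.Agent.P123.Ext

/-!
# P123: starlikeness of the level curves of the exterior map
-/

open Metric Set Filter
open scoped Topology ComplexConjugate

namespace Vale.Agent.P123

/-- the data delivered by `exists_phi` -/
structure PhiData (K : Set ℂ) (z₀ : ℂ) (f φ : ℂ → ℂ) : Prop where
  conv : Convex ℝ K
  comp : IsCompact K
  mem : z₀ ∈ interior K
  hf : DifferentiableOn ℂ f (invDom K z₀)
  hφ : DifferentiableOn ℂ φ (ball 0 1)
  inj : InjOn φ (ball 0 1)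
  maps : ∀ η ∈ ball (0 : ℂ) 1, φ η ∈ invDom K z₀
  phi0 : φ 0 = 0
  f0 : f 0 = 0
  fmem : ∀ w ∈ invDom K z₀, f w ∈ ball (0 : ℂ) 1
  phif : ∀ w ∈ invDom K z₀, φ (f w) = w
  fphi : ∀ η ∈ ball (0 : ℂ) 1, f (φ η) = η

theorem exists_phiData {K : Set ℂ} (hK : Convex ℝ K) (hKc : IsCompact K) {z₀ : ℂ}
    (hz₀ : z₀ ∈ interior K) : ∃ f φ : ℂ → ℂ, PhiData K z₀ f φ := by
  obtain ⟨f, φ, h1, h2, h3, h4, h5, h6, h7, h8⟩ := exists_phi hK hKc hz₀
  exact ⟨f, φ, hK, hKc, hz₀, h1, h2, h3, fun η hη => by rw [← h4]; exact ⟨η, hη, rfl⟩, h5, h6,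
    fun w hw => (h7 w hw).1, fun w hw => (h7 w hw).2, h8⟩

variable {K : Set ℂ} {z₀ : ℂ} {f φ : ℂ → ℂ}

lemma PhiData.z₀_mem (h : PhiData K z₀ f φ) : z₀ ∈ K := interior_subset h.mem

lemma PhiData.deriv_ne (h : PhiData K z₀ f φ) {η : ℂ} (hη : η ∈ ball (0 : ℂ) 1) :
    deriv φ η ≠ 0 := deriv_ne_zero_of_injOn isOpen_ball h.hφ h.inj hη

lemma PhiData.hasDerivAt (h : PhiData K z₀ f φ) {η : ℂ} (hη : η ∈ ball (0 : ℂ) 1) :
    HasDerivAt φ (deriv φ η) η :=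
  (h.hφ.differentiableAt (isOpen_ball.mem_nhds hη)).hasDerivAt

lemma PhiData.hasDerivAt_f (h : PhiData K z₀ f φ) {η : ℂ} (hη : η ∈ ball (0 : ℂ) 1) :
    HasDerivAt f (deriv φ η)⁻¹ (φ η) := by
  have hfd : DifferentiableAt ℂ f (φ η) :=
    h.hf.differentiableAt ((isOpen_invDom h.comp z₀).mem_nhds (h.maps η hη))
  have h1 : HasDerivAt (f ∘ φ) (deriv f (φ η) * deriv φ η) η :=
    hfd.hasDerivAt.comp η (h.hasDerivAt hη)
  have h2 : (f ∘ φ) =ᶠ[𝓝 η] id := by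
    filter_upwards [isOpen_ball.mem_nhds hη] with y hy using h.fphi y hy
  have h3 := h1.unique ((hasDerivAt_id η).congr_of_eventuallyEq h2)
  rw [← eq_inv_of_mul_eq_one_left h3]
  exact hfd.hasDerivAt

/-- scaling away from `a ∈ K`: in the exterior, `p ↦ p + t (p - a)` stays in the exterior -/
lemma scale_notMem (hK : Convex ℝ K) {a p : ℂ} (ha : a ∈ K) (hp : p ∉ K) {t : ℝ} (ht : 0 ≤ t) :
    (1 + t) * p - t * a ∉ K := by
  intro hmem
  apply hp
  have h1 : (0 : ℝ) < 1 + t := by linarith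
  have h2 := hK hmem ha (by positivity : 0 ≤ 1 / (1 + t)) (by positivity : 0 ≤ t / (1 + t))
    (by field_simp)
  have h3 : (1 / (1 + t)) • ((1 + t) * p - t * a) + (t / (1 + t)) • a = p := by
    simp only [Complex.real_smul]
    have h4 : (1 + t : ℂ) ≠ 0 := by exact_mod_cast h1.ne'
    push_cast
    field_simp
    ring
  rwa [h3] at h2

lemma den_ne (hK : Convex ℝ K) (hz : z₀ ∈ K) {a w : ℂ} (ha : a ∈ K) (hw : w ∈ invDom K z₀)
    {t : ℝ} (ht : 0 ≤ t) : 1 + t - t * (a - z₀) * w ≠ 0 := by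
  have h1 : (1 + t : ℂ) ≠ 0 := by
    have : (1 + t : ℝ) ≠ 0 := by positivity
    exact_mod_cast this
  by_cases h0 : w = 0
  · subst h0; simpa using h1
  intro h
  have hp : z₀ + w⁻¹ ∉ K := hw.resolve_left h0
  apply scale_notMem hK ha hp ht
  have h2 : (1 + t) * (z₀ + w⁻¹) - t * a = z₀ := by
    have h3 : (1 + t : ℂ) * w⁻¹ = t * (a - z₀) := by
      field_simp
      linear_combination h
    linear_combination h3
  rw [h2]; exact hz

lemma moved_mem (hK : Convex ℝ K) (hz : z₀ ∈ K) {a w : ℂ} (ha : a ∈ K) (hw : w ∈ invDom K z₀)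
    {t : ℝ} (ht : 0 ≤ t) : w / (1 + t - t * (a - z₀) * w) ∈ invDom K z₀ := by
  by_cases h0 : w = 0
  · subst h0; simp [invDom]
  have hp : z₀ + w⁻¹ ∉ K := hw.resolve_left h0
  refine Or.inr ?_
  have h1 := scale_notMem hK ha hp ht
  have hd := den_ne hK hz ha hw ht
  have h2 : z₀ + (w / (1 + t - t * (a - z₀) * w))⁻¹ = (1 + t) * (z₀ + w⁻¹) - t * a := by
    field_simp
    ring
  rwa [h2]

/-- Schwarz lemma -/
lemma PhiData.schwarz (h : PhiData K z₀ f φ) {a : ℂ} (ha : a ∈ K) {t : ℝ} (ht : 0 ≤ t)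
    {η : ℂ} (hη : η ∈ ball (0 : ℂ) 1) :
    ‖f (φ η / (1 + t - t * (a - z₀) * φ η))‖ ≤ ‖η‖ := by
  have hz := h.z₀_mem
  have hmaps : ∀ w ∈ ball (0 : ℂ) 1, φ w / (1 + t - t * (a - z₀) * φ w) ∈ invDom K z₀ :=
    fun w hw => moved_mem h.conv hz ha (h.maps w hw) ht
  refine Complex.norm_le_norm_of_mapsTo_ball
    (f := fun w => f (φ w / (1 + t - t * (a - z₀) * φ w))) (R := 1) ?_ ?_ ?_
    (mem_ball_zero_iff.mp hη)
  · have hdd : DifferentiableOn ℂ (fun w => 1 + (t : ℂ) - t * (a - z₀) * φ w) (ball 0 1) :=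
      (differentiableOn_const _).sub ((differentiableOn_const _).mul h.hφ)
    refine h.hf.comp (h.hφ.div hdd ?_) hmaps
    intro w hw
    exact den_ne h.conv hz ha (h.maps w hw) ht
  · intro w hw
    exact ball_subset_closedBall (h.fmem _ (hmaps w hw))
  · simp [h.phi0, h.f0]

lemma deriv_nonpos_of_le {u : ℝ → ℝ} {u' : ℝ} (hu : HasDerivAt u u' 0)
    (hle : ∀ t, 0 ≤ t → u t ≤ u 0) : u' ≤ 0 := by
  have h1 : HasDerivWithinAt u u' (Ioi 0) 0 := hu.hasDerivWithinAt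
  rw [hasDerivWithinAt_iff_tendsto_slope' (by simp)] at h1
  refine le_of_tendsto h1 ?_
  filter_upwards [self_mem_nhdsWithin] with t ht
  rw [slope_def_field, sub_zero]
  exact div_nonpos_of_nonpos_of_nonneg (by linarith [hle t (le_of_lt ht)]) (le_of_lt ht)

/-- starlikeness with respect to `a ∈ K`, in the variable `η` -/
theorem PhiData.star (h : PhiData K z₀ f φ) {a : ℂ} (ha : a ∈ K) {η : ℂ}
    (hη : η ∈ ball (0 : ℂ) 1) :
    0 ≤ (conj η * ((φ η - (a - z₀) * φ η ^ 2) / deriv φ η)).re := by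
  set w := φ η with hw
  have hden : ∀ t : ℝ, 0 ≤ t → (1 + t - t * (a - z₀) * w : ℂ) ≠ 0 := fun t ht =>
    den_ne h.conv h.z₀_mem ha (h.maps η hη) ht
  -- the curve
  have h1 : HasDerivAt (fun t : ℝ => w / (1 + t - t * (a - z₀) * w)) (-(w - (a - z₀) * w ^ 2)) 0 := by
    have h2 : HasDerivAt (fun t : ℝ => (1 + t - t * (a - z₀) * w : ℂ)) (1 - (a - z₀) * w) 0 := by
      have h3 : HasDerivAt (fun t : ℝ => (t : ℂ)) 1 0 := Complex.ofRealCLM.hasDerivAt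
      have h4 := (h3.const_add (1 : ℂ)).fun_sub ((h3.mul_const (a - z₀)).mul_const w)
      simpa using h4
    have h5 := (hasDerivAt_const (0 : ℝ) w).fun_div h2 (hden 0 le_rfl)
    refine h5.congr_deriv ?_
    simp
    ring
  have h2 : HasDerivAt (fun t : ℝ => f (w / (1 + t - t * (a - z₀) * w)))
      ((deriv φ η)⁻¹ * -(w - (a - z₀) * w ^ 2)) 0 := by
    have h3 : HasDerivAt f (deriv φ η)⁻¹ ((fun t : ℝ => w / (1 + t - t * (a - z₀) * w)) 0) := by
      simpa using h.hasDerivAt_f hη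
    exact h3.comp 0 h1
  have h3 : HasDerivAt (fun t : ℝ => ‖f (w / (1 + t - t * (a - z₀) * w))‖ ^ 2)
      (2 * (inner ℝ η ((deriv φ η)⁻¹ * -(w - (a - z₀) * w ^ 2)))) 0 := by
    have h4 := h2.norm_sq
    simpa [h.fphi η hη, hw] using h4
  have h4 := deriv_nonpos_of_le h3 (fun t ht => by
    have h5 := h.schwarz ha ht hη
    have h6 : f (w / (1 + ((0 : ℝ) : ℂ) - ((0 : ℝ) : ℂ) * (a - z₀) * w)) = η := by
      simp [hw, h.fphi η hη]
    rw [h6]
    gcongr)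
  rw [Complex.inner, mul_comm _ (conj η)] at h4
  have h5 : conj η * ((w - (a - z₀) * w ^ 2) / deriv φ η)
      = -(conj η * ((deriv φ η)⁻¹ * -(w - (a - z₀) * w ^ 2))) := by
    rw [div_eq_mul_inv]; ring
  rw [h5, Complex.neg_re]
  linarith

end Vale.Agent.P123
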