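import Vale.Agent.P123.Defs

/-! # P123 [E0]: the Toeplitz-Hausdorff theorem -/

open Complex Metric Set Filter Polynomial
open scoped Topology ComplexConjugate InnerProductSpace

namespace Vale.Agent.P123

/-- [E0] TH.lean: the Toeplitz-Hausdorff theorem -/
theorem convex_numRange {H : Type*} [NormedAddCommGroup H] [InnerProductSpace ℂ H]
    (A : H →L[ℂ] H) : Convex ℝ (numRange A) := by
  rintro a ⟨x₀, hx₀, hax₀⟩ b ⟨y, hy, hby⟩ α β hα hβ hαβ
  -- the target value is `a + β (b - a)`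
  have hval : α • a + β • b = a + β * (b - a) := by
    have : α = 1 - β := by linarith
    rw [this, Complex.real_smul, Complex.real_smul]
    push_cast
    ring
  rw [hval]
  by_cases hab : b = a
  · refine ⟨x₀, hx₀, ?_⟩
    rw [hab, hax₀]
    ring
  set d : ℂ := b - a with hd
  have hd0 : d ≠ 0 := sub_ne_zero.2 hab
  set B : H →L[ℂ] H := A - a • (1 : H →L[ℂ] H) with hB
  have hBapp : ∀ v : H, B v = A v - a • v := by
    intro v
    simp [hB]
  have hself : ∀ v : H, ‖v‖ = 1 → ⟪v, v⟫_ℂ = 1 := by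
    intro v hv
    rw [inner_self_eq_norm_sq_to_K, hv]
    simp
  -- the phase
  set p : ℂ := ⟪x₀, B y⟫_ℂ / d with hp
  set q : ℂ := ⟪y, B x₀⟫_ℂ / d with hq
  obtain ⟨u, hu1, hu2⟩ : ∃ u : ℂ, ‖u‖ = 1 ∧ (conj u * p + u * q).im = 0 := by
    set w : ℂ := q - conj p with hw
    have key : ∀ u : ℂ, (conj u * p + u * q).im = (u * w).im := by
      intro u
      rw [hw, mul_sub, Complex.sub_im, Complex.add_im]
      have : (u * conj p).im = -(conj u * p).im := by
        have : u * conj p = conj (conj u * p) := by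
          rw [map_mul, Complex.conj_conj]
        rw [this, Complex.conj_im]
      rw [this]
      ring
    by_cases hw0 : w = 0
    · refine ⟨1, by simp, ?_⟩
      rw [key, hw0]
      simp
    · have hwn : ‖w‖ ≠ 0 := norm_ne_zero_iff.2 hw0
      refine ⟨conj w / ‖w‖, ?_, ?_⟩
      · rw [norm_div, RCLike.norm_conj, Complex.norm_real, norm_norm, div_self hwn]
      · rw [key]
        have : conj w / (‖w‖ : ℂ) * w = ((‖w‖ : ℝ) : ℂ) := by
          have h1 : conj w * w = ((‖w‖ : ℝ) : ℂ) ^ 2 := Complex.conj_mul' w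
          have h2 : ((‖w‖ : ℝ) : ℂ) ≠ 0 := by exact_mod_cast hwn
          field_simp
          rw [h1]
        rw [this, Complex.ofReal_im]
  set x : H := u • x₀ with hx
  have hxn : ‖x‖ = 1 := by rw [hx, norm_smul, hu1, hx₀, one_mul]
  have huu : conj u * u = 1 := by
    rw [Complex.conj_mul', hu1]; simp
  have hxx : ⟪x, B x⟫_ℂ = 0 := by
    rw [hx, map_smul, inner_smul_left, inner_smul_right, ← mul_assoc, huu, one_mul, hBapp,
      inner_sub_right, inner_smul_right, hself x₀ hx₀, hax₀]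
    ring
  have hyy : ⟪y, B y⟫_ℂ = d := by
    rw [hBapp, inner_sub_right, inner_smul_right, hself y hy, hby, hd]
    ring
  have hxy : (⟪x, B y⟫_ℂ + ⟪y, B x⟫_ℂ) = d * (conj u * p + u * q) := by
    rw [hx, map_smul, inner_smul_left, inner_smul_right, hp, hq]
    field_simp
  -- the path
  set v : ℝ → H := fun s => ((1 - s : ℝ) : ℂ) • x + ((s : ℝ) : ℂ) • y with hv
  set m : ℝ := (conj u * p + u * q).re with hm
  have hmc : conj u * p + u * q = (m : ℂ) := by
    apply Complex.ext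
    · rw [Complex.ofReal_re]
    · rw [Complex.ofReal_im, hu2]
  have hvv : ∀ s : ℝ, ⟪v s, B (v s)⟫_ℂ = d * ((s ^ 2 + s * (1 - s) * m : ℝ) : ℂ) := by
    intro s
    have h1 : ⟪v s, B (v s)⟫_ℂ = ((1 - s : ℝ) : ℂ) * ((1 - s : ℝ) : ℂ) * ⟪x, B x⟫_ℂ +
        ((s : ℝ) : ℂ) * ((1 - s : ℝ) : ℂ) * (⟪x, B y⟫_ℂ + ⟪y, B x⟫_ℂ) +
        ((s : ℝ) : ℂ) * ((s : ℝ) : ℂ) * ⟪y, B y⟫_ℂ := by
      simp only [hv, map_add, map_smul, inner_add_left, inner_add_right, inner_smul_left,
        inner_smul_right, Complex.conj_ofReal]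
      ring
    rw [h1, hxx, hyy, hxy, hmc]
    push_cast
    ring
  have hv0 : ∀ s : ℝ, 0 ≤ s → s ≤ 1 → v s ≠ 0 := by
    intro s hs0 hs1 h0
    have h1 : ((1 - s : ℝ) : ℂ) • x = -(((s : ℝ) : ℂ) • y) := eq_neg_of_add_eq_zero_left h0
    have h2 : 1 - s = s := by
      have h3 := congrArg norm h1
      have e1 : ‖((1 - s : ℝ) : ℂ) • x‖ = 1 - s := by
        rw [norm_smul _ x, hxn, mul_one, Complex.norm_real, Real.norm_of_nonneg (by linarith)]
      have e2 : ‖((s : ℝ) : ℂ) • y‖ = s := by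
        rw [norm_smul, hy, mul_one, Complex.norm_real, Real.norm_of_nonneg hs0]
      rw [norm_neg, e1, e2] at h3
      exact h3
    have h3 : s = 1 / 2 := by linarith
    have h4 : x = -y := by
      rw [h3] at h1
      have h5 : ((1 / 2 : ℝ) : ℂ) ≠ 0 := by norm_num
      have h6 : ((1 - 1 / 2 : ℝ) : ℂ) = ((1 / 2 : ℝ) : ℂ) := by norm_num
      rw [h6, ← smul_neg] at h1
      exact smul_right_injective H h5 h1
    have h5 : ⟪x, B x⟫_ℂ = ⟪y, B y⟫_ℂ := by
      rw [h4, map_neg, inner_neg_left, inner_neg_right, neg_neg]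
    rw [hxx, hyy] at h5
    exact hd0 h5.symm
  have hvc : Continuous v := by
    rw [hv]; fun_prop
  set f : ℝ → ℝ := fun s => (s ^ 2 + s * (1 - s) * m) / ‖v s‖ ^ 2 with hf
  have hfc : ContinuousOn f (Set.Icc 0 1) := by
    refine ContinuousOn.div (by fun_prop) (by fun_prop) ?_
    intro s hs
    have := norm_pos_iff.2 (hv0 s hs.1 hs.2)
    positivity
  have hf0 : f 0 = 0 := by simp [hf]
  have hf1 : f 1 = 1 := by
    have : v 1 = y := by simp [hv]
    simp [hf, this, hy]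
  have hβ1 : β ≤ 1 := by linarith
  obtain ⟨s, hs, hfs⟩ := intermediate_value_Icc zero_le_one hfc
    (show β ∈ Set.Icc (f 0) (f 1) by rw [hf0, hf1]; exact ⟨hβ, hβ1⟩)
  have hvn := norm_pos_iff.2 (hv0 s hs.1 hs.2)
  set r : ℂ := ((‖v s‖⁻¹ : ℝ) : ℂ) with hr
  refine ⟨r • v s, ?_, ?_⟩
  · rw [norm_smul, hr, Complex.norm_real, norm_inv, norm_norm, inv_mul_cancel₀ hvn.ne']
  · have hunit : ‖r • v s‖ = 1 := by
      rw [norm_smul, hr, Complex.norm_real, norm_inv, norm_norm, inv_mul_cancel₀ hvn.ne']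
    have h1 : ⟪r • v s, B (r • v s)⟫_ℂ = d * (β : ℂ) := by
      rw [map_smul, inner_smul_left, inner_smul_right, hvv, hr, Complex.conj_ofReal, ← hfs, hf]
      push_cast
      field_simp
    rw [hBapp, inner_sub_right, inner_smul_right, hself _ hunit] at h1
    linear_combination h1

end Vale.Agent.P123
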